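import Vale.Agent.P366Y.C.Defs
import Vale.Agent.P366Z.Boch

/-!
# P366Y, row ORTH: the splitting of a symmetric tensor along a gradient
-/

open Vale.Agent.P366.Stmt Vale.Agent.P366Z Vale.Agent.P366Z.Boch

noncomputable section

namespace Vale.Agent.P366Y.C

namespace OrthH

variable {n : ℕ} {g : Field n} {x : E n}

/-- the inner product of two covectors -/
def qq (g : Field n) (x : E n) (a b : Fin n → ℝ) : ℝ := ∑ i, ∑ j, up g i j x * a i * b j

/-- the vector of a covector -/
def sh (g : Field n) (x : E n) (a : Fin n → ℝ) (i : Fin n) : ℝ := ∑ k, up g i k x * a k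

theorem qq_eq (a b : Fin n → ℝ) : qq g x a b = ∑ i, a i * sh g x b i := by
  simp only [qq, sh, Finset.mul_sum]
  exact Finset.sum_congr rfl fun i _ => Finset.sum_congr rfl fun j _ => by ring

theorem qq_sy (hg : Met g) (a b : Fin n → ℝ) : qq g x a b = qq g x b a := by
  rw [qq, Finset.sum_comm]
  exact Finset.sum_congr rfl fun i _ => Finset.sum_congr rfl fun j _ => by rw [hg.up_sy]; ring

theorem qq_comb (α β γ δ : ℝ) (a b c d : Fin n → ℝ) :
    qq g x (fun i => α * a i + β * b i) (fun i => γ * c i + δ * d i) =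
      α * γ * qq g x a c + α * δ * qq g x a d + β * γ * qq g x b c + β * δ * qq g x b d := by
  simp only [qq, Finset.mul_sum, ← Finset.sum_add_distrib]
  exact Finset.sum_congr rfl fun i _ => Finset.sum_congr rfl fun j _ => by ring

theorem bil_t (T : Fin n → Fin n → ℝ) (α β γ : ℝ) (a b : Fin n → ℝ) :
    bil g x T (fun k l => α * (a k * b l) + β * (b k * a l) + γ * (b k * b l)) =
      ∑ i, ∑ j, T i j * (α * (sh g x a i * sh g x b j) + β * (sh g x b i * sh g x a j) +
        γ * (sh g x b i * sh g x b j)) := by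
  simp only [bil, sh, Finset.sum_mul_sum]
  simp only [← Finset.sum_add_distrib, Finset.mul_sum]
  exact Finset.sum_congr rfl fun i _ => Finset.sum_congr rfl fun j _ =>
    Finset.sum_congr rfl fun k _ => Finset.sum_congr rfl fun l _ => by ring

theorem cross (a b c d : Fin n → ℝ) :
    ∑ i, ∑ j, a i * b j * (sh g x c i * sh g x d j) = qq g x a c * qq g x b d := by
  rw [qq_eq, qq_eq, Finset.sum_mul_sum]
  exact Finset.sum_congr rfl fun i _ => Finset.sum_congr rfl fun j _ => by ring

theorem bil_tt (hg : Met g) (α β γ : ℝ) (a b : Fin n → ℝ) :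
    bil g x (fun k l => α * (a k * b l) + β * (b k * a l) + γ * (b k * b l))
      (fun k l => α * (a k * b l) + β * (b k * a l) + γ * (b k * b l)) =
      (α ^ 2 + β ^ 2) * (qq g x a a * qq g x b b) + 2 * α * β * qq g x a b ^ 2 +
        2 * (α + β) * γ * (qq g x a b * qq g x b b) + γ ^ 2 * qq g x b b ^ 2 := by
  have h := qq_sy (x := x) hg b a
  have e : (α ^ 2 + β ^ 2) * (qq g x a a * qq g x b b) + 2 * α * β * qq g x a b ^ 2 +
      2 * (α + β) * γ * (qq g x a b * qq g x b b) + γ ^ 2 * qq g x b b ^ 2 =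
      α * α * (qq g x a a * qq g x b b) + α * β * (qq g x a b * qq g x b a) +
      α * γ * (qq g x a b * qq g x b b) + β * α * (qq g x b a * qq g x a b) +
      β * β * (qq g x b b * qq g x a a) + β * γ * (qq g x b b * qq g x a b) +
      γ * α * (qq g x b a * qq g x b b) + γ * β * (qq g x b b * qq g x b a) +
      γ * γ * (qq g x b b * qq g x b b) := by rw [h]; ring
  rw [bil_t, e]
  simp only [← cross, Finset.mul_sum, ← Finset.sum_add_distrib]
  exact Finset.sum_congr rfl fun i _ => Finset.sum_congr rfl fun j _ => by ring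

theorem le_of_sq {D M : ℝ} (hM : 0 ≤ M) (h : D ^ 2 ≤ M * D) : D ≤ M := by
  by_contra! k
  nlinarith

theorem bil_nn (hg : Met g) (T : Fin n → Fin n → ℝ) : 0 ≤ bil g x T T := by
  refine (((hg.inv_pos x).posSemidef.kronecker
    (hg.inv_pos x).posSemidef).dotProduct_mulVec_nonneg fun p => T p.1 p.2).trans_eq ?_
  simp only [dotProduct, Matrix.mulVec, star_trivial, Finset.mul_sum, Matrix.kroneckerMap,
    Matrix.of_apply, up, Fintype.sum_prod_type, bil]
  exact Finset.sum_congr rfl fun i _ => Finset.sum_congr rfl fun j _ =>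
    Finset.sum_congr rfl fun k _ => Finset.sum_congr rfl fun l _ => by ring

theorem tr_g (hg : Met g) : ∑ i, ∑ j, up g i j x * g x i j = n :=
  calc _ = ∑ _i : Fin n, (1 : ℝ) := Finset.sum_congr rfl fun i _ => by
        have := hg.up_mul i i x
        rw [if_pos rfl] at this
        rw [← this]
        exact Finset.sum_congr rfl fun j _ => by rw [hg.sy x i j]
    _ = n := by simp

end OrthH

open OrthH in
/-- **row ORTH** -/
theorem orth : ORTH := by
  intro n g T f u x hg hT
  obtain ⟨d, hd⟩ : ∃ d : Fin n → ℝ, d = fun i => pd i f x := ⟨_, rfl⟩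
  obtain ⟨e, he⟩ : ∃ e : Fin n → ℝ, e = fun i => pd i u x := ⟨_, rfl⟩
  obtain ⟨t, ht⟩ : ∃ t : Fin n → ℝ, t = fun i => ∑ k, T x i k * sh g x d k := ⟨_, rfl⟩
  have k0 : ∀ a : Fin n → ℝ, ∑ i, ∑ j, T x i j * (sh g x a i * sh g x d j) = qq g x t a :=
    fun a => by
      rw [qq_eq, ht]
      simp only [Finset.sum_mul]
      exact Finset.sum_congr rfl fun i _ => Finset.sum_congr rfl fun j _ => by ring
  have k0' : ∑ i, ∑ j, T x i j * (sh g x d i * sh g x t j) = qq g x t t := by
    rw [← k0, Finset.sum_comm]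
    exact Finset.sum_congr rfl fun i _ => Finset.sum_congr rfl fun j _ => by rw [hT]; ring
  have gf : ∀ i, gr g f i x = sh g x d i := fun i => by rw [hd]; rfl
  have gu : ∀ i, gr g u i x = sh g x e i := fun i => by rw [he]; rfl
  have e1 : ∀ i, tv g T f i x = sh g x t i := fun i => by
    simp only [tv, gf, ht, sh.eq_1 g x fun i => ∑ k, T x i k * sh g x d k, Finset.mul_sum,
      mul_assoc]
  have e2 : n1 g T f x = qq g x t t := by simp only [n1, e1, gf, mul_assoc, k0]
  have e3 : b2 g T u f x = qq g x t e := by simp only [b2, gu, gf, mul_assoc, k0]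
  have e4 : b2 g T f f x = qq g x t d := by simp only [b2, gf, mul_assoc, k0]
  have e5 : ip g f f x = qq g x d d := by rw [hd]; rfl
  have e6 : ip g f u x = qq g x d e := by rw [hd, he]; rfl
  have e7 : ip g u u x = qq g x e e := by rw [he]; rfl
  have e8 : normSq g T x = bil g x (T x) (T x) := rfl
  have b1 : ∀ α β γ, bil g x (T x) (fun k l => α * (t k * d l) + β * (d k * t l) + γ * (d k * d l)) =
      (α + β) * qq g x t t + γ * qq g x t d := fun α β γ => by
    rw [bil_t, add_mul]
    conv_rhs => rw [← k0 d, ← k0']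
    conv_rhs => enter [1, 1]; rw [k0', ← k0 t]
    simp only [Finset.mul_sum, ← Finset.sum_add_distrib]
    exact Finset.sum_congr rfl fun i _ => Finset.sum_congr rfl fun j _ => by ring
  have p0 := bil_nn (x := x) hg (T x)
  have p1 : 0 ≤ qq g x d d := hg.up_nonneg x d
  have cs : ∀ a b, qq g x a b ^ 2 ≤ qq g x a a * qq g x b b := hg.up_cs x
  refine ⟨p0, hg.ip_cs f u x, ?_, ?_, ?_, ?_, ?_, ?_, ?_⟩
  · have h := bil_cs hg x (T x) (g x)
    rwa [bil_g hg, bil_g hg, tr_g hg, mul_comm] at h
  · have h := bil_cs hg x (T x) fun k l => 1 * (t k * d l) + 0 * (d k * t l) + 0 * (d k * d l)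
    rw [b1, bil_tt hg] at h
    rw [e2, e5, e8]
    exact le_of_sq (mul_nonneg p0 p1) (by linarith)
  · rw [e2, e3, e7]
    exact cs t e
  · rw [e3, qq_sy hg, qq_eq, he]
    simp only [e1]
  · rw [e2, qq_eq]
    simp only [e1]
    rw [Finset.sum_comm]
    refine Finset.sum_congr rfl fun j _ => ?_
    rw [← Finset.sum_mul, ← hg.g_up_mul x j t]
    simp only [hg.sy x j, sh]
  · have h := bil_cs hg x (T x) fun k l => qq g x d d * (t k * d l) + qq g x d d * (d k * t l) +
      -qq g x t d * (d k * d l)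
    rw [b1, bil_tt hg] at h
    rw [e2, e4, e5, e8]
    exact le_of_sq (mul_nonneg p0 (sq_nonneg _)) (by linarith)
  · rw [e2, e3, e4, e5, e6, e7]
    rcases p1.eq_or_lt with h0 | h0
    · have h := cs t d
      rw [← h0, mul_zero] at h
      rw [← h0, pow_eq_zero_iff two_ne_zero |>.1 (h.antisymm (sq_nonneg _))]
      simp
    · have h := cs (fun i => qq g x d d * t i + -qq g x t d * d i)
        fun i => qq g x d d * e i + -qq g x d e * d i
      rw [qq_comb, qq_comb, qq_comb, qq_sy hg d t, qq_sy hg e d] at h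
      exact le_of_mul_le_mul_left (by linarith) (pow_pos h0 2)

end Vale.Agent.P366Y.C
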