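import Vale.Agent.P366Y.C.Defs
import Vale.Agent.P366Z.Calc
import Vale.Agent.P366.H474.D.Mu

/-!
# P366Y, block C, row STAT: the constraint equations of a graph in a static spacetime
-/

open MeasureTheory Metric Filter Topology Set
open scoped ContDiff ENNReal
open Vale.Agent.P366.Stmt Vale.Agent.P366Z
open Vale.Agent.P366.Kerr (pt sp tng con indG indK lapse ein ric)
open Vale.Agent.P366.GC (Sl Nv Tv Dv Tv_zero Tv_succ con_zero con_succ)

noncomputable section

namespace Vale.Agent.P366Y.C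

namespace StatH

variable {n : ℕ} {φ f : E n → ℝ} {γ : P366.Stmt.Field n} {p : E (n + 1)} {y : E n}

/-- a block diagonal matrix -/
def bl (c : ℝ) (A : Fin n → Fin n → ℝ) : Matrix (Fin (n + 1)) (Fin (n + 1)) ℝ := fun a b =>
  Fin.cases (motive := fun _ => ℝ) (Fin.cases (motive := fun _ => ℝ) c (fun _ => 0) b)
    (fun i => Fin.cases (motive := fun _ => ℝ) 0 (A i) b) a

section
variable (c : ℝ) (A : Fin n → Fin n → ℝ) (i j : Fin n)
theorem b00 : bl c A 0 0 = c := rfl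
theorem b0s : bl c A 0 j.succ = 0 := rfl
theorem bs0 : bl c A i.succ 0 = 0 := rfl
theorem bss : bl c A i.succ j.succ = A i j := rfl
end

/-- the static metric -/
def st (φ : E n → ℝ) (γ : P366.Stmt.Field n) : P366.Stmt.Field (n + 1) :=
  fun p => bl (-φ (sp p) ^ 2) (γ (sp p))

theorem sp_pt (t : ℝ) (y : E n) : sp (pt t y) = y := rfl

theorem sm_sp : ContDiff ℝ ∞ (sp : E (n + 1) → E n) :=
  contDiff_euclidean.2 fun i => contDiff_coord i.succ

theorem pd_sp (h : E n → ℝ) (i : Fin n) : pd i.succ (fun p => h (sp p)) p = pd i h (sp p) := by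
  unfold pd lineDeriv
  refine congrArg (deriv · 0) (funext fun t => congrArg h ?_)
  ext j
  simp [sp, Pi.single_apply]

theorem inv_st (hγ : Met γ) (h0 : ∀ x, 0 < φ x) (p : E (n + 1)) :
    mat (st φ γ) p * bl (-(φ (sp p) ^ 2)⁻¹) (fun i j => up γ i j (sp p)) = 1 := by
  have := (h0 (sp p)).ne'
  ext a b
  rw [Matrix.mul_apply, Fin.sum_univ_succ, Matrix.one_apply]
  refine Fin.cases ?_ (fun i => ?_) a <;> refine Fin.cases ?_ (fun j => ?_) b <;>
    simp [mat, st, b00, b0s, bs0, bss, this, hγ.mul_up, (Fin.succ_ne_zero _).symm]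

theorem up_st (hγ : Met γ) (h0 : ∀ x, 0 < φ x) (a b : Fin (n + 1)) (p : E (n + 1)) :
    up (st φ γ) a b p = bl (-(φ (sp p) ^ 2)⁻¹) (fun i j => up γ i j (sp p)) a b := by
  rw [up, Matrix.inv_eq_right_inv (inv_st hγ h0 p)]

theorem cr {m r : ℕ} {u : E m → ℝ} (h : Smooth u) : P366.H896.CR r univ u := fun _ _ =>
  (ContDiff.contDiffAt h).of_le (by exact_mod_cast le_top)

theorem met (hγ : Met γ) (hφ : Smooth φ) (h0 : ∀ x, 0 < φ x) : P366.GC.Met (st φ γ) univ where
  op := isOpen_univ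
  sm a b := cr (by
    refine Fin.cases ?_ (fun i => ?_) a <;> refine Fin.cases ?_ (fun j => ?_) b
    exacts [((ContDiff.comp hφ sm_sp).pow 2).neg, contDiff_const, contDiff_const,
      (ContDiff.comp (hγ.sm i j) sm_sp : ContDiff ℝ ∞ fun p => γ (sp p) i j)])
  symm p _ a b := by
    refine Fin.cases ?_ (fun i => ?_) a <;> refine Fin.cases ?_ (fun j => ?_) b
    exacts [rfl, rfl, rfl, hγ.sy _ i j]
  det p _ := Matrix.det_ne_zero_of_right_inverse (inv_st hγ h0 p)

/-- functions which do not depend on the time -/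
def Iv (F : E (n + 1) → ℝ) : Prop :=
  ∀ p (t : ℝ), F (p + t • EuclideanSpace.single 0 (1 : ℝ)) = F p

theorem Iv.zero {F : E (n + 1) → ℝ} (h : Iv F) (p : E (n + 1)) : pd 0 F p = 0 := by
  unfold pd lineDeriv
  simp only [h p, deriv_const]

theorem Iv.pd {F : E (n + 1) → ℝ} (h : Iv F) (a : Fin (n + 1)) : Iv (pd a F) := fun p t => by
  unfold P366.Stmt.pd lineDeriv
  simp only [add_right_comm p (t • _), h _ t]

theorem st_add (p : E (n + 1)) (t : ℝ) :
    st φ γ (p + t • EuclideanSpace.single 0 (1 : ℝ)) = st φ γ p := by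
  rw [st, st, show sp (p + t • EuclideanSpace.single 0 (1 : ℝ)) = sp p by ext j; simp [sp]]

theorem iv_st (a b : Fin (n + 1)) : Iv fun p => st φ γ p a b := fun p t => by
  simp only [st_add]

theorem iv_chr (a b c : Fin (n + 1)) : Iv (chr (st φ γ) a b c) := fun p t => by
  simp only [chr, up, mat, st_add, fun a b c => (iv_st (φ := φ) (γ := γ) a b).pd c p t]

theorem d0 (a b : Fin (n + 1)) : pd 0 (fun p => st φ γ p a b) p = 0 := (iv_st a b).zero p

theorem d0s (a : Fin (n + 1)) (j : Fin n) : pd a (fun p => st φ γ p 0 j.succ) p = 0 :=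
  pd_const 0 a p

theorem ds0 (a : Fin (n + 1)) (j : Fin n) : pd a (fun p => st φ γ p j.succ 0) p = 0 :=
  pd_const 0 a p

theorem d00 (hφ : Smooth φ) (j : Fin n) :
    pd j.succ (fun p => st φ γ p 0 0) p = -(2 * φ (sp p) * pd j φ (sp p)) := by
  refine (pd_sp (fun y => -φ y ^ 2) j).trans ?_
  rw [pd_neg, pd_pow (hφ.diff _)]
  simp

section
variable (hγ : Met γ) (h0 : ∀ x, 0 < φ x) (i j k : Fin n) (p : E (n + 1))
include hγ h0

theorem c000 : chr (st φ γ) 0 0 0 p = 0 := by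
  simp [chr, Fin.sum_univ_succ, up_st hγ h0, b0s, d0]

theorem c0ss : chr (st φ γ) 0 i.succ j.succ p = 0 := by
  simp [chr, Fin.sum_univ_succ, up_st hγ h0, b0s, d0, ds0]

theorem cs0s : chr (st φ γ) k.succ 0 j.succ p = 0 := by
  simp [chr, Fin.sum_univ_succ, up_st hγ h0, bs0, d0, d0s]

theorem css0 : chr (st φ γ) k.succ j.succ 0 p = 0 := by
  simp [chr, Fin.sum_univ_succ, up_st hγ h0, bs0, d0, d0s, ds0]

theorem c00s (hφ : Smooth φ) : chr (st φ γ) 0 0 j.succ p = pd j φ (sp p) / φ (sp p) := by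
  have := (h0 (sp p)).ne'
  simp only [chr, Fin.sum_univ_succ, up_st hγ h0, b00, b0s, d0, d00 hφ, zero_mul,
    Finset.sum_const_zero]
  field_simp
  ring

theorem c0s0 (hφ : Smooth φ) : chr (st φ γ) 0 j.succ 0 p = pd j φ (sp p) / φ (sp p) :=
  ((met hγ hφ h0).chr_symm (mem_univ p) _ _ _).trans (c00s hγ h0 j p hφ)

theorem ein_s0 : ein (st φ γ) i.succ 0 p = 0 := by
  have e : ∀ k : Fin n, pd k.succ (chr (st φ γ) k.succ i.succ 0) p = 0 := fun k => by
    rw [show chr (st φ γ) k.succ i.succ 0 = fun _ => 0 from funext (css0 hγ h0 i k), pd_const]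
  simp [ein, ric, st, bs0, Fin.sum_univ_succ, e, (iv_chr _ _ _).zero p, c000 hγ h0, c0ss hγ h0,
    cs0s hγ h0, css0 hγ h0]

theorem qf (f : E n → ℝ) (y : E n) :
    ∑ a, ∑ b, up (st φ γ) a b (pt (f y) y) * con f y a * con f y b =
      -(φ y ^ 2)⁻¹ + ip γ f f y := by
  simp [Fin.sum_univ_succ, up_st hγ h0, b00, b0s, bs0, bss, con_zero, con_succ, sp_pt, ip]

theorem lap_eq {L : ℝ} (hL : 0 < L) (h : -(φ y ^ 2)⁻¹ + ip γ f f y = -L⁻¹ ^ 2) :
    lapse (st φ γ) f y = L := by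
  rw [lapse, qf hγ h0, h, neg_neg, Real.sqrt_sq (inv_pos.2 hL).le, one_div, inv_inv]

theorem N0 : Nv (st φ γ) f 0 y = lapse (st φ γ) f y / φ y ^ 2 := by
  simp [Nv, Fin.sum_univ_succ, up_st hγ h0, b00, b0s, con_zero, sp_pt, div_eq_mul_inv]

theorem Ns : Nv (st φ γ) f i.succ y = lapse (st φ γ) f y * gr γ f i y := by
  simp [Nv, Fin.sum_univ_succ, up_st hγ h0, bs0, bss, con_succ, sp_pt, gr]

end

theorem indG_st (i j : Fin n) :
    indG (st φ γ) f y i j = γ y i j - φ y ^ 2 * pd i f y * pd j f y := by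
  simp [indG, tng, st, Fin.sum_univ_succ, b00, b0s, bs0, bss, sp_pt, Pi.single_apply]
  ring

theorem sl (hγ : Met γ) (hφ : Smooth φ) (h0 : ∀ x, 0 < φ x) (hf : Smooth f) {L : E n → ℝ}
    (hL : ∀ y, 0 < L y) (h : ∀ y, -(φ y ^ 2)⁻¹ + ip γ f f y = -(L y)⁻¹ ^ 2)
    (hi : Met (indG (st φ γ) f)) : Sl (st φ γ) f univ univ :=
  ⟨met hγ hφ h0, isOpen_univ, cr hf, fun _ _ => mem_univ _, fun y _ => by
    rw [qf hγ h0, h]
    exact neg_neg_of_pos (pow_pos (inv_pos.2 (hL y)) 2), fun y _ => (hi.det_pos y).ne'⟩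

theorem indK_st (hγ : Met γ) (hφ : Smooth φ) (h0 : ∀ x, 0 < φ x) (hS : Sl (st φ γ) f univ univ)
    (y : E n) (i j : Fin n) : indK (st φ γ) f y i j * (lapse (st φ γ) f y / φ y ^ 2) =
      hess (indG (st φ γ) f) f y i j + (pd i φ y * pd j f y + pd j φ y * pd i f y) / φ y := by
  have h := P366.GC.gauss_formula hS (mem_univ y) i j 0
  rw [N0 hγ h0, Dv, show Tv f j 0 = pd j f from rfl] at h
  simp [Fin.sum_univ_succ, c000 hγ h0, c0ss hγ h0, c00s hγ h0 _ _ hφ, c0s0 hγ h0 _ _ hφ, Tv_zero,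
    Tv_succ, sp_pt] at h
  rw [hess]
  linear_combination -h

theorem ein00 (hγ : Met γ) (hφ : Smooth φ) (h0 : ∀ x, 0 < φ x) (c : ℝ) (y : E n) :
    ein (st φ γ) 0 0 (pt c y) = φ y ^ 2 * scal γ y / 2 := by
  have e1 : indG (st φ γ) (fun _ => c) = γ := by
    funext y i j
    simp [indG_st, pd_const]
  have e2 : ∀ y, -(φ y ^ 2)⁻¹ + ip γ (fun _ => c) (fun _ => c) y = -(φ y)⁻¹ ^ 2 := fun y => by
    rw [ip_const_left, add_zero, inv_pow]
  have hS := sl hγ hφ h0 (f := fun _ => c) contDiff_const h0 e2 (e1.symm ▸ hγ)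
  have e3 := lap_eq hγ h0 (h0 y) (e2 y)
  have := (h0 y).ne'
  have e4 : ∀ i j, indK (st φ γ) (fun _ => c) y i j = 0 := fun i j => by
    simpa [hess, show ∀ j : Fin n, pd j (fun _ => c) = fun _ => 0 from
      fun j => funext (pd_const c j), pd_const, e3, this] using indK_st hγ hφ h0 hS y i j
  have h := P366.GC.mu_eq hS (mem_univ y)
  simp [e1, mu, tr, normSq, e4, Fin.sum_univ_succ, N0 hγ h0, Ns hγ h0, e3, gr, pd_const] at h
  field_simp at h
  linear_combination -h / 2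

end StatH

open StatH in
/-- **row STAT** -/
theorem stat_of (hB : GB) : STAT := by
  intro n g φ f hg hφ hf h0 x
  obtain ⟨hγ, -, -, hw⟩ := hB n g φ f hg hφ hf
  have w0 : ∀ y, 0 < ww g φ f y := fun y => one_pos.trans_le (hw y).1
  have e1 : indG (st φ (gb g φ f)) f = g := by
    funext y i j
    rw [indG_st, gb, add_sub_cancel_right]
  have e2 : ∀ y, -(φ y ^ 2)⁻¹ + ip (gb g φ f) f f y = -(φ y * ww g φ f y)⁻¹ ^ 2 := fun y => by
    have := (h0 y).ne'
    have := (w0 y).ne'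
    rw [(hw y).2.2.2.2.2.1]
    field_simp
    linear_combination (φ y ^ 2 * ip g f f y - 1) * (hw y).2.1
  have hS := sl hγ hφ h0 hf (fun y => mul_pos (h0 y) (w0 y)) e2 (e1.symm ▸ hg)
  have e3 := fun y => lap_eq hγ h0 (mul_pos (h0 y) (w0 y)) (e2 y)
  have e4 : indK (st φ (gb g φ f)) f = hh g φ f := by
    funext y i j
    have := (h0 y).ne'
    have := (w0 y).ne'
    have h := indK_st hγ hφ h0 hS y i j
    rw [e1, e3] at h
    rw [hh]
    field_simp at h ⊢
    linear_combination h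
  have a0 := (h0 x).ne'
  have a1 := (w0 x).ne'
  have a2 := (hw x).2.1
  have e5 : ∀ i, Nv (st φ (gb g φ f)) f i.succ x = φ x / ww g φ f x * gr g f i x := fun i => by
    rw [Ns hγ h0, e3, (hw x).2.2.2.2.1]
    field_simp
    linear_combination gr g f i x * a2
  have h1 := P366.GC.mu_eq hS (mem_univ x)
  have h2 := P366.GC.mom_ein hS (mem_univ x)
  rw [e1, e4] at h1 h2
  rw [Finset.sum_comm] at h1
  simp only [Finset.sum_comm (f := fun a b => ein _ a b _ * _ * Tv f _ b x)] at h2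
  simp only [← Finset.sum_mul] at h1 h2
  have h3 : ∑ a, ein (st φ (gb g φ f)) a 0 (pt (f x) x) * Nv (st φ (gb g φ f)) f a x =
      φ x * ww g φ f x * scal (gb g φ f) x / 2 := by
    simp only [Fin.sum_univ_succ, ein_s0 hγ h0, zero_mul, Finset.sum_const_zero, ein00 hγ hφ h0,
      N0 hγ h0, e3]
    field_simp
    ring
  generalize hv : (fun b => ∑ a, ein (st φ (gb g φ f)) a b (pt (f x) x) *
    Nv (st φ (gb g φ f)) f a x) = v
  simp only [fun b => congrFun hv b] at h1 h2 h3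
  have h4 : ∑ j, mom g (hh g φ f) j x * gr g f j x =
      v 0 * ip g f f x + ∑ j : Fin n, v j.succ * gr g f j x := by
    simp [h2, Fin.sum_univ_succ, Tv_zero, Tv_succ, add_mul, Finset.sum_add_distrib, ip_eq_gr,
      Finset.mul_sum, mul_assoc]
  rw [Fin.sum_univ_succ, N0 hγ h0, e3] at h1
  simp only [e5, mul_left_comm (v _), ← Finset.mul_sum] at h1
  rw [h1, h4, h3]
  field_simp
  linear_combination (-scal (gb g φ f) x * ww g φ f x) * a2

end Vale.Agent.P366Y.C
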