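import Vale.Agent.P366Y.C.Defs2
import Vale.Agent.P366Z.Calc2

/-!
# P366Y, block D: the vector field of the test at infinity
-/

open MeasureTheory Metric Filter Topology Set Asymptotics Bornology
open scoped ContDiff ENNReal
open Vale.Agent.P366.Stmt Vale.Agent.P366Z

noncomputable section

namespace Vale.Agent.P366Y.C

namespace AsyzX

variable {n : ℕ}

theorem asyO (hn : 3 ≤ n) {v : E n → ℝ} {a β : ℝ} (h : Asy v a β) :
    (fun x => v x - a) =O[cobounded (E n)] fun x => ‖x‖⁻¹ := by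
  obtain ⟨C, R, h⟩ := h
  have hn' : (3 : ℝ) ≤ n := by exact_mod_cast hn
  refine IsBigO.of_bound (|β| + |C|) ?_
  filter_upwards [eventually_cobounded_le_norm R, eventually_cobounded_le_norm 1] with x h1 h2
  have k1 : ‖x‖ ^ (2 - n : ℝ) ≤ ‖x‖⁻¹ :=
    (Real.rpow_le_rpow_of_exponent_le h2 (by linarith)).trans_eq (Real.rpow_neg_one _)
  have k2 : ‖x‖ ^ (1 - n : ℝ) ≤ ‖x‖⁻¹ :=
    (Real.rpow_le_rpow_of_exponent_le h2 (by linarith)).trans_eq (Real.rpow_neg_one _)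
  have k3 : C * ‖x‖ ^ (1 - n : ℝ) ≤ |C| * ‖x‖⁻¹ :=
    mul_le_mul (le_abs_self C) k2 (by positivity) (abs_nonneg C)
  have k4 : |β * ‖x‖ ^ (2 - n : ℝ)| ≤ |β| * ‖x‖⁻¹ := by
    rw [abs_mul, abs_of_nonneg (a := ‖x‖ ^ (2 - n : ℝ)) (by positivity)]
    exact mul_le_mul_of_nonneg_left k1 (abs_nonneg β)
  have k5 := abs_sub_abs_le_abs_sub (v x - a) (β * ‖x‖ ^ (2 - n : ℝ))
  rw [Real.norm_eq_abs, Real.norm_of_nonneg (by positivity)]
  linarith [(h x h1).1]

theorem far (hn : 3 ≤ n) {g K : Field n} {φ f T u U : E n → ℝ} {x : E n} (h0 : 0 < U x)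
    (hg : g x = cf U (eu n) x) (hf : ∀ᶠ y in 𝓝 x, f y = 0) (i : Fin n) :
    dens g x * zz g K φ f T u i x = 4 * gam n * (φ x * u x * U x ^ 2) * pd i u x := by
  have h1 : ∀ j, pd j f x = 0 := fun j => (pd_congr hf j).trans (pd_const 0 j x)
  have h2 : ∀ j, gr g f j x = 0 := fun j => by simp [gr, h1]
  have h3 : gb g φ f x = cf U (eu n) x := by
    rw [← hg]
    funext j k
    simp [gb, h1]
  have h4 : gr (gb g φ f) u i x = U x ^ (-(2 * bb n)) * pd i u x := by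
    simp [gr, up_of_eq h3, met_eu.up_cf h0, up_eu]
  have h5 : U x ^ (n * bb n) * U x ^ (-(2 * bb n)) = U x ^ 2 := by
    rw [← Real.rpow_add h0, n_bb hn, add_neg_cancel_right, Real.rpow_two]
  have h6 : ww g φ f x = 1 := by simp [ww, ip, h1]
  have h7 : yy g K φ f T i x = 0 := by simp [yy, tv, h2]
  rw [zz, h4, h6, h7, dens_of_eq hg, dens_cf h0, dens_eu, ← h5]
  ring

end AsyzX

open AsyzX

theorem asyz : ASYZ := by
  intro n g K f T u U F R β β' hn _ _ _ hF h0 hfar hU hu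
  have t0 : Tendsto (fun x : E n => ‖x‖⁻¹) (cobounded _) (𝓝 0) :=
    tendsto_inv_atTop_zero.comp tendsto_norm_cobounded_atTop
  have h1 : (fun x => (u x, U x) - (1, 1)) =O[cobounded (E n)] fun x => ‖x‖⁻¹ :=
    (asyO hn hu).prod_left (asyO hn hU)
  have h2 : DifferentiableAt ℝ (fun p : ℝ × ℝ => F p.1 * p.1 * p.2 ^ 2) (1, 1) := by
    have := hF.differentiable (by simp)
    fun_prop
  obtain ⟨C₁, c1, h3⟩ := ((h2.isBigO_sub.comp_tendsto
    (tendsto_sub_nhds_zero_iff.1 (h1.trans_tendsto t0))).trans h1).exists_pos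
  obtain ⟨R₁, -, h4⟩ := hasBasis_cobounded_norm.eventually_iff.1 h3.bound
  obtain ⟨C, R₂, hu⟩ := hu
  have hn' : (3 : ℝ) ≤ n := by exact_mod_cast hn
  have g0 : 0 ≤ gam n := div_nonneg (by linarith) (by linarith)
  refine ⟨4 * gam n * ((|F 1| + C₁) * |C| + C₁ * ((n - 2) * |β|)),
    max (max R₁ R₂) (max (R + 1) 1), fun x hx i => ?_⟩
  simp only [max_le_iff] at hx
  have r0 : 0 < ‖x‖ := by linarith [hx.2.2]
  have k1 : |F (u x) * u x * U x ^ 2 - F 1| ≤ C₁ * ‖x‖⁻¹ := by simpa using h4 hx.1.1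
  have k2 := ((hu x hx.1.2).2 i).trans
    (mul_le_mul_of_nonneg_right (le_abs_self C) (by positivity))
  have k3 : |x i| ≤ ‖x‖ := x.norm_apply_le i
  rw [far hn (h0 x) (hfar x (by linarith [hx.2.1])).1
    (((isOpen_lt continuous_const continuous_norm).eventually_mem
      (show R < ‖x‖ by linarith [hx.2.1])).mono fun y hy => (hfar y (le_of_lt hy)).2)]
  generalize F (u x) * u x * U x ^ 2 = Φ at k1
  generalize pd i u x = p at k2
  have w0 : 0 ≤ ‖x‖ ^ (-n : ℝ) := by positivity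
  generalize ‖x‖ ^ (-n : ℝ) = w at k2 w0
  have k4 : |Φ| ≤ |F 1| + C₁ := by
    have := abs_sub_abs_le_abs_sub Φ (F 1)
    have := mul_le_mul_of_nonneg_left (inv_le_one_of_one_le₀ hx.2.2) c1.le
    linarith
  have k5 : |Φ - F 1| * |x i| ≤ C₁ := (mul_le_mul k1 k3 (abs_nonneg _) (by positivity)).trans_eq
    (inv_mul_cancel_right₀ r0.ne' _)
  have e : 4 * gam n * Φ * p - -(4 * gam n * F 1 * (n - 2) * β) * x i * w = 4 * gam n *
      (Φ * (p + (n - 2) * β * x i * w) - (Φ - F 1) * x i * ((n - 2) * β) * w) := by ring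
  rw [e, abs_mul, abs_of_nonneg (a := 4 * gam n) (by positivity), mul_assoc (4 * gam n), add_mul]
  refine mul_le_mul_of_nonneg_left ((abs_sub _ _).trans (add_le_add ?_ ?_)) (by positivity)
  · rw [abs_mul, mul_assoc (|F 1| + C₁)]
    exact mul_le_mul k4 k2 (abs_nonneg _) (by positivity)
  · rw [abs_mul, abs_mul, abs_mul, abs_mul, abs_of_nonneg w0,
      abs_of_nonneg (a := (n : ℝ) - 2) (by linarith)]
    exact mul_le_mul_of_nonneg_right (mul_le_mul_of_nonneg_right k5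
      (mul_nonneg (by linarith) (abs_nonneg _))) w0

end Vale.Agent.P366Y.C
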