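import Vale.Agent.P366Y.C.Defs

/-!
# P366Y, block D: the set of the bad points is small (row BAD)
-/

open MeasureTheory Metric Filter Topology Set
open scoped ContDiff ENNReal
open Vale.Agent.P366.Stmt Vale.Agent.P366Z

noncomputable section

namespace Vale.Agent.P366Y.C

/-- **row BAD** -/
theorem bad_of (hT : TRANS) (hD : DG1) (hC : CAC) : BAD := by
  intro n c B k₀ h hn hc hh
  obtain ⟨C₁, h1⟩ := hC n c B k₀ hc
  obtain ⟨ε, hε, h2⟩ := hD n C₁ h hn hh
  obtain ⟨C₂, hC₂, h3⟩ := hT n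
  refine ⟨C₂ / ε, div_pos hC₂ hε, fun u Z S r hu hZ hr hS => ?_⟩
  rw [div_mul_eq_mul_div]
  refine le_trans (measure_mono ?_) (h3 u r ε hu hr hε)
  rintro x ⟨k1, k2, y, k3, k4⟩
  refine lt_of_not_ge fun k5 => k4.not_ge (h2 u x r (u x) hu hr
    (h1 u Z x r (u x) hu hZ hr (hS x k1 x (mem_ball_self hr)).1 k2 (hS x k1)) (le_trans ?_ k5) y k3)
  have cu : Continuous u := hu.continuous
  have i1 : ∀ {f : E n → ℝ}, Continuous f → IntegrableOn f (ball x r) := fun hf =>
    (hf.continuousOn.integrableOn_compact (isCompact_closedBall x r)).mono_set ball_subset_closedBall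
  refine setIntegral_mono (i1 (by fun_prop)) (i1 (by fun_prop)) fun z => ?_
  rcases le_total (u z - u x) 0 with k | k
  · simpa [max_eq_right k] using sq_nonneg _
  · simp [max_eq_left k]

end Vale.Agent.P366Y.C
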