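import Vale.Agent.P366Y.C.Defs
import Vale.Agent.P366Z.Calc

/-!
# P366Y, block C, row CONE: the algebraic inequality
-/

open Vale.Agent.P366.Stmt Vale.Agent.P366Z

noncomputable section

namespace Vale.Agent.P366Y.C

namespace ConeH

theorem cross {φ u W a r π τ : ℝ} (hW : 0 < W) (h1 : φ ^ 2 * a ≤ W ^ 2) (hπ : 0 ≤ π) (hτ : 0 ≤ τ)
    (h : r ^ 2 ≤ π * a * τ) : 0 ≤ W * (u ^ 2 * π + τ) + 2 * u * φ * r := by
  have h2 := mul_le_mul_of_nonneg_left h (show 0 ≤ 4 * u ^ 2 * φ ^ 2 by positivity)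
  have h3 := mul_le_mul_of_nonneg_left h1 (show 0 ≤ 4 * u ^ 2 * π * τ by positivity)
  have h4 := (abs_le_of_sq_le_sq' (a := 2 * u * φ * r) (b := W * (u ^ 2 * π + τ))
    (by linarith [sq_nonneg (W * (u ^ 2 * π - τ))]) (by positivity)).1
  linarith

theorem sc {φ u d c l W a p q A t B C N T e : ℝ} (hφ : 0 < φ) (hu : 0 < u) (hd : 0 ≤ d)
    (hc : 4 ≤ c) (hl : 4 * φ * (φ + u * d) ≤ l) (hW : 1 ≤ W) (hW2 : W ^ 2 = 1 + φ ^ 2 * a)
    (ha : 0 ≤ a) (hq : 0 ≤ q)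
    (he : e = t - 2 * d * p / W - l * (A - 2 * d * p / W * a) / (1 + l * a) - T) (o1 : 0 ≤ N)
    (o2 : p ^ 2 ≤ a * q) (o4 : B ≤ N * a) (o5 : C ^ 2 ≤ B * q) (o6 : A ^ 2 ≤ B * a)
    (o8 : 2 * B * a - A ^ 2 ≤ N * a ^ 2)
    (o9 : (a * C - A * p) ^ 2 ≤ (a * B - A ^ 2) * (a * q - p ^ 2)) :
    φ * W * u ^ 2 * (T ^ 2 - 2 * (1 + l * a) * e ^ 2) +
        2 * (φ + u * d) * W * (q - φ ^ 2 * p * p / W ^ 2) ≤
      u ^ 2 * (φ * W * (N - t ^ 2 + 2 * T * t)) + 4 * u * (φ ^ 2 * (C + (T - t) * p)) +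
        c * (φ + u * d) * W * (q - φ ^ 2 * p * p / W ^ 2) := by
  have W0 : 0 < W := one_pos.trans_le hW
  have l0 : 0 ≤ l := le_trans (by positivity) hl
  have c0 := sub_nonneg.2 hc
  rcases ha.eq_or_lt with rfl | ha
  · obtain rfl : p = 0 := pow_eq_zero_iff two_ne_zero |>.1 (le_antisymm (by linarith) (sq_nonneg p))
    obtain rfl : A = 0 := pow_eq_zero_iff two_ne_zero |>.1 (le_antisymm (by linarith) (sq_nonneg A))
    obtain rfl : C = 0 := pow_eq_zero_iff two_ne_zero |>.1 (le_antisymm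
      (o5.trans (mul_nonpos_of_nonpos_of_nonneg (by linarith) hq)) (sq_nonneg C))
    obtain rfl : t = e + T := by simp [he]
    have h1 : 0 ≤ φ * W * u ^ 2 * (N + e ^ 2) := by positivity
    have h2 : 0 ≤ (c - 4 + 2) * (φ + u * d) * W * q := by positivity
    simp only [mul_zero, zero_div, sub_zero, add_zero]
    linarith
  have G0 : 0 < 1 + l * a := by positivity
  obtain ⟨m, rfl⟩ : ∃ m, p = a * W * m := ⟨p / (a * W), by field_simp⟩
  obtain ⟨x, rfl⟩ : ∃ x, A = a * (2 * d * a * m + (1 + l * a) * x) :=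
    ⟨(A / a - 2 * d * a * m) / (1 + l * a), by field_simp; ring⟩
  obtain rfl : t = e + T + 2 * d * a * m + l * a * x := by
    rw [he]
    field_simp
    ring
  generalize hP : 2 * d * a * m + (1 + l * a) * x = P at o6 o8 o9
  obtain ⟨π, rfl⟩ : ∃ π, B = a * (π + P ^ 2) := ⟨B / a - P ^ 2, by field_simp; ring⟩
  obtain ⟨τ, rfl⟩ : ∃ τ, q = τ + a * W ^ 2 * m ^ 2 := ⟨q - a * W ^ 2 * m ^ 2, by ring⟩
  obtain ⟨r, rfl⟩ : ∃ r, C = r + P * (a * W * m) := ⟨C - P * (a * W * m), by ring⟩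
  have a2 : 0 < a ^ 2 := by positivity
  have hπ : 0 ≤ π := nonneg_of_mul_nonneg_right (a := a ^ 2) (by linarith) a2
  have hτ : 0 ≤ τ := nonneg_of_mul_nonneg_right (a := a) (by linarith) ha
  have hN : 0 ≤ N - 2 * π - P ^ 2 := nonneg_of_mul_nonneg_right (a := a ^ 2) (by linarith) a2
  have h1 := mul_nonneg hφ.le (cross (u := u) (φ := φ) (a := a) (r := r) W0 (by linarith) hπ hτ
    (le_of_mul_le_mul_left (by linarith) a2))
  have hI : τ + a * W ^ 2 * m ^ 2 - φ ^ 2 * (a * W * m) * (a * W * m) / W ^ 2 = τ + a * m ^ 2 := by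
    rw [sub_eq_iff_eq_add, add_assoc, add_right_inj, ← sub_eq_iff_eq_add', eq_div_iff (by positivity)]
    linear_combination a * m ^ 2 * W ^ 2 * hW2
  have h2 : 0 ≤ φ * W * u ^ 2 * (N - 2 * π - P ^ 2) := by positivity
  have h3 : 0 ≤ u * d * W * τ := by positivity
  have h4 : 0 ≤ (c - 4) * (φ + u * d) * W * (τ + a * m ^ 2) := by positivity
  have h5 : 0 ≤ φ * W * u ^ 2 * (1 + l * a) * (x ^ 2 + e ^ 2) := by positivity
  have h6 : 0 ≤ φ * W * u ^ 2 * a * (x - e) ^ 2 * (l - 4 * φ * (φ + u * d)) :=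
    mul_nonneg (by positivity) (sub_nonneg.2 hl)
  have h7 : 0 ≤ (φ + u * d) * W * a * ((2 * φ * u * (x - e) + m) ^ 2 + m ^ 2) := by positivity
  rw [hI]
  subst hP
  linarith

variable {n : ℕ} {g K : Field n} {φ f : E n → ℝ} {x : E n}

theorem b2_pk : b2 g (pk g K φ f) f f x = φ x / ww g φ f x * b2 g (hess g f) f f x +
    2 * ip g φ f x / ww g φ f x * ip g f f x - b2 g K f f x := by
  have h : 2 * ip g φ f x / ww g φ f x * ip g f f x =
      (ip g φ f x * ip g f f x + ip g f f x * ip g φ f x) / ww g φ f x := by ring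
  rw [h, ip_eq_gr, ip_eq_gr, Finset.sum_mul_sum, Finset.sum_mul_sum]
  simp only [b2, pk, hh, Finset.mul_sum, Finset.sum_div, ← Finset.sum_add_distrib,
    ← Finset.sum_sub_distrib]
  exact Finset.sum_congr rfl fun i _ => Finset.sum_congr rfl fun j _ => by ring

theorem tr_pk : tr g (pk g K φ f) x = φ x / ww g φ f x * tr g (hess g f) x +
    (ip g φ f x + ip g f φ x) / ww g φ f x - tr g K x := by
  simp only [tr, ip, pk, hh, Finset.mul_sum, Finset.sum_div, ← Finset.sum_add_distrib,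
    ← Finset.sum_sub_distrib]
  exact Finset.sum_congr rfl fun i _ => Finset.sum_congr rfl fun j _ => by ring

end ConeH

open ConeH in
theorem cone_of (hG : GB) (hO : ORTH) : CONE := by
  intro n g K φ f T u lam d c x hg hK sφ sf hφ hu hd hc h1 hl
  obtain ⟨-, -, s1, s2⟩ := hG n g φ f hg sφ sf
  obtain ⟨w1, w2, -, -, -, w3, -⟩ := s2 x
  have sy : ∀ i j, pk g K φ f x i j = pk g K φ f x j i := fun i j => by
    rw [pk, pk, s1.sy, hK.sy]
  obtain ⟨o1, o2, -, o4, o5, o6, -, o8, o9⟩ := hO n g (pk g K φ f) f u x hg sy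
  have e1 : ip g φ f x = d * ip g f u x := by
    rw [ip_of_pd (t := 1) h1 fun i => (one_mul _).symm, mul_one, hg.ip_sy]
  have e2 : ∑ i, pd i u x * yy g K φ f T i x = φ x ^ 2 * (b2 g (pk g K φ f) u f x +
      (T x - tr g (pk g K φ f) x) * ip g f u x) := by
    rw [o6, hg.ip_sy f u, ip_eq_gr, Finset.mul_sum, ← Finset.sum_add_distrib, Finset.mul_sum]
    exact Finset.sum_congr rfl fun i _ => by rw [yy]; ring
  rw [e2, w3]
  refine sc hφ hu hd hc hl w1 w2 (hg.ip_nonneg f x) (hg.ip_nonneg u x) ?_ o1 o2 o4 o5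
    (hO n g _ f f x hg sy).2.2.2.2.1 o8 o9
  rw [er, gt, gt, b2_pk, tr_pk, hg.ip_sy f φ, e1]
  ring

end Vale.Agent.P366Y.C
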