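import Vale.Agent.P366Y.C.Defs
import Vale.Agent.P366Z.DensB

/-!
# P366Y, block D: the first lemma of De Giorgi
-/

open MeasureTheory Metric Filter Topology Set
open scoped ContDiff ENNReal NNReal
open Vale.Agent.P366.Stmt Vale.Agent.P366Z Vale.Agent.P366Z.DensH

noncomputable section

namespace Vale.Agent.P366Y.C

namespace DgH

theorem hd_sq (s : ℝ) : HasDerivAt (fun s : ℝ => max s 0 ^ 2) (2 * max s 0) s := by
  rcases lt_trichotomy s 0 with h | rfl | h
  · rw [max_eq_right h.le, mul_zero]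
    refine (hasDerivAt_const s (0 : ℝ)).congr_of_eventuallyEq ?_
    filter_upwards [Iio_mem_nhds h] with t ht
    rw [max_eq_right (le_of_lt ht)]
    simp
  · rw [max_self, mul_zero, hasDerivAt_iff_isLittleO_nhds_zero, Asymptotics.isLittleO_iff]
    intro c hc
    filter_upwards [ball_mem_nhds (0 : ℝ) hc] with t ht
    rw [mem_ball, dist_zero_right, Real.norm_eq_abs] at ht
    have h1 : max t 0 ≤ |t| := max_le (le_abs_self t) (abs_nonneg t)
    have h2 := le_max_right t 0
    rw [zero_add, max_self, smul_zero, sub_zero, zero_pow two_ne_zero, sub_zero, Real.norm_eq_abs,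
      Real.norm_eq_abs, abs_of_nonneg (sq_nonneg _)]
    nlinarith [abs_nonneg t]
  · rw [max_eq_left h.le]
    refine (show HasDerivAt (fun t : ℝ => t ^ 2) (2 * s) s by
      simpa using hasDerivAt_pow 2 s).congr_of_eventuallyEq ?_
    filter_upwards [Ioi_mem_nhds h] with t ht
    rw [max_eq_left (le_of_lt ht)]

theorem c1_sq : ContDiff ℝ 1 fun s : ℝ => max s 0 ^ 2 :=
  contDiff_one_iff_deriv.2 ⟨fun s => (hd_sq s).differentiableAt, by
    rw [show deriv (fun s : ℝ => max s 0 ^ 2) = fun s => 2 * max s 0 from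
      funext fun s => (hd_sq s).deriv]
    fun_prop⟩

theorem rp {m : ℕ} (hm : 1 ≤ m) {a : ℝ} (ha : 0 ≤ a) :
    a ^ ((m + 1 : ℝ) / m) = a * a ^ (m : ℝ)⁻¹ := by
  have m0 : (0 : ℝ) < m := by exact_mod_cast hm
  rw [show (m + 1 : ℝ) / m = 1 + (m : ℝ)⁻¹ by field_simp, Real.rpow_add' ha (by positivity),
    Real.rpow_one]

theorem sob (m : ℕ) (hm : 1 ≤ m) : ∃ c > (0 : ℝ), ∀ (w : E (m + 1) → ℝ) (μ ν G : ℝ)
    (A : Set (E (m + 1))), ContDiff ℝ 1 w → HasCompactSupport w → (∀ y, 0 ≤ w y) → 0 < μ → 0 ≤ ν →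
    MeasurableSet A → volume A ≠ ⊤ → (∀ y ∉ A, w y = 0) → ∫ y, ‖fderiv ℝ w y‖ ≤ G → G ≤ ν ^ m →
    ∫ y, w y ≤ μ ^ m * volume.real A + c * G * ν / μ := by
  have m0 : (0 : ℝ) < m := by exact_mod_cast hm
  have p0 : (0 : ℝ) < (m + 1) / m := by positivity
  have hp : Real.HolderConjugate (Module.finrank ℝ (E (m + 1))) ((m + 1) / m) := by
    rw [finrank_euclideanSpace_fin, Real.holderConjugate_iff]
    push_cast
    exact ⟨by linarith, by field_simp; ring⟩
  obtain ⟨c, hc⟩ : ∃ c : ℝ≥0, c = lintegralPowLePowLIntegralFDerivConst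
    (volume : Measure (E (m + 1))) ((m + 1) / m) := ⟨_, rfl⟩
  refine ⟨c + 1, by positivity, fun w μ ν G A w1 w2 w0 hμ hν hA hA' h0 hG hG' => ?_⟩
  have G0 : 0 ≤ G := (integral_nonneg fun _ => norm_nonneg _).trans hG
  have i1 : Integrable (fun y => w y ^ ((m + 1 : ℝ) / m)) volume :=
    (w1.continuous.rpow_const fun _ => .inr p0.le).integrable_of_hasCompactSupport
      (w2.comp_left (g := fun a : ℝ => a ^ ((m + 1 : ℝ) / m)) (Real.zero_rpow p0.ne'))
  have h1 := lintegral_pow_le_pow_lintegral_fderiv volume w1 w2 hp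
  rw [← hc, ← ofReal_integral_norm_eq_lintegral_enorm
    ((w1.continuous_fderiv one_ne_zero).integrable_of_hasCompactSupport (w2.fderiv ℝ))] at h1
  have h2 : ∫ y, w y ^ ((m + 1 : ℝ) / m) ≤ c * G ^ ((m + 1 : ℝ) / m) := by
    rw [← ENNReal.ofReal_le_ofReal_iff (by positivity), ofReal_integral_eq_lintegral_ofReal i1
      (.of_forall fun y => Real.rpow_nonneg (w0 y) _), ENNReal.ofReal_mul c.coe_nonneg,
      ENNReal.ofReal_coe_nnreal, ← ENNReal.ofReal_rpow_of_nonneg G0 p0.le]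
    refine le_trans (le_of_eq (lintegral_congr fun y => ?_)) (h1.trans (by gcongr))
    rw [← ENNReal.ofReal_rpow_of_nonneg (w0 y) p0.le, Real.enorm_of_nonneg (w0 y)]
  have h3 : G ^ ((m + 1 : ℝ) / m) ≤ G * ν := by
    rw [rp hm G0, ← Real.pow_rpow_inv_natCast hν (show m ≠ 0 by omega)]
    gcongr
  have h4 : ∫ y, w y ≤ ∫ y, (A.indicator (fun _ => μ ^ m) y + w y ^ ((m + 1 : ℝ) / m) / μ) := by
    refine integral_mono (w1.continuous.integrable_of_hasCompactSupport w2)
      (((integrableOn_const hA').integrable_indicator hA).add (i1.div_const μ)) fun y => ?_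
    have k0 : 0 ≤ w y ^ ((m + 1 : ℝ) / m) / μ := div_nonneg (Real.rpow_nonneg (w0 y) _) hμ.le
    by_cases hy : y ∈ A
    · rw [indicator_of_mem hy]
      rcases le_total (w y) (μ ^ m) with k | k
      · exact k.trans (le_add_of_nonneg_right k0)
      · refine le_trans ?_ (le_add_of_nonneg_left (by positivity))
        rw [rp hm (w0 y), le_div_iff₀ hμ]
        refine mul_le_mul_of_nonneg_left ?_ (w0 y)
        rw [← Real.pow_rpow_inv_natCast hμ.le (show m ≠ 0 by omega)]
        gcongr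
    · rw [indicator_of_notMem hy, zero_add]
      exact (h0 y hy).le.trans k0
  rw [integral_add ((integrableOn_const hA').integrable_indicator hA) (i1.div_const μ),
    integral_indicator_const _ hA, integral_div, smul_eq_mul, mul_comm] at h4
  refine h4.trans (add_le_add le_rfl (div_le_div_of_nonneg_right ?_ hμ.le))
  have := mul_le_mul_of_nonneg_left h3 c.coe_nonneg
  have := mul_nonneg G0 hν
  nlinarith

variable {n : ℕ} {u : E n → ℝ} {x : E n}

theorem iob {f : E n → ℝ} (hf : Continuous f) (t : ℝ) : IntegrableOn f (ball x t) volume :=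
  (hf.continuousOn.integrableOn_compact (isCompact_closedBall x t)).mono_set ball_subset_closedBall

theorem ms (hu : Continuous u) (t k : ℝ) : MeasurableSet (ball x t ∩ {y | k < u y}) :=
  measurableSet_ball.inter (isOpen_lt continuous_const hu).measurableSet

theorem g2_eq (hu : Smooth u) (y : E n) : g2 u y = ‖fderiv ℝ u y‖ ^ 2 :=
  (norm_fderiv_sq (hu.differentiable (by simp) y)).symm

theorem grad {L s ρ k : ℝ} (hL0 : 0 < L) (hL : ∀ s, |deriv Real.smoothTransition s| ≤ L)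
    (hu : Smooth u) (hs : 0 < s) (hρ : 0 < ρ) (y : E n) :
    ‖fderiv ℝ (fun z => ct x ρ s z * max (u z - k) 0 ^ 2) y‖ ≤
      (ball x (s + ρ) ∩ {y | k < u y}).indicator
        (fun y => ρ * g2 u y + (1 + L) / ρ * ((u y - k) ^ 2 + 1)) y := by
  have q : ∀ z, 0 ≤ ct x ρ s z ∧ ct x ρ s z ≤ 1 := fun z =>
    ⟨Real.smoothTransition.nonneg _, Real.smoothTransition.le_one _⟩
  have d1 := ((ct_c1 (x := x) hρ hs).differentiable one_ne_zero y).hasFDerivAt
  have d2 := (hd_sq (u y - k)).comp_hasFDerivAt y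
    ((hu.differentiable (by simp) y).hasFDerivAt.sub_const k)
  rw [show fderiv ℝ (fun z => ct x ρ s z * max (u z - k) 0 ^ 2) y = _ from (d1.mul d2).fderiv]
  by_cases hy : y ∈ ball x (s + ρ) ∩ {y | k < u y}
  · have h1 : 0 < u y - k := sub_pos.2 hy.2
    have h2 := ct_fderiv (x := x) (r := s) (y := y) hL0 hL hρ
    rw [indicator_of_mem hy, g2_eq hu]
    refine (norm_add_le _ _).trans ?_
    simp only [Function.comp_def, max_eq_left h1.le, norm_smul, Real.norm_eq_abs,
      abs_of_nonneg (q y).1, abs_of_nonneg (sq_nonneg (u y - k)),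
      abs_of_nonneg (mul_nonneg zero_le_two h1.le)]
    have a0 := norm_nonneg (fderiv ℝ u y)
    generalize ‖fderiv ℝ u y‖ = a at *
    generalize u y - k = v at *
    have h3 : ct x ρ s y * (2 * v * a) ≤ 2 * v * a := mul_le_of_le_one_left (by positivity) (q y).2
    have h4 : 2 * v * a ≤ ρ * a ^ 2 + v ^ 2 / ρ := by
      rw [← sub_nonneg, show ρ * a ^ 2 + v ^ 2 / ρ - 2 * v * a = (ρ * a - v) ^ 2 / ρ by
        field_simp; ring]
      positivity
    have h5 := mul_le_mul_of_nonneg_left h2 (sq_nonneg v)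
    have h6 : (1 + L) / ρ * (v ^ 2 + 1) = v ^ 2 / ρ + v ^ 2 * (L / ρ) + (1 + L) / ρ := by ring
    have h7 : 0 ≤ (1 + L) / ρ := by positivity
    linarith
  · rw [indicator_of_notMem hy]
    by_cases h1 : k < u y
    · have h2 : ct x ρ s y = 0 := ct_zero hρ (by
        rw [← dist_eq_norm]
        exact not_lt.1 fun k => hy ⟨k, h1⟩)
      rw [fderiv_zero q (.inl h2), h2]
      simp
    · simp [max_eq_right (sub_nonpos.2 (not_lt.1 h1))]

/-- the energy above the level `k` -/
def en (u : E n → ℝ) (x : E n) (k t : ℝ) : ℝ := ∫ y in ball x t, max (u y - k) 0 ^ 2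

theorem en_mono (hu : Continuous u) {k k' t t' : ℝ} (hk : k ≤ k') (ht : t' ≤ t) :
    en u x k' t' ≤ en u x k t :=
  (setIntegral_mono_on (iob (by fun_prop) _) (iob (by fun_prop) _) measurableSet_ball fun y _ =>
    pow_le_pow_left₀ (le_max_right _ _) (max_le_max (by linarith) le_rfl) 2).trans
    (setIntegral_mono_set (iob (by fun_prop) _) (.of_forall fun _ => sq_nonneg _)
      (ball_subset_ball ht).eventuallyLE)

theorem cheb (hu : Continuous u) {k δ t c : ℝ} {f : E n → ℝ} (hf : Continuous f) (hc : 0 ≤ c)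
    (hδ : 0 < δ) (h : ∀ y, k + δ < u y → f y ≤ c * (u y - k) ^ 2) :
    ∫ y in ball x t ∩ {y | k + δ < u y}, f y ≤ c * en u x k t := by
  rw [en, ← integral_const_mul]
  refine (setIntegral_mono_on ((iob hf t).mono_set inter_subset_left)
    ((iob (f := fun y => c * max (u y - k) 0 ^ 2) (by fun_prop) t).mono_set inter_subset_left)
    (ms hu _ _) fun y hy => ?_).trans (setIntegral_mono_set (iob (by fun_prop) _)
      (.of_forall fun _ => by positivity) inter_subset_left.eventuallyLE)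
  have h1 : k + δ < u y := hy.2
  rw [max_eq_left (by linarith)]
  exact h y h1

theorem step (m : ℕ) (hm : 1 ≤ m) : ∃ c > (0 : ℝ), ∃ L > (0 : ℝ), ∀ (u : E (m + 1) → ℝ)
    (x : E (m + 1)) (C s ρ k δ μ ν B G : ℝ), Smooth u → 0 ≤ C → 0 < s → 0 < ρ → 0 < δ → δ ≤ 1 →
    0 < μ → 0 ≤ ν → ∫ y in ball x (s + ρ) ∩ {y | k + δ < u y}, g2 u y ≤
      C / ρ ^ 2 * ∫ y in ball x (s + ρ + ρ) ∩ {y | k + δ < u y}, ((u y - (k + δ)) ^ 2 + 1) →
    en u x k (s + ρ + ρ) ≤ B → (C + 1 + L) / ρ * (2 / δ ^ 2 * B) ≤ G → G ≤ ν ^ m →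
    en u x (k + δ) s ≤ μ ^ m * (1 / δ ^ 2 * B) + c * G * ν / μ := by
  obtain ⟨c, c0, hc⟩ := sob m hm
  obtain ⟨L, hL0, hL⟩ := deriv_bd
  refine ⟨c, c0, L, hL0, fun u x C s ρ k δ μ ν B G hu C0 hs hρ δ0 δ1 hμ hν hD hB hG hG' => ?_⟩
  have cu := hu.continuous
  have cg : Continuous (g2 u) := by
    rw [show g2 u = _ from funext (g2_eq hu)]
    exact (hu.continuous_fderiv (by simp)).norm.pow 2
  have w1 : ContDiff ℝ 1 fun z => ct x ρ s z * max (u z - (k + δ)) 0 ^ 2 :=
    (ct_c1 hρ hs).mul (c1_sq.comp ((hu.of_le (by simp)).sub contDiff_const))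
  have z1 : ∀ y ∉ ball x (s + ρ), ct x ρ s y * max (u y - (k + δ)) 0 ^ 2 = 0 := fun y hy => by
    rw [ct_zero hρ (by rw [← dist_eq_norm]; exact not_lt.1 hy), zero_mul]
  have w2 := HasCompactSupport.intro (isCompact_closedBall x (s + ρ)) fun y hy =>
    z1 y fun k => hy (ball_subset_closedBall k)
  have w0 : ∀ y, 0 ≤ ct x ρ s y * max (u y - (k + δ)) 0 ^ 2 := fun y =>
    mul_nonneg (Real.smoothTransition.nonneg _) (sq_nonneg _)
  have e1 : ∀ y, k + δ < u y → 1 ≤ 1 / δ ^ 2 * (u y - k) ^ 2 := fun y hy => by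
    rw [one_div_mul_eq_div, one_le_div (by positivity)]
    exact pow_le_pow_left₀ δ0.le (by linarith) 2
  have e2 : ∀ t, t ≤ s + ρ + ρ → ∫ y in ball x t ∩ {y | k + δ < u y},
      ((u y - (k + δ)) ^ 2 + 1) ≤ 2 / δ ^ 2 * B := fun t ht => by
    refine (cheb cu (by fun_prop) (by positivity) δ0 fun y hy => ?_).trans
      (mul_le_mul_of_nonneg_left ((en_mono cu le_rfl ht).trans hB) (by positivity))
    have h1 := e1 y hy
    have h2 : (u y - (k + δ)) ^ 2 ≤ (u y - k) ^ 2 := pow_le_pow_left₀ (by linarith) (by linarith) 2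
    have h3 : 1 ≤ 1 / δ ^ 2 := by
      rw [one_le_div (by positivity)]
      exact pow_le_one₀ δ0.le δ1
    have h4 := mul_le_mul_of_nonneg_right h3 (sq_nonneg (u y - k))
    have h5 : 2 / δ ^ 2 * (u y - k) ^ 2 = 2 * (1 / δ ^ 2 * (u y - k) ^ 2) := by ring
    linarith
  have i1 : ∀ {f : E (m + 1) → ℝ}, Continuous f →
      IntegrableOn f (ball x (s + ρ) ∩ {y | k + δ < u y}) volume := fun hf =>
    (iob hf _).mono_set inter_subset_left
  have h1 := hc _ μ ν G (ball x (s + ρ) ∩ {y | k + δ < u y}) w1 w2 w0 hμ hν (ms cu _ _)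
    ((measure_mono inter_subset_left).trans_lt measure_ball_lt_top).ne (fun y hy => by
      by_cases h : k + δ < u y
      · exact z1 y fun k => hy ⟨k, h⟩
      · rw [max_eq_right (sub_nonpos.2 (not_lt.1 h)), zero_pow two_ne_zero, mul_zero]) (by
      refine (integral_mono ((w1.continuous_fderiv one_ne_zero).integrable_of_hasCompactSupport
        (w2.fderiv ℝ)).norm ((i1 (by fun_prop)).integrable_indicator (ms cu _ _))
        (grad hL0 hL hu hs hρ)).trans (le_trans ?_ hG)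
      rw [integral_indicator (ms cu _ _), integral_add (i1 (by fun_prop)) (i1 (by fun_prop)),
        integral_const_mul, integral_const_mul]
      have k1 := mul_le_mul_of_nonneg_left (hD.trans (mul_le_mul_of_nonneg_left (e2 _ le_rfl)
        (by positivity))) hρ.le
      have k2 := mul_le_mul_of_nonneg_left (e2 (s + ρ) (by linarith))
        (show 0 ≤ (1 + L) / ρ by positivity)
      refine (add_le_add k1 k2).trans (le_of_eq ?_)
      field_simp
      ring) hG'
  have h2 : volume.real (ball x (s + ρ) ∩ {y | k + δ < u y}) ≤ 1 / δ ^ 2 * B := by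
    have k1 := cheb (x := x) (t := s + ρ) cu continuous_const (by positivity) δ0 e1
    rw [setIntegral_const, smul_eq_mul, mul_one] at k1
    exact k1.trans (mul_le_mul_of_nonneg_left ((en_mono cu le_rfl (by linarith)).trans hB)
      (by positivity))
  refine le_trans ?_ (h1.trans (by gcongr))
  refine le_trans (le_of_eq (setIntegral_congr_fun measurableSet_ball fun y hy => ?_))
    (setIntegral_le_integral (w1.continuous.integrable_of_hasCompactSupport w2) (.of_forall w0))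
  rw [ct_one hρ (by rw [← dist_eq_norm]; exact le_of_lt hy), one_mul]

end DgH

open DgH in
/-- **DG1** -/
theorem dg1 : DG1 := by
  intro n C₀ h₀ hn hh₀
  obtain ⟨m, rfl⟩ : ∃ m, n = m + 1 := ⟨n - 1, by omega⟩
  have hm : 1 ≤ m := by omega
  obtain ⟨c, c0, L, L0, hS⟩ := step m hm
  obtain ⟨h, h0, h1, h2⟩ : ∃ h : ℝ, 0 < h ∧ h ≤ 1 ∧ h ≤ h₀ :=
    ⟨min h₀ 1, lt_min hh₀ one_pos, min_le_right _ _, min_le_left _ _⟩
  obtain ⟨C, C0, C1⟩ : ∃ C : ℝ, 0 ≤ C ∧ C₀ ≤ C := ⟨max C₀ 0, le_max_right _ _, le_max_left _ _⟩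
  obtain ⟨M, hM⟩ : ∃ M : ℝ, M = 64 * (C + 1 + L) / h ^ 2 := ⟨_, rfl⟩
  have hh : h ^ 2 ≤ 1 := pow_le_one₀ h0.le h1
  have M1 : 1 ≤ M := by
    rw [hM, one_le_div (by positivity)]
    linarith
  obtain ⟨θ, hθ⟩ : ∃ θ : ℝ, θ = (1 / 64) ^ m / 8 := ⟨_, rfl⟩
  have θ0 : 0 < θ := by rw [hθ]; positivity
  have θ1 : θ < 1 := by
    have : ((1 : ℝ) / 64) ^ m ≤ 1 := pow_le_one₀ (by norm_num) (by norm_num)
    linarith
  obtain ⟨μ, hμ⟩ : ∃ μ : ℝ, μ = θ / (2 * M) := ⟨_, rfl⟩
  have μ0 : 0 < μ := by rw [hμ]; positivity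
  have μ1 : μ ≤ 1 := by
    rw [hμ, div_le_one (by positivity)]
    linarith
  obtain ⟨ν, hν⟩ : ∃ ν : ℝ, ν = θ * μ / (2 * c * M) := ⟨_, rfl⟩
  have ν0 : 0 < ν := by rw [hν]; positivity
  refine ⟨ν ^ m / M, by positivity, fun u x r k hu hr hD hY y hy => ?_⟩
  have cu := hu.continuous
  have key : ∀ j : ℕ, en u x (k + h * (1 - 1 / 2 ^ j)) (r / 2 * (1 + 1 / 2 ^ j)) ≤
      ν ^ m / M * r ^ (m + 1) * θ ^ j := fun j => by
    induction j with
    | zero => simpa [DgH.en, show r / 2 * (1 + 1) = r by ring] using hY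
    | succ j ih =>
      have q1 : (1 : ℝ) ≤ 2 ^ j := one_le_pow₀ one_le_two
      have e8 : (8 : ℝ) ^ j = (2 ^ j) ^ 3 := by rw [← pow_mul, mul_comm, pow_mul]; norm_num
      have e9 : ((1 : ℝ) / 64) ^ j = 1 / (2 ^ j) ^ 6 := by
        rw [← pow_mul, mul_comm, pow_mul, one_div_pow]; norm_num
      have e7 : (ν * (1 / (2 ^ j) ^ 6) * r) ^ m = ν ^ m * r ^ m * θ ^ j * (2 ^ j) ^ 3 := by
        rw [← e8, ← e9, mul_pow, mul_pow, ← pow_mul, mul_comm j m, pow_mul, hθ, div_pow _ 8]
        field_simp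
      rw [pow_succ 2 j, pow_succ θ j]
      generalize (2 : ℝ) ^ j = q at *
      have q0 : 0 < q := by linarith
      have i1 : 1 / q ≤ 1 := (div_le_one q0).2 q1
      have i0 : 0 < 1 / q := by positivity
      have a1 : r / 2 * (1 + 1 / (q * 2)) + r / (8 * q) + r / (8 * q) = r / 2 * (1 + 1 / q) := by
        field_simp; ring
      have a2 : k + h * (1 - 1 / q) + h / (2 * q) = k + h * (1 - 1 / (q * 2)) := by
        field_simp; ring
      have i2 : 1 / (q * 2) = 1 / q / 2 := by field_simp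
      have b := hS u x C (r / 2 * (1 + 1 / (q * 2))) (r / (8 * q)) (k + h * (1 - 1 / q))
        (h / (2 * q)) (μ / q ^ 3) (ν * (1 / q ^ 6) * r) _ _ hu C0 (by positivity) (by positivity)
        (by positivity) (by rw [div_le_one (by positivity)]; linarith) (by positivity)
        (by positivity) (by
          have d := hD (k + h * (1 - 1 / q) + h / (2 * q)) (by
            rw [a2, i2]; constructor <;> nlinarith) (r / 2 * (1 + 1 / (q * 2)) + r / (8 * q))
            (r / 2 * (1 + 1 / (q * 2)) + r / (8 * q) + r / (8 * q)) (by positivity)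
            (lt_add_of_pos_right _ (by positivity)) (by rw [a1]; nlinarith)
          rw [add_sub_cancel_left] at d
          exact d.trans (mul_le_mul_of_nonneg_right (by gcongr)
            (integral_nonneg fun _ => by positivity))) (a1 ▸ ih) (le_of_eq (by
          rw [hM, pow_succ r m]; field_simp; ring)) e7.ge
      rw [a2] at b
      refine b.trans ?_
      have q3 : 1 ≤ q ^ 3 := one_le_pow₀ q1
      have b1 : (μ / q ^ 3) ^ m ≤ μ / q ^ 3 := pow_le_of_le_one (by positivity)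
        ((div_le_one (by positivity)).2 (μ1.trans q3)) (by omega)
      have b2 : 1 / (h / (2 * q)) ^ 2 ≤ M * q ^ 3 := by
        rw [hM, show 1 / (h / (2 * q)) ^ 2 = 4 / h ^ 2 * q ^ 2 by field_simp; ring]
        gcongr
        · linarith
        · norm_num
      obtain ⟨B, hB⟩ : ∃ B : ℝ, B = ν ^ m / M * r ^ (m + 1) * θ ^ j := ⟨_, rfl⟩
      have B0 : 0 ≤ B := by rw [hB]; positivity
      have b3 : (μ / q ^ 3) ^ m * (1 / (h / (2 * q)) ^ 2 * B) ≤ μ / q ^ 3 * (M * q ^ 3 * B) := by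
        gcongr
      have b4 : μ / q ^ 3 * (M * q ^ 3 * B) = θ / 2 * B := by rw [hμ]; field_simp
      have b5 : c * (ν ^ m * r ^ m * θ ^ j * q ^ 3) * (ν * (1 / q ^ 6) * r) / (μ / q ^ 3) =
          θ / 2 * B := by
        rw [hB, pow_succ r m]
        generalize ν ^ m = a
        rw [hν]
        field_simp
      rw [← hB, b5, show ν ^ m / M * r ^ (m + 1) * (θ ^ j * θ) = B * θ by rw [hB]; ring]
      linarith
  by_contra hc
  have p1 : 0 < en u x (k + h) (r / 2) := by
    refine (setIntegral_pos_iff_support_of_nonneg_ae (.of_forall fun _ => sq_nonneg _)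
      (iob (by fun_prop) _)).2 (IsOpen.measure_pos _
      ((Continuous.isOpen_support (by fun_prop)).inter isOpen_ball) ⟨y, ?_, hy⟩)
    exact pow_ne_zero 2 (lt_max_of_lt_left (by linarith [not_le.1 hc])).ne'
  have p2 := (tendsto_pow_atTop_nhds_zero_of_lt_one θ0.le θ1).const_mul (ν ^ m / M * r ^ (m + 1))
  rw [mul_zero] at p2
  refine p1.not_ge (ge_of_tendsto' p2 fun j => le_trans (en_mono cu ?_ ?_) (key j))
  · have : 0 ≤ h * (1 / 2 ^ j) := by positivity
    linarith
  · have : 0 ≤ r / 2 * (1 / 2 ^ j) := by positivity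
    linarith

end Vale.Agent.P366Y.C
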