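import Vale.Agent.P366Y.C.Defs
import Vale.Agent.P366Z.Calc3

/-!
# P366Y, row DVT: the divergence of a tensor applied to a vector field
-/

open Finset
open Vale.Agent.P366.Stmt Vale.Agent.P366Z

namespace Vale.Agent.P366Y.C

namespace DvtH

variable {ι : Type} [Fintype ι]

theorem rot3 (f : ι → ι → ι → ℝ) : ∑ i, ∑ j, ∑ k, f i j k = ∑ k, ∑ i, ∑ j, f i j k :=
  (sum_congr rfl fun _ _ => sum_comm).trans sum_comm

theorem rot4 (f : ι → ι → ι → ι → ℝ) :
    ∑ i, ∑ j, ∑ k, ∑ l, f i j k l = ∑ l, ∑ i, ∑ j, ∑ k, f i j k l :=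
  (sum_congr rfl fun _ _ => rot3 _).trans sum_comm

theorem alg {u : ι → ι → ℝ} (hu : ∀ i j, u i j = u j i) (G dS : ι → ι → ι → ℝ) (S dX : ι → ι → ℝ)
    (X : ι → ℝ) :
    ∑ i, (∑ j, ∑ k, (((-∑ l, G i i l * u l j - ∑ l, G j i l * u i l) * S j k + u i j * dS i j k) *
      X k + u i j * S j k * dX i k) + ∑ m, G i i m * ∑ j, ∑ k, u m j * S j k * X k) =
    ∑ k, (∑ a, ∑ b, u a b * (dS b a k - ∑ l, (G l b a * S l k + G l b k * S a l))) * X k +
      ∑ i, ∑ j, ∑ k, u i j * S j k * (dX i k + ∑ l, G k i l * X l) := by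
  have hA : ∑ i, ∑ j, ∑ k, ∑ l, G i i l * u l j * S j k * X k =
      ∑ i, ∑ m, ∑ j, ∑ k, G i i m * (u m j * S j k * X k) :=
    sum_congr rfl fun i _ => (rot3 _).trans (by simp only [mul_assoc])
  have hB : ∑ i, ∑ j, ∑ k, ∑ l, G j i l * u i l * S j k * X k =
      ∑ k, ∑ a, ∑ b, ∑ l, u a b * (G l b a * S l k) * X k :=
    (rot3 _).trans (sum_congr rfl fun k _ => (rot3 _).trans (sum_congr rfl fun a _ =>
      sum_congr rfl fun b _ => sum_congr rfl fun l _ => by rw [hu a b]; ring))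
  have hC : ∑ i, ∑ j, ∑ k, u i j * dS i j k * X k = ∑ k, ∑ a, ∑ b, u a b * dS b a k * X k :=
    (rot3 _).trans (sum_congr rfl fun k _ => sum_comm.trans (sum_congr rfl fun a _ =>
      sum_congr rfl fun b _ => by rw [hu a b]))
  have hE : ∑ i, ∑ j, ∑ k, ∑ l, u i j * S j k * (G k i l * X l) =
      ∑ k, ∑ a, ∑ b, ∑ l, u a b * (G l b k * S a l) * X k :=
    (rot4 _).trans (sum_congr rfl fun k _ => sum_comm.trans (sum_congr rfl fun a _ =>
      sum_congr rfl fun b _ => sum_congr rfl fun l _ => by rw [hu a b]; ring))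
  simp only [sub_mul, add_mul, neg_mul, mul_add, mul_sub, sum_add_distrib, sum_sub_distrib,
    sum_neg_distrib, mul_sum, sum_mul]
  rw [hA, hB, hC, hE]
  ring

variable {n : ℕ} {g : Field n}

theorem dv_tv (hg : Met g) {S : Field n} (hS : ∀ i j, Smooth fun x => S x i j)
    {X : Fin n → E n → ℝ} (hX : ∀ i, Smooth (X i)) (x : E n) :
    dv g (fun i y => ∑ j, ∑ k, up g i j y * S y j k * X k y) x =
      ∑ k, dvT g S k x * X k x + ∑ i, ∑ j, ∑ k, up g i j x * S x j k *
        (pd i (X k) x + ∑ l, chr g k i l x * X l x) := by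
  have h1 : ∀ i j k, DifferentiableAt ℝ (fun y => up g i j y * S y j k) x := fun i j k =>
    ((hg.sm_up i j).diff x).fun_mul ((hS j k).diff x)
  have h2 : ∀ i j k, DifferentiableAt ℝ (fun y => up g i j y * S y j k * X k y) x := fun i j k =>
    (h1 i j k).fun_mul ((hX k).diff x)
  have h3 : ∀ i j, DifferentiableAt ℝ (fun y => ∑ k, up g i j y * S y j k * X k y) x := fun i j =>
    DifferentiableAt.fun_sum fun k _ => h2 i j k
  rw [hg.dv_chr fun i => DifferentiableAt.fun_sum fun j _ => h3 i j]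
  refine Eq.trans (sum_congr rfl fun i _ => congrArg (· + _) ?_) (alg (fun i j => hg.up_sy i j x)
    (fun k i j => chr g k i j x) (fun i j k => pd i (fun y => S y j k) x) (S x)
    (fun i k => pd i (X k) x) fun k => X k x)
  rw [pd_sum _ fun j _ => h3 i j]
  refine sum_congr rfl fun j _ => ?_
  rw [pd_sum _ fun k _ => h2 i j k]
  refine sum_congr rfl fun k _ => ?_
  rw [pd_mul (h1 i j k) ((hX k).diff x), pd_mul ((hg.sm_up i j).diff x) ((hS j k).diff x),
    hg.pd_up]

end DvtH

open DvtH in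
theorem dvt : DVT := by
  intro n g P w f hg hP hw hf x
  have f2 : ContDiffAt ℝ 2 f x := (hf.of_le (by norm_cast)).contDiffAt
  have ht : Smooth (tr g P) := ContDiff.sum fun i _ => ContDiff.sum fun j _ =>
    ContDiff.mul (hg.sm_up i j) (hP.sm i j)
  have key : ∀ (y : E n) (i : Fin n) (a : Fin n → ℝ), ∑ j, ∑ k, up g i j y * momT g P y j k * a k =
      ∑ j, ∑ k, up g i j y * P y j k * a k - tr g P y * a i := fun y i a => by
    rw [← hg.up_g_mul y i a]
    simp only [momT, mul_sum, ← sum_sub_distrib]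
    exact sum_congr rfl fun j _ => sum_congr rfl fun k _ => by ring
  have h0 : (fun i y => w y * (tv g P f i y - tr g P y * gr g f i y)) =
      fun i y => ∑ j, ∑ k, up g i j y * momT g P y j k * (w y * gr g f k y) :=
    funext₂ fun i y => by
      rw [tv, ← key y i fun k => gr g f k y]
      simp only [mul_sum]
      exact sum_congr rfl fun j _ => sum_congr rfl fun k _ => by ring
  rw [h0, dv_tv hg (S := momT g P) (X := fun k y => w y * gr g f k y)
    (fun i j => ContDiff.sub (hP.sm i j) (ContDiff.mul ht (hg.sm i j)))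
    fun k => ContDiff.mul hw (hg.sm_gr hf k), add_assoc]
  have h1 : ∀ i k, pd i (fun y => w y * gr g f k y) x + ∑ l, chr g k i l x * (w x * gr g f l x) =
      pd i w x * gr g f k x + w x * ∑ l, up g k l x * hess g f x i l := fun i k => by
    rw [pd_mul (hw.diff x) ((hg.sm_gr hf k).diff x), hg.pd_gr f2, mul_sub, mul_sum _ _ (w x),
      mul_sum _ _ (w x)]
    simp only [mul_left_comm (w x)]
    ring
  congr 1
  · rw [mul_sum]
    exact sum_congr rfl fun k _ => (mul_left_comm _ _ _).trans rfl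
  simp only [h1, key, mul_add, sum_add_distrib, sum_sub_distrib]
  have h2 : ∑ i, ∑ j, ∑ k, up g i j x * P x j k * (pd i w x * gr g f k x) = b2 g P w f x := by
    rw [← rot3, b2]
    refine sum_congr rfl fun j _ => sum_congr rfl fun k _ => ?_
    rw [show gr g w j x = ∑ i, up g j i x * pd i w x from rfl, mul_sum, sum_mul]
    exact sum_congr rfl fun i _ => by rw [hg.up_sy i j]; ring
  have h3 : ∑ i, ∑ j, ∑ k, up g i j x * P x j k * (w x * ∑ l, up g k l x * hess g f x i l) =
      w x * ∑ i, ∑ j, ∑ k, ∑ l, up g i k x * up g j l x * P x i j * hess g f x k l := by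
    rw [← rot3]
    simp only [mul_sum]
    exact sum_congr rfl fun j _ => sum_congr rfl fun k _ => sum_congr rfl fun i _ =>
      sum_congr rfl fun l _ => by rw [hg.up_sy i j]; ring
  rw [h2, h3, ← mul_sum, ← mul_sum, ← mul_sum, ← ip_eq_gr, hg.lap_eq_tr f2]
  unfold tr
  ring

end Vale.Agent.P366Y.C
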