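import Vale.Agent.P366Y.C.Defs2
import Vale.Agent.P366Z.Int
import Mathlib.Analysis.SpecialFunctions.JapaneseBracket

/-!
# P366Y, block D: the energy is finite, the integration of the pointwise inequality
-/

open MeasureTheory Metric Filter Topology Set
open scoped ContDiff ENNReal
open Vale.Agent.P366.Stmt Vale.Agent.P366Z

noncomputable section

namespace Vale.Agent.P366Y.C

namespace FinH

variable {n : ℕ}

/-- continuous functions with a sufficient decay are integrable -/
theorem int_far {f : E n → ℝ} (hf : Continuous f) {C R : ℝ}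
    (h : ∀ x : E n, R < ‖x‖ → |f x| ≤ C * ((1 + ‖x‖) ^ (n + 1))⁻¹) : Integrable f := by
  have h1 := (integrable_one_add_norm (E := E n) (μ := volume) (r := ((n + 1 : ℕ) : ℝ))
    (by simp)).const_mul C
  rw [← integrableOn_univ, ← union_compl_self (closedBall (0 : E n) R)]
  refine (hf.continuousOn.integrableOn_compact (isCompact_closedBall 0 R)).union
    (h1.integrableOn.mono' hf.aestronglyMeasurable
      (ae_restrict_of_forall_mem measurableSet_closedBall.compl fun x hx => ?_))
  rw [Real.rpow_neg (by positivity), Real.rpow_natCast]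
  exact h x (by simpa using hx)

theorem num (hn : 3 ≤ n) {r : ℝ} (hr : 1 ≤ r) :
    (r * (r ^ n)⁻¹) ^ 2 ≤ 2 ^ (n + 1) * ((1 + r) ^ (n + 1))⁻¹ := by
  have h0 : 0 < r := one_pos.trans_le hr
  have h1 : (1 + r) ^ (n + 1) ≤ (2 * r) ^ (n + 1) := by
    gcongr
    linarith
  have h2 : r ^ (2 + (n + 1)) ≤ r ^ (n * 2) := pow_le_pow_right₀ hr (by omega)
  rw [← div_eq_mul_inv, ← div_eq_mul_inv, div_pow, div_le_div_iff₀ (by positivity) (by positivity),
    ← pow_mul]
  calc r ^ 2 * (1 + r) ^ (n + 1) ≤ r ^ 2 * (2 * r) ^ (n + 1) := by gcongr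
    _ = 2 ^ (n + 1) * r ^ (2 + (n + 1)) := by rw [mul_pow, pow_add r 2]; ring
    _ ≤ _ := by gcongr

end FinH

open FinH in
/-- **row G2F** -/
theorem g2f : G2F := by
  rintro n u a β hn hu ⟨C, R, h⟩
  refine int_far (C := n * ((|C| + |(n - 2) * β|) ^ 2 * 2 ^ (n + 1))) (R := max R 1)
    (continuous_finsetSum _ fun i _ => (hu.pd i).cont.pow 2) fun x hx => ?_
  have h1 : 1 ≤ ‖x‖ := (le_max_right _ _).trans hx.le
  have h0 : 0 < ‖x‖ := one_pos.trans_le h1
  have h2 : ∀ i, pd i u x ^ 2 ≤
      (|C| + |(n - 2) * β|) ^ 2 * 2 ^ (n + 1) * ((1 + ‖x‖) ^ (n + 1))⁻¹ := fun i => by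
    have k1 := (h x ((le_max_left _ _).trans hx.le)).2 i
    rw [Real.rpow_neg h0.le, Real.rpow_natCast] at k1
    have k0 : 0 < (‖x‖ ^ n)⁻¹ := by positivity
    have k2 : |(n - 2) * β * x i * (‖x‖ ^ n)⁻¹| ≤ |(n - 2) * β| * (‖x‖ * (‖x‖ ^ n)⁻¹) := by
      rw [abs_mul, abs_mul, abs_of_pos k0, mul_assoc]
      have : |x i| ≤ ‖x‖ := PiLp.norm_apply_le x i
      gcongr
    have k3 : C * (‖x‖ ^ n)⁻¹ ≤ |C| * (‖x‖ * (‖x‖ ^ n)⁻¹) :=
      mul_le_mul (le_abs_self C) (le_mul_of_one_le_left k0.le h1) k0.le (abs_nonneg C)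
    have k4 : |pd i u x| ≤ (|C| + |(n - 2) * β|) * (‖x‖ * (‖x‖ ^ n)⁻¹) := by
      have := abs_sub (pd i u x + (n - 2) * β * x i * (‖x‖ ^ n)⁻¹)
        ((n - 2) * β * x i * (‖x‖ ^ n)⁻¹)
      rw [add_sub_cancel_right] at this
      linarith
    rw [← sq_abs, mul_assoc]
    refine (pow_le_pow_left₀ (abs_nonneg _) k4 2).trans ?_
    rw [mul_pow]
    exact mul_le_mul_of_nonneg_left (num hn h1) (sq_nonneg _)
  rw [abs_of_nonneg (Finset.sum_nonneg fun i _ => sq_nonneg _), mul_assoc]
  refine (Finset.sum_le_sum fun i _ => h2 i).trans_eq ?_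
  rw [Finset.sum_const, Finset.card_fin, nsmul_eq_mul]

/-- **row FIN** -/
theorem fin_of (hF : FLUX) : FIN := by
  intro n X w θ A κ c C e hn hX ha iw w0 iθ θ0 hC he hc hA h1 h2
  have I0 : 0 ≤ ∫ x, w x := integral_nonneg w0
  have mA := measurableSet_toMeasurable volume A
  rw [← ofReal_integral_eq_lintegral_ofReal iw (ae_of_all _ w0), ← ENNReal.ofReal_mul he,
    ← measure_toMeasurable] at hA
  have v1 : volume.real (toMeasurable volume A) ≤ e * ∫ x, w x :=
    ENNReal.toReal_le_of_le_ofReal (mul_nonneg he I0) hA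
  have iA : Integrable ((toMeasurable volume A).indicator fun _ : E n => C) :=
    (integrable_indicator_iff mA).2
      (integrableOn_const (ne_top_of_le_ne_top ENNReal.ofReal_ne_top hA))
  have m1 : ∀ r, AEStronglyMeasurable fun x => cut r x * w x :=
    fun r => (sm_cut r).cont.aestronglyMeasurable.mul iw.1
  have b1 : ∀ r x, ‖cut r x * w x‖ ≤ w x := fun r x => by
    rw [Real.norm_of_nonneg (mul_nonneg (cut_nonneg r x) (w0 x))]
    exact mul_le_of_le_one_left (w0 x) (cut_le_one r x)
  have t1 : Tendsto (fun r => ∫ x, cut r x * w x) atTop (𝓝 (∫ x, w x)) :=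
    tendsto_integral_filter_of_dominated_convergence w (.of_forall m1)
      (.of_forall fun r => ae_of_all _ (b1 r)) iw
      (ae_of_all _ fun x => by simpa using (cut_tendsto x).mul_const (w x))
  have key := le_of_tendsto_of_tendsto (((t1.const_mul c).sub_const (∫ x, θ x)).sub_const
    (volume.real (toMeasurable volume A) * C)) (hF n X κ hn hX ha) (by
      filter_upwards [eventually_gt_atTop 0] with r hr
      have i1 := (iw.mono' (m1 r) (ae_of_all _ (b1 r))).const_mul c
      have i2 : Integrable fun x => c * (cut r x * w x) - θ x := i1.sub iθ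
      rw [← smul_eq_mul (volume.real _), ← integral_indicator_const C mA, ← integral_const_mul,
        ← integral_sub i1 iθ, ← integral_sub i2 iA]
      refine integral_mono (i2.sub iA) (((sm_cut r).cont.mul (continuous_finsetSum _
        fun i _ => ((hX i).pd i).cont)).integrable_of_hasCompactSupport
          (supp_cut hr).mul_right) fun x => ?_
      have k0 : 0 ≤ (toMeasurable volume A).indicator (fun _ : E n => C) x :=
        indicator_nonneg (fun _ _ => hC) x
      have k1 : c * w x - θ x - (toMeasurable volume A).indicator (fun _ : E n => C) x ≤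
          ∑ i, pd i (X i) x := by
        by_cases k : x ∈ A
        · rw [indicator_of_mem (subset_toMeasurable volume A k)]
          linarith [h2 x k, θ0 x]
        · linarith [h1 x k]
      have k2 := mul_le_mul_of_nonneg_left k1 (cut_nonneg r x)
      have k3 := mul_le_of_le_one_left (add_nonneg (θ0 x) k0) (cut_le_one r x)
      beta_reduce
      linarith)
  nlinarith [mul_le_mul_of_nonneg_left v1 hC, mul_le_mul_of_nonneg_right hc I0]

end Vale.Agent.P366Y.C
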