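import Vale.Agent.P366Y.C.Defs2
import Vale.Agent.P366Z.Max
import Vale.Agent.P366Z.Asy

/-!
# P366Y, block D: the lower bound of the solution (row FLOOR)
-/

open Filter Topology Set
open scoped ContDiff
open Vale.Agent.P366.Stmt Vale.Agent.P366Z

noncomputable section

namespace Vale.Agent.P366Y.C

theorem floor_of (hG : GB) (hR : RB) (hF : FLP) : FLOOR := by
  intro n g f u Λ F a β hn hg hf hu hs hm h0 u0 ha a1 he hl x₀
  by_contra! k
  obtain ⟨x, hx⟩ := hu.continuous.exists_forall_le' x₀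
    (((AsyF.lim1 hn ha).eventually (lt_mem_nhds a1)).mono fun _ h => (k.trans h).le)
  have hφ : Smooth fun y => F (u y) := hs.comp hu
  have h1 := (ptm n _ (fun _ => 1) (fun y => -u y) x (hG n g _ f hg hφ hf).1 contDiff_const
    (hu.c2 x).neg (.of_forall fun y => neg_le_neg (hx y))).2
  rw [wl_neg, wl_one] at h1
  obtain ⟨lam, C, h2, h3, h4, h5⟩ := hl x ((hx x₀).trans_lt k)
  have h6 := (hF n g _ f x lam C hg hφ hf (h0 _) (.of_forall fun y => hm (hx y)) h2 h3 h4).trans_lt h5
  have h7 := he x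
  rw [cl, hR n g _ f hg hφ hf fun _ => h0 _] at h7
  nlinarith [mul_pos (sub_pos.2 h6) (u0 x), mul_nonneg (one_pos.trans (one_lt_gam hn)).le
    (neg_nonpos.1 h1)]

end Vale.Agent.P366Y.C
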