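import Vale.Agent.P366Y.C.Defs
import Vale.Agent.P366Z.Calc3

/-!
# P366Y, row GB: the metric of the graph
-/

open MeasureTheory Metric Filter Topology Set
open scoped ContDiff ENNReal
open Vale.Agent.P366.Stmt Vale.Agent.P366Z

noncomputable section

namespace Vale.Agent.P366Y.C

namespace GbH

variable {n : ℕ} {g : Field n} {φ f : E n → ℝ}

theorem mat_gb (g : Field n) (φ f : E n → ℝ) (x : E n) : mat (gb g φ f) x =
    mat g x + Matrix.vecMulVec (fun i => φ x * pd i f x) fun i => φ x * pd i f x := by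
  ext i j
  change g x i j + φ x ^ 2 * pd i f x * pd j f x = g x i j + φ x * pd i f x * (φ x * pd j f x)
  ring

theorem one_le (hg : Met g) (φ f : E n → ℝ) (x : E n) : 1 ≤ 1 + φ x ^ 2 * ip g f f x :=
  le_add_of_nonneg_right (mul_nonneg (sq_nonneg _) (hg.ip_nonneg f x))

theorem ww_sq (hg : Met g) (φ f : E n → ℝ) (x : E n) :
    ww g φ f x ^ 2 = 1 + φ x ^ 2 * ip g f f x :=
  Real.sq_sqrt (zero_le_one.trans (one_le hg φ f x))

theorem one_le_ww (hg : Met g) (φ f : E n → ℝ) (x : E n) : 1 ≤ ww g φ f x :=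
  Real.one_le_sqrt.2 (one_le hg φ f x)

theorem g_gr (hg : Met g) (f : E n → ℝ) (i : Fin n) (x : E n) :
    ∑ k, g x i k * gr g f k x = pd i f x := by
  simp only [gr, Finset.mul_sum, ← mul_assoc]
  rw [Finset.sum_comm]
  simp only [← Finset.sum_mul, hg.mul_up]
  simp

theorem dens_gb (hg : Met g) (φ f : E n → ℝ) (x : E n) :
    dens (gb g φ f) x = ww g φ f x * dens g x := by
  unfold dens ww
  rw [← Real.sqrt_mul (zero_le_one.trans (one_le hg φ f x)), mat_gb, Matrix.vecMulVec_eq Unit,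
    Matrix.det_add_replicateCol_mul_replicateRow (isUnit_iff_ne_zero.2 (hg.det_pos x).ne'),
    Matrix.det_unique (n := Unit), mul_comm]
  congr 2
  simp only [Matrix.add_apply, Matrix.one_apply_eq, Matrix.mul_apply, Matrix.replicateRow_apply,
    Matrix.replicateCol_apply, ip, up, Finset.mul_sum, Finset.sum_mul, add_right_inj]
  rw [Finset.sum_comm]
  exact Finset.sum_congr rfl fun i _ => Finset.sum_congr rfl fun j _ => by ring

theorem up_gb (hg : Met g) (φ f : E n → ℝ) (i j : Fin n) (x : E n) : up (gb g φ f) i j x =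
    up g i j x - φ x ^ 2 * gr g f i x * gr g f j x / ww g φ f x ^ 2 := by
  have h : (mat (gb g φ f) x)⁻¹ = Matrix.of fun i j =>
      up g i j x - φ x ^ 2 * gr g f i x * gr g f j x / ww g φ f x ^ 2 := by
    refine Matrix.inv_eq_right_inv ?_
    ext a b
    have h1 := hg.mul_up a b x
    have h2 := g_gr hg f a x
    have h3 := ip_eq_gr g f f x
    have h4 : ∑ k, pd k f x * up g k b x = gr g f b x :=
      Finset.sum_congr rfl fun k _ => by rw [hg.up_sy, mul_comm]
    have h5 : ww g φ f x ^ 2 ≠ 0 := pow_ne_zero _ (one_pos.trans_le (one_le_ww hg φ f x)).ne'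
    have h6 : ∀ k, (g x a k + φ x ^ 2 * pd a f x * pd k f x) *
        (up g k b x - φ x ^ 2 * gr g f k x * gr g f b x / ww g φ f x ^ 2) =
        g x a k * up g k b x + φ x ^ 2 * pd a f x * (pd k f x * up g k b x) -
          φ x ^ 2 * gr g f b x / ww g φ f x ^ 2 * (g x a k * gr g f k x) -
          φ x ^ 4 * pd a f x * gr g f b x / ww g φ f x ^ 2 * (pd k f x * gr g f k x) :=
      fun k => by ring
    rw [Matrix.mul_apply, Matrix.one_apply]
    refine (Finset.sum_congr rfl fun k _ => h6 k).trans ?_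
    simp only [Finset.sum_add_distrib, Finset.sum_sub_distrib, ← Finset.mul_sum]
    rw [h1, h2, ← h3, h4]
    generalize (if a = b then (1 : ℝ) else 0) = δ
    rw [ww_sq hg] at h5 ⊢
    field_simp
    ring
  exact congrFun (congrFun h i) j

theorem gr_gb (hg : Met g) (φ f u : E n → ℝ) (i : Fin n) (x : E n) : gr (gb g φ f) u i x =
    gr g u i x - φ x ^ 2 * ip g f u x * gr g f i x / ww g φ f x ^ 2 := by
  rw [hg.ip_sy, ip_eq_gr, gr, gr, Finset.mul_sum, Finset.sum_mul, Finset.sum_div,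
    ← Finset.sum_sub_distrib]
  exact Finset.sum_congr rfl fun j _ => by rw [up_gb hg]; ring

theorem ip_gb (hg : Met g) (φ f u v : E n → ℝ) (x : E n) : ip (gb g φ f) u v x =
    ip g u v x - φ x ^ 2 * ip g f u x * ip g f v x / ww g φ f x ^ 2 := by
  rw [hg.ip_sy f u, ip_eq_gr _ u v, ip_eq_gr _ u v, ip_eq_gr _ u f, Finset.mul_sum, Finset.sum_mul,
    Finset.sum_div, ← Finset.sum_sub_distrib]
  exact Finset.sum_congr rfl fun j _ => by rw [gr_gb hg]; ring

theorem dv_gb (hg : Met g) (φ f : E n → ℝ) (X : Fin n → E n → ℝ) (x : E n) :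
    dv (gb g φ f) X x = dv g (fun i y => ww g φ f y * X i y) x / ww g φ f x := by
  unfold dv
  have : ∀ i, (fun y => dens (gb g φ f) y * X i y) =
      fun y => dens g y * (ww g φ f y * X i y) := fun i => funext fun y => by
    rw [dens_gb hg]; ring
  simp only [this]
  rw [dens_gb hg, div_div, mul_comm]

theorem met_gb (hg : Met g) (hφ : Smooth φ) (hf : Smooth f) : Met (gb g φ f) where
  sm i j := ContDiff.add (hg.sm i j) (((ContDiff.pow hφ 2).mul (hf.pd i)).mul (hf.pd j))
  sy x i j := by unfold gb; rw [hg.sy]; ring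
  pos x := by
    rw [mat_gb]
    exact (hg.pos x).add_posSemidef (Matrix.posSemidef_vecMulVec_self_star _)

theorem sm_ww (hg : Met g) (hφ : Smooth φ) (hf : Smooth f) : Smooth (ww g φ f) :=
  ContDiff.sqrt (contDiff_const.add ((ContDiff.pow hφ 2).mul (hg.sm_ip hf hf)))
    fun x => (one_pos.trans_le (one_le hg φ f x)).ne'

theorem sy_hh (hg : Met g) (hφ : Smooth φ) (hf : Smooth f) : Sy (hh g φ f) where
  sm i j := ContDiff.div (((ContDiff.mul hφ (hg.sm_hess hf i j)).add
    (ContDiff.mul (hφ.pd i) (hf.pd j))).add (ContDiff.mul (hφ.pd j) (hf.pd i))) (sm_ww hg hφ hf)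
    fun x => (one_pos.trans_le (one_le_ww hg φ f x)).ne'
  sy x i j := by unfold hh; rw [hg.hess_sy (hf.c2 x)]; ring

end GbH

open GbH in
theorem gb_ : GB := fun _ _ φ f hg hφ hf =>
  ⟨met_gb hg hφ hf, sm_ww hg hφ hf, sy_hh hg hφ hf, fun x => ⟨one_le_ww hg φ f x, ww_sq hg φ f x,
    dens_gb hg φ f x, fun i j => up_gb hg φ f i j x, fun u i => gr_gb hg φ f u i x,
    fun u v => ip_gb hg φ f u v x, fun X => dv_gb hg φ f X x⟩⟩

end Vale.Agent.P366Y.C
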