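import Vale.Agent.P366Y.C.Defs2
import Vale.Agent.P366Z.Asy
import Vale.Agent.P366Z.Max
import Vale.Agent.P366Z.Mv
import Vale.Agent.P366Z.MvH

/-!
# P366Y, block D: the upper bound near infinity (row HI)
-/

open MeasureTheory Metric Filter Topology Set
open scoped ContDiff ENNReal
open Vale.Agent.P366.Stmt Vale.Agent.P366Z

noncomputable section

namespace Vale.Agent.P366Y.C

namespace HiH

variable {n : ℕ} {v : E n → ℝ} {a β R : ℝ}

/-- the lower barrier -/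
theorem low (hW : WMP) (hn : 3 ≤ n) (r1 : 1 ≤ R) (ha : 0 ≤ a) (hv : Smooth v)
    (h : ∀ x, R ≤ ‖x‖ → 0 ≤ v x ∧ lap (eu n) v x ≤ 0) (hA : Asy v a β) (x : E n) (hx : R < ‖x‖) :
    0 ≤ 1 * v x + a * R ^ (n - 2 : ℝ) * ‖x‖ ^ (2 - n : ℝ) + -a := by
  have r0 : 0 < R := by linarith
  have nz : ∀ y : E n, R ≤ ‖y‖ → y ≠ 0 := fun y hy => norm_pos_iff.1 (r0.trans_le hy)
  have bd : ∀ y : E n, ‖y‖ = R →
      0 ≤ 1 * v y + a * R ^ (n - 2 : ℝ) * ‖y‖ ^ (2 - n : ℝ) + -a := fun y hy => by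
    rw [mul_assoc, hy, ← Real.rpow_add r0, sub_add_sub_cancel, sub_self, Real.rpow_zero]
    linarith [(h y hy.ge).1]
  have o1 : IsOpen {y : E n | R < ‖y‖} := isOpen_lt continuous_const continuous_norm
  have c2 : ∀ y : E n, R ≤ ‖y‖ → ContDiffAt ℝ 2 (fun y : E n => 1 * v y +
      a * R ^ (n - 2 : ℝ) * ‖y‖ ^ (2 - n : ℝ) + -a) y := fun y hy =>
    ((contDiffAt_const.mul (hv.c2 y)).add
      (contDiffAt_const.mul (contDiffAt_norm_rpow (nz y hy) _))).add contDiffAt_const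
  refine hW n (eu n) (fun _ => 1) _ (fun _ => 0) _ (by omega) met_eu contDiff_const
    (fun _ => one_pos) o1 (fun y hy => (c2 y (closure_lt_subset_le continuous_const
      continuous_norm hy)).continuousAt.continuousWithinAt) (fun y hy => ⟨c2 y (le_of_lt hy),
      le_rfl, ?_⟩)
    (fun y hy => bd y (frontier_lt_subset_eq continuous_const continuous_norm hy).symm)
    (fun e he => ?_) x hx
  · have y1 : R < ‖y‖ := hy
    rw [wl_add_const, met_eu.wl_lin (differentiableAt_const _) (hv.c2 y)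
      (contDiffAt_norm_rpow (nz y y1.le) _), wl_one, wl_one, lap_eu_rpow (nz y y1.le)]
    simp only [sub_add_cancel, sub_self, mul_zero, zero_mul]
    linarith [(h y y1.le).2]
  · obtain ⟨K, hK, hK'⟩ := mem_cocompact.1
      ((AsyF.lim1 hn hA).eventually (lt_mem_nhds (sub_lt_self a he)))
    obtain ⟨ρ, hρ⟩ := hK.isBounded.subset_ball 0
    refine ⟨ρ, fun y _ hy => ?_⟩
    have k : a - e < v y := hK' fun k => (mem_ball_zero_iff.1 (hρ k)).not_ge hy
    have k1 : 0 ≤ a * R ^ (n - 2 : ℝ) * ‖y‖ ^ (2 - n : ℝ) := by positivity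
    linarith

theorem coef (hW : WMP) (hn : 3 ≤ n) (r1 : 1 ≤ R) (ha : 0 ≤ a) (hv : Smooth v)
    (h : ∀ x, R ≤ ‖x‖ → 0 ≤ v x ∧ lap (eu n) v x ≤ 0) (hA : Asy v a β) :
    -(a * R ^ (n - 2 : ℝ)) ≤ β := by
  have := nontriv (n := n) (by omega)
  refine ge_of_tendsto (AsyF.lim2 hA) ((AsyF.far (R + 1)).mono fun x hx => ?_)
  have h2 : 0 < ‖x‖ := by linarith
  have e1 : ‖x‖ ^ (2 - n : ℝ) * ‖x‖ ^ (n - 2 : ℝ) = 1 := by
    rw [← Real.rpow_add h2]
    simp
  have k := mul_nonneg (low hW hn r1 ha hv h hA x (by linarith))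
    (Real.rpow_nonneg h2.le (n - 2 : ℝ))
  linear_combination k + a * R ^ (n - 2 : ℝ) * e1

end HiH

/-- **HI** -/
theorem hi_of (hH : HARN) (hW : WMP) (_ : ASY) : HI := by
  intro n hn
  obtain ⟨C, hC⟩ := hH n hn
  refine ⟨2 * max C 0, fun v a β b R S r1 ha hb hβ hv h hA x hx => ?_⟩
  have k := hC v a β R S r1 ha hv h hA x hx
  have k1 := HiH.coef hW hn r1 ha hv (fun x hx => ⟨(h x hx).1, (h x hx).2.1⟩) hA
  have n3 : (3 : ℝ) ≤ n := by exact_mod_cast hn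
  have x0 : 0 < ‖x‖ := by linarith
  have p0 := Real.rpow_pos_of_pos x0 (2 - n : ℝ)
  have s0 : 0 ≤ S := nonneg_of_mul_nonneg_left ((abs_nonneg _).trans (h x (by linarith)).2.2)
    (Real.rpow_pos_of_pos x0 _)
  have k2 : R ^ (n - 2 : ℝ) * ‖x‖ ^ (2 - n : ℝ) ≤ 1 := by
    refine (mul_le_mul_of_nonneg_right (Real.rpow_le_rpow (by linarith) (by linarith : R ≤ ‖x‖)
      (by linarith)) p0.le).trans_eq ?_
    rw [← Real.rpow_add x0]
    simp
  have k3 : |β| ≤ a * R ^ (n - 2 : ℝ) + b := by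
    have : 0 ≤ a * R ^ (n - 2 : ℝ) := by positivity
    exact abs_le.2 ⟨by linarith, by linarith⟩
  have k4 : |β| * ‖x‖ ^ (2 - n : ℝ) ≤ a + b * ‖x‖ ^ (2 - n : ℝ) := by
    nlinarith [mul_le_mul_of_nonneg_right k3 p0.le, mul_le_mul_of_nonneg_left k2 ha]
  have k5 : 0 ≤ b * ‖x‖ ^ (2 - n : ℝ) := by positivity
  refine (k.trans (mul_le_mul_of_nonneg_right (le_max_left C 0) (by positivity))).trans ?_
  rw [mul_comm 2, mul_assoc]
  exact mul_le_mul_of_nonneg_left (by linarith) (le_max_right _ _)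

theorem hi : HI := hi_of (harn_of mv flux) wmp asy

end Vale.Agent.P366Y.C
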