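import Vale.Agent.P366Y.C.Defs
import Vale.Agent.P366Z.Boch

/-!
# P366Y, block C: the identity in divergence form
-/

open MeasureTheory Metric Filter Topology Set
open scoped ContDiff ENNReal
open Vale.Agent.P366.Stmt Vale.Agent.P366Z

noncomputable section

namespace Vale.Agent.P366Y.C

namespace Kid

open Vale.Agent.P366Z.Boch

variable {n : ℕ} {g K P h : Field n} {x : E n}

lemma sm_tr (hg : Met g) (hK : Sy K) : Smooth (tr g K) :=
  ContDiff.sum fun i _ => ContDiff.sum fun j _ => ContDiff.mul (hg.sm_up i j) (hK.sm i j)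

lemma sm_tv (hg : Met g) (hK : Sy K) {u : E n → ℝ} (hu : Smooth u) (i : Fin n) :
    Smooth (tv g K u i) :=
  ContDiff.sum fun j _ => ContDiff.sum fun k _ =>
    ContDiff.mul (ContDiff.mul (hg.sm_up i j) (hK.sm j k)) (hg.sm_gr hu k)

lemma sm_momT (hg : Met g) (hK : Sy K) (i j : Fin n) : Smooth fun y => momT g K y i j :=
  ContDiff.sub (hK.sm i j) (ContDiff.mul (sm_tr hg hK) (hg.sm i j))

lemma tr_add (e : ∀ x i j, h x i j = K x i j + P x i j) (x : E n) :
    tr g h x = tr g K x + tr g P x := by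
  simp only [tr, e, mul_add, Finset.sum_add_distrib]

lemma momT_add (e : ∀ x i j, h x i j = K x i j + P x i j) (x : E n) (i j : Fin n) :
    momT g h x i j = momT g K x i j + momT g P x i j := by
  simp only [momT, e, tr_add e]
  ring

lemma mom_add (hg : Met g) (hK : Sy K) (hP : Sy P) (e : ∀ x i j, h x i j = K x i j + P x i j)
    (j : Fin n) (x : E n) : mom g h j x = mom g K j x + mom g P j x := by
  simp only [mom, momT_add e, ← Finset.sum_add_distrib]
  refine Finset.sum_congr rfl fun i _ => Finset.sum_congr rfl fun k _ => ?_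
  rw [pd_add ((sm_momT hg hK i j).diff x) ((sm_momT hg hP i j).diff x)]
  simp only [mul_add, Finset.sum_add_distrib]
  ring

lemma bil_sy (hg : Met g) (T S : Fin n → Fin n → ℝ) : bil g x T S = bil g x S T := by
  unfold bil
  rw [Finset.sum_congr rfl fun i _ => Finset.sum_comm, Finset.sum_comm]
  refine Finset.sum_congr rfl fun k _ => ?_
  rw [Finset.sum_congr rfl fun i _ => Finset.sum_comm, Finset.sum_comm]
  refine Finset.sum_congr rfl fun l _ => Finset.sum_congr rfl fun i _ =>
    Finset.sum_congr rfl fun j _ => ?_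
  rw [hg.up_sy i k, hg.up_sy j l]
  ring

lemma bil_lin {T S A B C : Fin n → Fin n → ℝ} {a b c : ℝ}
    (e : ∀ i j, S i j = a * A i j + b * B i j + c * C i j) :
    bil g x T S = a * bil g x T A + b * bil g x T B + c * bil g x T C := by
  simp only [bil, e, Finset.mul_sum, ← Finset.sum_add_distrib]
  exact Finset.sum_congr rfl fun i _ => Finset.sum_congr rfl fun j _ =>
    Finset.sum_congr rfl fun k _ => Finset.sum_congr rfl fun l _ => by ring

lemma bil_pp (T : Field n) (u v : E n → ℝ) :
    bil g x (T x) (fun k l => pd k u x * pd l v x) = b2 g T u v x := by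
  rw [bil_eq]
  refine Finset.sum_congr rfl fun i _ => Finset.sum_congr rfl fun j _ => ?_
  rw [mul_assoc, gr, gr, Finset.sum_mul_sum]
  simp only [Finset.mul_sum]
  exact Finset.sum_congr rfl fun k _ => Finset.sum_congr rfl fun l _ => by ring

lemma b2_sy (hP : Sy P) (u v : E n → ℝ) : b2 g P u v x = b2 g P v u x := by
  unfold b2
  rw [Finset.sum_comm]
  exact Finset.sum_congr rfl fun i _ => Finset.sum_congr rfl fun j _ => by rw [hP.sy x j i]; ring

lemma b2_of_pd {u u' : E n → ℝ} {s : ℝ} (hu : ∀ i, pd i u x = s * pd i u' x) (v : E n → ℝ) :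
    b2 g P u v x = s * b2 g P u' v x := by
  have h1 : ∀ i, gr g u i x = s * gr g u' i x := fun i => by
    simp only [gr, hu, Finset.mul_sum]
    exact Finset.sum_congr rfl fun j _ => by ring
  simp only [b2, h1, Finset.mul_sum]
  exact Finset.sum_congr rfl fun i _ => Finset.sum_congr rfl fun j _ => by ring

end Kid

open Kid Vale.Agent.P366Z.Boch in
/-- **KID** -/
theorem kid_of (hGB : GB) (hST : STAT) (hDV : DVT) : KID := by
  intro n g K φ f T hg hK hφ hf hT h0
  obtain ⟨-, -, hh', hW⟩ := hGB n g φ f hg hφ hf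
  have hP : Sy (pk g K φ f) :=
    ⟨fun i j => ContDiff.sub (hh'.sm i j) (hK.sm i j), fun x i j => by
      unfold pk; rw [hh'.sy x i j, hK.sy x i j]⟩
  have e : ∀ x i j, hh g φ f x i j = K x i j + pk g K φ f x i j := fun x i j => by
    unfold pk; ring
  have hw : Smooth fun y => φ y ^ 2 := ContDiff.pow hφ 2
  have hwT : Smooth fun y => φ y ^ 2 * T y := ContDiff.mul hw hT
  have hA : ∀ i, Smooth fun y => φ y ^ 2 * (tv g (pk g K φ f) f i y -
      tr g (pk g K φ f) y * gr g f i y) := fun i =>
    ContDiff.mul hw (ContDiff.sub (sm_tv hg hP hf i) (ContDiff.mul (sm_tr hg hP) (hg.sm_gr hf i)))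
  have hB : ∀ i, Smooth fun y => φ y ^ 2 * T y * gr g f i y := fun i =>
    ContDiff.mul hwT (hg.sm_gr hf i)
  have hy : yy g K φ f T = fun i y => φ y ^ 2 * (tv g (pk g K φ f) f i y -
      tr g (pk g K φ f) y * gr g f i y) + φ y ^ 2 * T y * gr g f i y := by
    funext i y
    unfold yy
    ring
  refine ⟨fun i => by rw [hy]; exact ContDiff.add (hA i) (hB i), fun x => ?_⟩
  have hW0 : ww g φ f x ≠ 0 := (zero_lt_one.trans_le (hW x).1).ne'
  have hd : ∀ i, pd i (fun y => φ y ^ 2) x = 2 * φ x * pd i φ x := fun i => by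
    rw [pd_pow (hφ.diff x)]; norm_num
  have h1 := hDV n g (pk g K φ f) (fun y => φ y ^ 2) f hg hP hw hf x
  have h2 : dv g (fun i y => φ y ^ 2 * T y * gr g f i y) x =
      φ x ^ 2 * T x * lap g f x + (T x * (2 * φ x * ip g φ f x) + φ x ^ 2 * ip g T f x) := by
    rw [hg.dv_smul (f := fun y => φ y ^ 2 * T y) (hwT.diff x) fun i => (hg.sm_gr hf i).diff x,
      ← ip_eq_gr, ip_mul_left (hw.diff x) (hT.diff x),
      ip_of_pd hd (v' := f) (t := 1) fun i => (one_mul _).symm, mul_one]
    rfl
  have h3 : ∀ S : Fin n → Fin n → ℝ, ww g φ f x * bil g x S (hh g φ f x) =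
      φ x * bil g x S (hess g f x) + bil g x S (fun k l => pd k φ x * pd l f x) +
        bil g x S (fun k l => pd k f x * pd l φ x) := fun S => by
    rw [bil_lin (a := φ x / ww g φ f x) (b := 1 / ww g φ f x) (c := 1 / ww g φ f x)
      (A := hess g f x) (B := fun k l => pd k φ x * pd l f x)
      (C := fun k l => pd k f x * pd l φ x) fun i j => by unfold hh; ring]
    field_simp
  have h4 := h3 (pk g K φ f x)
  rw [bil_pp, bil_pp, b2_sy hP f φ, bil_lin (a := 1) (b := 1) (c := 0) (A := K x)
    (B := pk g K φ f x) (C := K x) fun i j => by rw [e]; ring] at h4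
  have h5 := h3 (g x)
  simp only [bil_sy hg (g x), bil_g hg] at h5
  have h6 : ww g φ f x * (tr g K x + tr g (pk g K φ f) x) = φ x * lap g f x + 2 * ip g φ f x := by
    rw [← tr_add e, hg.lap_eq_tr (hf.c2 x), two_mul, ← add_assoc]
    refine h5.trans ?_
    congr 1
    · congr 1
      exact Finset.sum_congr rfl fun i _ => Finset.sum_congr rfl fun j _ => (mul_assoc _ _ _).symm
    · rw [hg.ip_sy]
      exact Finset.sum_congr rfl fun i _ => Finset.sum_congr rfl fun j _ => (mul_assoc _ _ _).symm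
  have h7 : normSq g (hh g φ f) x = normSq g K x + 2 * bil g x (pk g K φ f x) (K x) +
      normSq g (pk g K φ f) x := by
    have e' : ∀ i j, hh g φ f x i j = 1 * K x i j + 1 * pk g K φ f x i j + 0 * K x i j :=
      fun i j => by rw [e]; ring
    show bil g x (hh g φ f x) (hh g φ f x) = bil g x (K x) (K x) + _ +
      bil g x (pk g K φ f x) (pk g K φ f x)
    rw [bil_lin e', bil_sy hg _ (K x), bil_sy hg _ (pk g K φ f x), bil_lin e', bil_lin e',
      bil_sy hg (K x) (pk g K φ f x)]
    ring
  have h8 : ∑ j, mom g (hh g φ f) j x * gr g f j x =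
      ∑ j, mom g K j x * gr g f j x + ∑ j, mom g (pk g K φ f) j x * gr g f j x := by
    simp only [mom_add hg hK hP e, add_mul, Finset.sum_add_distrib]
  have h9 : φ x * ww g φ f x * scal (gb g φ f) x = φ x * ww g φ f x * (2 * mu g (hh g φ f) x) -
      2 * φ x ^ 2 * ∑ j, mom g (hh g φ f) j x * gr g f j x := by
    rw [hST n g φ f hg hφ hf h0 x]
    field_simp
  rw [b2_of_pd hd, ip_of_pd hd (v' := f) (t := 1) (fun i => (one_mul _).symm), mul_one] at h1
  have h10 : bil g x (pk g K φ f x) (pk g K φ f x) = normSq g (pk g K φ f) x := rfl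
  have h11 : ∑ i, ∑ j, ∑ k, ∑ l, up g i k x * up g j l x * pk g K φ f x i j * hess g f x k l =
      bil g x (pk g K φ f x) (hess g f x) := rfl
  rw [h9, h8, hy, hg.dv_add (fun i => (hA i).diff x) fun i => (hB i).diff x, h1, h2, h11]
  unfold mu
  rw [h7, tr_add e]
  rw [h10] at h4
  linear_combination (-2 * φ x) * h4 + (2 * φ x * (tr g (pk g K φ f) x - T x)) * h6

end Vale.Agent.P366Y.C
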