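import Vale.Agent.P366Y.C.Defs2
import Vale.Agent.P366Z.Calc2

/-!
# P366Y, block D: the test of the equation
-/

open MeasureTheory Metric Filter Topology Set
open scoped ContDiff ENNReal
open Vale.Agent.P366.Stmt Vale.Agent.P366Z

noncomputable section

namespace Vale.Agent.P366Y.C

namespace MassH

theorem low {B D φ W a p q G I : ℝ} (hB : 1 ≤ B) (hD : 1 ≤ B * D) (h1 : 1 ≤ B * φ) (h2 : φ ≤ B)
    (hW : 1 ≤ W) (hW2 : W ^ 2 = 1 + φ ^ 2 * a) (ha : a ≤ B) (ha0 : 0 ≤ a) (hq : 0 ≤ q)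
    (hp : p ^ 2 ≤ a * q) (hG : G ≤ B * q) (hI : I = q - φ ^ 2 * p * p / W ^ 2) :
    1 / B ^ 5 * G ≤ D * (2 * φ * W * I) := by
  have B0 : 0 < B := by linarith
  have φ0 : 0 < φ := by
    by_contra k
    nlinarith [mul_nonneg B0.le (neg_nonneg.2 (not_lt.1 k))]
  have D0 : 0 < D := by
    by_contra k
    nlinarith [mul_nonneg B0.le (neg_nonneg.2 (not_lt.1 k))]
  have W0 : 0 < W := by linarith
  have k1 : q / W ≤ W * I := by
    rw [hI, div_le_iff₀ W0]
    have e : W * (q - φ ^ 2 * p * p / W ^ 2) * W = W ^ 2 * q - φ ^ 2 * p ^ 2 := by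
      field_simp
    rw [e, hW2]
    nlinarith [mul_le_mul_of_nonneg_left hp (sq_nonneg φ)]
  have k2 : W ≤ 2 * B ^ 2 := by
    refine abs_le_of_sq_le_sq' ?_ (by positivity) |>.2
    have e1 : φ ^ 2 ≤ B ^ 2 := pow_le_pow_left₀ φ0.le h2 2
    have e2 : φ ^ 2 * a ≤ B ^ 2 * B := mul_le_mul e1 ha ha0 (by positivity)
    have e3 : 1 ≤ B ^ 2 := one_le_pow₀ hB
    have e4 : B ^ 2 * B ≤ B ^ 2 * B ^ 2 := mul_le_mul_of_nonneg_left (by nlinarith) (by positivity)
    rw [hW2]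
    nlinarith
  have k3 : q / (2 * B ^ 2) ≤ W * I := (div_le_div_of_nonneg_left hq W0 k2).trans k1
  have k4 : 1 ≤ (B * D) * (B * φ) := one_le_mul_of_one_le_of_one_le hD h1
  calc 1 / B ^ 5 * G ≤ 1 / B ^ 5 * (B * q) := mul_le_mul_of_nonneg_left hG (by positivity)
    _ = 1 * (2 / B ^ 2 * (q / (2 * B ^ 2))) := by field_simp
    _ ≤ ((B * D) * (B * φ)) * (2 / B ^ 2 * (W * I)) :=
        mul_le_mul k4 (mul_le_mul_of_nonneg_left k3 (by positivity)) (by positivity)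
          (by positivity)
    _ = _ := by field_simp

end MassH

theorem mass_of (hG : GB) (hP : PW2) (hS : STRZ) (hB : BAD) (hF : FIN) (hA : ASYZ) (hE : G2F) :
    MASS := by
  intro n B k₀ h hn B1 h0
  obtain ⟨c, c0, B', hS⟩ := hS n B hn B1
  obtain ⟨C, C0, hB⟩ := hB n c B' k₀ h hn c0 h0
  have B0 : 0 < B := by linarith
  have q0 : 0 < B * B * k₀ ^ 2 * C + 1 := by positivity
  refine ⟨min 1 (1 / B ^ 5 / (B * B * k₀ ^ 2 * C + 1)), lt_min one_pos (by positivity), ?_⟩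
  intro g K f T u U lam Λ θ F r R β β' r0 hr H
  have r1 : r ≤ 1 := hr.trans (min_le_left _ _)
  have r2 := (le_div_iff₀ q0).1 (hr.trans (min_le_right _ _))
  set φ : E n → ℝ := fun y => F (u y) with hφ
  have sφ : Smooth φ := H.smF.comp H.smu
  have φ0 : ∀ x, 0 < φ x := fun x => by
    have := (H.Fb _ (H.u0 x)).1
    by_contra k
    nlinarith [mul_nonneg B0.le (neg_nonneg.2 (not_lt.1 k))]
  have dφ : ∀ x i, pd i φ x = deriv F (u x) * pd i u x := fun x i =>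
    pd_comp ((H.smF.differentiable (by simp)) (u x)).hasDerivAt (H.smu.diff x) i
  obtain ⟨mb, -, -, gb'⟩ := hG n g φ f H.met sφ H.smf
  obtain ⟨sz, pw⟩ := hP n g K φ f T u hn H.met H.sy sφ H.smf H.smT H.smu φ0
  have pw' : ∀ x, ex g K φ f T u (lam x) (Λ x) x + 2 * φ x * ww g φ f x * ip (gb g φ f) u u x ≤
      dv g (zz g K φ f T u) x := fun x => by
    have k1 := pw x (lam x) _ (Λ x) (H.u0 x) (H.Fb _ (H.u0 x)).2.2.1 (dφ x) (H.lam0 x) (H.eqn x)
    have k2 := mul_nonneg (mul_nonneg (mul_nonneg (H.u0 x).le (H.Fb _ (H.u0 x)).2.2.1)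
      (zero_le_one.trans (gb' x).1)) (mb.ip_nonneg u x)
    nlinarith
  have sX : ∀ i, Smooth fun y => dens g y * zz g K φ f T u i y := fun i =>
    ContDiff.mul H.met.sm_dens (sz i)
  have dX : ∀ x, ∑ i, pd i (fun y => dens g y * zz g K φ f T u i y) x =
      dens g x * dv g (zz g K φ f T u) x := fun x => by
    rw [dv, mul_div_cancel₀ _ (H.met.dens_pos x).ne']
  have st : ∀ y, Str u (fun i y => dens g y * zz g K φ f T u i y) c B' r y := fun y => by
    have k := H.Fb _ (H.u0 y)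
    refine hS g K φ f T u y r _ H.met H.sy sφ H.smf (H.el y) r0 r1 (H.u0 y) k.1 k.2.1 k.2.2.1
      k.2.2.2 (dφ y) (H.df y) (H.d2f y) (H.Kb y) (H.Tb y) ?_
    have k1 : B * u y ^ 2 ≤ B * u y ^ 2 / r ^ 2 :=
      le_div_self (by positivity) (by positivity) (pow_le_one₀ r0.le r1)
    linarith [pw' y, H.all y]
  have lo : ∀ x, 1 / B ^ 5 * g2 u x + dens g x * ex g K φ f T u (lam x) (Λ x) x ≤
      ∑ i, pd i (fun y => dens g y * zz g K φ f T u i y) x := fun x => by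
    have k := H.Fb _ (H.u0 x)
    have k1 := MassH.low B1 (H.el x).dens_lo k.1 k.2.1 (gb' x).1 (gb' x).2.1 (H.df x)
      (H.met.ip_nonneg f x) (H.met.ip_nonneg u x) (H.met.ip_cs f u x)
      ((H.el x).up_lo fun i => pd i u x) ((gb' x).2.2.2.2.2.1 u u)
    rw [dX]
    have k2 := mul_le_mul_of_nonneg_left (pw' x) (dens_nonneg g x)
    change 1 / B ^ 5 * g2 u x ≤ _ at k1
    nlinarith
  have key := hF n _ (g2 u) θ _ _ (1 / B ^ 5) (B * B * k₀ ^ 2) (C * r ^ 2) hn sX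
    (hA n g K f T u U F R β β' hn H.met H.smu H.smU H.smF H.U0 H.far H.asyU H.asy)
    (hE n u 1 β hn H.smu H.asy) (fun x => Finset.sum_nonneg fun i _ => sq_nonneg _) H.int H.θ0
    (by positivity) (by positivity) ?_ (hB u _ univ r H.smu sX r0 fun x _ y _ => st y) ?_ ?_
  · linarith
  · have k1 : r ^ 2 ≤ r := by nlinarith
    have k2 : B * B * k₀ ^ 2 * C * r ^ 2 ≤ B * B * k₀ ^ 2 * C * r :=
      mul_le_mul_of_nonneg_left k1 (by positivity)
    nlinarith
  · intro x hx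
    have k1 := H.good x (by
      by_contra k
      rw [not_or, not_lt, not_forall₂] at k
      obtain ⟨k1, y, hy, k2⟩ := k
      exact hx ⟨trivial, k1, y, hy, not_le.1 k2⟩)
    linarith [lo x]
  · intro x hx
    have k1 := mul_le_mul_of_nonneg_left (H.all x) (dens_nonneg g x)
    have k2 : u x ^ 2 ≤ k₀ ^ 2 := pow_le_pow_left₀ (H.u0 x).le hx.2.1 2
    have k3 : dens g x * (B * u x ^ 2) ≤ B * (B * k₀ ^ 2) :=
      mul_le_mul (H.el x).dens_hi (mul_le_mul_of_nonneg_left k2 B0.le) (by positivity) B0.le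
    linarith [lo x]

end Vale.Agent.P366Y.C
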