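import Vale.Agent.P366Y.C.Defs
import Vale.Agent.P366Z.Calc2

/-!
# P366Y, block C: the pointwise inequality for the vector field of the test
-/

open MeasureTheory Metric Filter Topology Set
open scoped ContDiff ENNReal
open Vale.Agent.P366.Stmt Vale.Agent.P366Z

noncomputable section

namespace Vale.Agent.P366Y.C

namespace PwH

variable {n : ℕ} {g : Field n}

/-- the inequality of Cauchy and Schwarz for a covector and a gradient -/
theorem cs (hg : Met g) (J : Fin n → E n → ℝ) (f : E n → ℝ) (x : E n) {a W : ℝ} (hW : 0 ≤ W)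
    (h : W ^ 2 = 1 + a ^ 2 * ip g f f x) : a * ∑ j, J j x * gr g f j x ≤ W * covNorm g J x := by
  have h0 := hg.up_nonneg x fun i => J i x
  have h1 := hg.up_cs x (fun i => J i x) fun i => pd i f x
  have h2 : ∑ j, J j x * gr g f j x = ∑ i, ∑ j, up g i j x * J i x * pd j f x :=
    Finset.sum_congr rfl fun i _ => by
      rw [gr, Finset.mul_sum]
      exact Finset.sum_congr rfl fun j _ => by ring
  refine (abs_le_of_sq_le_sq' ?_ (mul_nonneg hW (Real.sqrt_nonneg _))).2
  rw [mul_pow, mul_pow, Real.sq_sqrt h0, h, h2, ip]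
  nlinarith [mul_le_mul_of_nonneg_left h1 (sq_nonneg a)]

end PwH

open PwH in
/-- **row PW** -/
theorem pw_of (hG : GB) (hK : KID) (hC : CONE) : PW := by
  intro n g K φ f T u hn hg hk hφ hf hT hu h0
  obtain ⟨mb, sW, -, hb⟩ := hG n g φ f hg hφ hf
  obtain ⟨sY, hid⟩ := hK n g K φ f T hg hk hφ hf hT h0
  have s1 : Smooth fun y => φ y * u y := ContDiff.mul hφ hu
  have s2 : Smooth fun y => 2 * u y ^ 2 := ContDiff.mul contDiff_const (ContDiff.pow hu 2)
  have s3 : ∀ i, Smooth fun y => ww g φ f y * gr (gb g φ f) u i y :=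
    fun i => ContDiff.mul sW (mb.sm_gr hu i)
  have s4 : ∀ i, Smooth fun y => 4 * gam n * (φ y * u y * (ww g φ f y * gr (gb g φ f) u i y)) :=
    fun i => ContDiff.mul contDiff_const (ContDiff.mul s1 (s3 i))
  have s5 : ∀ i, Smooth fun y => 2 * u y ^ 2 * yy g K φ f T i y := fun i => ContDiff.mul s2 (sY i)
  have e : zz g K φ f T u = fun i y => 4 * gam n * (φ y * u y *
      (ww g φ f y * gr (gb g φ f) u i y)) + 2 * u y ^ 2 * yy g K φ f T i y := by
    funext i y
    rw [zz]
    ring
  rw [e]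
  refine ⟨fun i => ContDiff.add (s4 i) (s5 i), fun x lam d hx hd hp hl => ?_⟩
  obtain ⟨w1, w2, -, -, -, -, w3⟩ := hb x
  have w0 : 0 < ww g φ f x := one_pos.trans_le w1
  have e1 : dv g (fun i y => ww g φ f y * gr (gb g φ f) u i y) x =
      ww g φ f x * lap (gb g φ f) u x := by
    rw [lap, w3, mul_div_cancel₀ _ w0.ne']
  have e2 : ∑ i, pd i (fun y => φ y * u y) x * (ww g φ f x * gr (gb g φ f) u i x) =
      (φ x + u x * d) * ww g φ f x * ip (gb g φ f) u u x := by
    rw [ip_eq_gr, Finset.mul_sum]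
    exact Finset.sum_congr rfl fun i _ => by
      rw [pd_mul (hφ.diff x) (hu.diff x), hp i]
      ring
  have e3 : ∑ i, pd i (fun y => 2 * u y ^ 2) x * yy g K φ f T i x =
      4 * u x * ∑ i, pd i u x * yy g K φ f T i x := by
    rw [Finset.mul_sum]
    exact Finset.sum_congr rfl fun i _ => by
      rw [pd_const_mul, pd_pow (hu.diff x)]
      push_cast
      ring
  have h1 := hC n g K φ f T u lam d (4 * gam n) x hg hk hφ hf (h0 x) hx hd
    (by linarith [one_lt_gam hn]) hp hl
  have h2 := mul_le_mul_of_nonneg_left (cs hg (mom g K) f x w0.le w2)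
    (mul_nonneg (h0 x).le (sq_nonneg (u x)))
  rw [hg.dv_add (fun i => (s4 i).diff x) fun i => (s5 i).diff x, dv_const_mul,
    hg.dv_smul (s1.diff x) fun i => (s3 i).diff x, hg.dv_smul (s2.diff x) fun i => (sY i).diff x,
    e1, e2, e3, cl]
  linear_combination h1 + 2 * h2 - u x ^ 2 * hid x

end Vale.Agent.P366Y.C
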