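import Vale.Agent.P366Y.C.Defs
import Vale.Agent.P366Z.Boch

/-!
# P366Y, block C: the scalar curvature of the graph without third derivatives
-/

open MeasureTheory Metric Filter Topology Set
open scoped ContDiff ENNReal
open Vale.Agent.P366.Stmt Vale.Agent.P366Z
open Vale.Agent.P366Z.Boch (bil bil_eq part2)

noncomputable section

namespace Vale.Agent.P366Y.C

namespace Rb

variable {n : ℕ} {g : Field n} {φ f u v : E n → ℝ} {x : E n}

/-- the tensor `dφ df + df dφ` -/
def mm (φ f : E n → ℝ) : Field n := fun x i j => pd i φ x * pd j f x + pd j φ x * pd i f x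

theorem b2_sy {T : Field n} (hT : ∀ i j, T x i j = T x j i) : b2 g T u v x = b2 g T v u x := by
  unfold b2
  rw [Finset.sum_comm]
  exact Finset.sum_congr rfl fun i _ => Finset.sum_congr rfl fun j _ => by rw [hT]; ring

theorem b2_mm :
    b2 g (mm φ f) u v x = ip g φ u x * ip g f v x + ip g f u x * ip g φ v x := by
  simp only [b2, mm, ip_eq_gr, Finset.sum_mul_sum, ← Finset.sum_add_distrib]
  exact Finset.sum_congr rfl fun i _ => Finset.sum_congr rfl fun j _ => by ring

theorem bil_mm (T : Field n) :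
    bil g x (T x) (mm φ f x) = b2 g T φ f x + b2 g T f φ x := by
  rw [bil_eq]
  simp only [b2, ← Finset.sum_add_distrib]
  refine Finset.sum_congr rfl fun i _ => Finset.sum_congr rfl fun j _ => ?_
  rw [mul_assoc, mul_assoc, ← mul_add, gr, gr, gr, gr, Finset.sum_mul_sum, Finset.sum_mul_sum,
    ← Finset.sum_add_distrib]
  refine congrArg _ (Finset.sum_congr rfl fun k _ => ?_)
  rw [Finset.mul_sum, ← Finset.sum_add_distrib]
  exact Finset.sum_congr rfl fun l _ => by simp only [mm]; ring

theorem bil_sy (hg : Met g) (T S : Fin n → Fin n → ℝ) : bil g x T S = bil g x S T := by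
  have h : ∀ T S : Fin n → Fin n → ℝ, bil g x T S = ∑ a : Fin n × Fin n, ∑ b : Fin n × Fin n,
      up g a.1 b.1 x * up g a.2 b.2 x * T a.1 a.2 * S b.1 b.2 := fun T S => by
    simp only [Fintype.sum_prod_type, bil]
  rw [h, h, Finset.sum_comm]
  exact Finset.sum_congr rfl fun a _ => Finset.sum_congr rfl fun b _ => by
    rw [hg.up_sy a.1, hg.up_sy a.2]; ring

theorem bil_lin {P S T : Fin n → Fin n → ℝ} {a b : ℝ} (h : ∀ i j, P i j = a * S i j + b * T i j)
    (R : Fin n → Fin n → ℝ) : bil g x P R = a * bil g x S R + b * bil g x T R := by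
  simp only [bil, h, Finset.mul_sum, ← Finset.sum_add_distrib]
  exact Finset.sum_congr rfl fun i _ => Finset.sum_congr rfl fun j _ =>
    Finset.sum_congr rfl fun k _ => Finset.sum_congr rfl fun l _ => by ring

theorem tr_lin {P S T : Field n} {a b : ℝ} (h : ∀ i j, P x i j = a * S x i j + b * T x i j) :
    tr g P x = a * tr g S x + b * tr g T x := by
  simp only [tr, h, Finset.mul_sum, ← Finset.sum_add_distrib]
  exact Finset.sum_congr rfl fun i _ => Finset.sum_congr rfl fun j _ => by ring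

theorem tv_lin {P S T : Field n} {a b : ℝ} (h : ∀ i j, P x i j = a * S x i j + b * T x i j)
    (i : Fin n) : tv g P u i x = a * tv g S u i x + b * tv g T u i x := by
  simp only [tv, h, Finset.mul_sum, ← Finset.sum_add_distrib]
  exact Finset.sum_congr rfl fun i _ => Finset.sum_congr rfl fun j _ => by ring

theorem tr_mm (hg : Met g) : tr g (mm φ f) x = 2 * ip g φ f x := by
  have h : tr g (mm φ f) x = ip g φ f x + ip g f φ x := by
    simp only [tr, mm, ip, ← Finset.sum_add_distrib]
    exact Finset.sum_congr rfl fun i _ => Finset.sum_congr rfl fun j _ => by ring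
  rw [h, hg.ip_sy f φ, two_mul]

theorem tv_mm (i : Fin n) :
    tv g (mm φ f) u i x = ip g f u x * gr g φ i x + ip g φ u x * gr g f i x := by
  rw [ip_eq_gr, ip_eq_gr, mul_comm, mul_comm _ (gr g f i x), gr, gr, Finset.sum_mul_sum,
    Finset.sum_mul_sum, ← Finset.sum_add_distrib]
  refine Finset.sum_congr rfl fun j _ => ?_
  rw [← Finset.sum_add_distrib]
  exact Finset.sum_congr rfl fun k _ => by simp only [mm]; ring

theorem ip_ip (hg : Met g) (hu : Smooth u) (hv : Smooth v) (w : E n → ℝ) :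
    ip g (ip g u v) w x = b2 g (hess g u) w v x + b2 g (hess g v) w u x := by
  rw [ip_eq_gr]
  simp only [hg.pd_ip (hu.c2 x) (hv.c2 x), b2, add_mul, Finset.sum_mul, Finset.sum_add_distrib]
  congr 1 <;>
  exact Finset.sum_congr rfl fun i _ => Finset.sum_congr rfl fun j _ => by ring

theorem b2_ip (hg : Met g) (hf : Smooth f) :
    b2 g (hess g f) (ip g f f) f x = 2 * n1 g (hess g f) f x := by
  have h : ∀ i, gr g (ip g f f) i x = 2 * tv g (hess g f) f i x := fun i => by
    simp only [gr, tv, hg.pd_ip (hf.c2 x) (hf.c2 x), ← two_mul, Finset.mul_sum]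
    exact Finset.sum_congr rfl fun j _ => Finset.sum_congr rfl fun k _ =>
      Finset.sum_congr rfl fun l _ => by ring
  simp only [b2, n1, h, Finset.mul_sum]
  exact Finset.sum_congr rfl fun i _ => Finset.sum_congr rfl fun j _ => by ring

theorem sm_tv (hg : Met g) {T : Field n} (hT : Sy T) (hf : Smooth f) (i : Fin n) :
    Smooth (tv g T f i) :=
  ContDiff.sum fun j _ => ContDiff.sum fun k _ =>
    ContDiff.mul (ContDiff.mul (hg.sm_up i j) (hT.sm j k)) (hg.sm_gr hf k)

theorem sm_tr (hg : Met g) {T : Field n} (hT : Sy T) : Smooth (tr g T) :=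
  ContDiff.sum fun i _ => ContDiff.sum fun j _ => ContDiff.mul (hg.sm_up i j) (hT.sm i j)

end Rb

open Rb in
theorem rb_of (hGB : GB) (hST : STAT) (hDV : DVT) (hRC : RCI) : RB := by
  intro n g φ f hg hφ hf h0 x
  obtain ⟨-, sW, sh, hW⟩ := hGB n g φ f hg hφ hf
  have W0 : ∀ y, ww g φ f y ≠ 0 := fun y => by linarith [(hW y).1]
  have sS : Sy (hess g f) := ⟨hg.sm_hess hf, fun y => hg.hess_sy (hf.c2 y)⟩
  set o : E n → ℝ := fun y => (ww g φ f y)⁻¹ with ho
  have so : Smooth o := ContDiff.inv sW W0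
  have ss : Smooth fun y => φ y * o y := ContDiff.mul hφ so
  have sa : Smooth (ip g f f) := hg.sm_ip hf hf
  have sp : Smooth (ip g φ f) := hg.sm_ip hφ hf
  have eh : ∀ y i j, hh g φ f y i j = (φ y * o y) * hess g f y i j + o y * mm φ f y i j :=
    fun y i j => by simp only [hh, mm, ho]; ring
  have lt : ∀ y, tr g (hess g f) y = lap g f y := fun y => (hg.lap_eq_tr (hf.c2 y)).symm
  -- the derivative of `W`
  have dW : ∀ k, ww g φ f x * pd k (ww g φ f) x =
      φ x * ip g f f x * pd k φ x + φ x ^ 2 / 2 * pd k (ip g f f) x := fun k => by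
    have e : (fun y => ww g φ f y ^ 2) = fun y => 1 + φ y ^ 2 * ip g f f y :=
      funext fun y => (hW y).2.1
    have h1 := pd_pow (sW.diff x) 2 k
    rw [e, pd_const_add, pd_mul ((hφ.diff x).fun_pow 2) (sa.diff x), pd_pow (hφ.diff x)] at h1
    norm_num at h1
    linarith
  have W2 := (hW x).2.1
  have Wx := W0 x
  have d0 : ∀ k, pd k o x = -(φ x * ip g f f x / ww g φ f x ^ 3) * pd k φ x +
      -(φ x ^ 2 / 2 / ww g φ f x ^ 3) * pd k (ip g f f) x := fun k => by
    rw [ho, pd_inv (sW.diff x) Wx]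
    field_simp
    linear_combination (-2) * dW k
  have sy : ∀ u v, b2 g (hess g f) u v x = b2 g (hess g f) v u x :=
    fun u v => b2_sy (sS.sy x)
  have a1 : ∀ w, ip g (ip g f f) w x = 2 * b2 g (hess g f) w f x := fun w => by
    rw [ip_ip hg hf hf, two_mul]
  have o1 : ∀ w, ip g o w x = -(φ x * ip g f f x / ww g φ f x ^ 3) * ip g φ w x +
      -(φ x ^ 2 / 2 / ww g φ f x ^ 3) * ip g (ip g f f) w x := fun w => ip_of_pd_add d0
  have s1 : ∀ w, ip g (fun y => φ y * o y) w x = o x * ip g φ w x + φ x * ip g o w x :=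
    fun w => ip_mul_left (hφ.diff x) (so.diff x)
  have s2 : 2 * b2 g (hess g f) (fun y => φ y * o y) f x =
      ip g (fun y => φ y * o y) (ip g f f) x := by rw [hg.ip_sy, a1]
  rw [s1, o1, a1 (ip g f f), b2_ip hg hf, hg.ip_sy φ, a1] at s2
  -- the divergences
  have D1 := hDV n g _ (fun _ => 1) f hg sh contDiff_const hf x
  have D2 := hDV n g _ (fun y => φ y * o y) f hg sS ss hf x
  have e1 : (fun i y => 1 * (tv g (hh g φ f) f i y - tr g (hh g φ f) y * gr g f i y)) =
      fun i y => (φ y * o y) * (tv g (hess g f) f i y - tr g (hess g f) y * gr g f i y) +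
        ((o y * ip g f f y) * gr g φ i y + (-1 * (o y * ip g φ f y)) * gr g f i y) := by
    funext i y
    rw [tv_lin (eh y), tr_lin (eh y), tv_mm, tr_mm hg]
    ring
  have b0 : b2 g (hh g φ f) (fun _ => 1) f x = 0 := by simp [b2, gr, pd_const]
  have m1 : Smooth fun y => o y * ip g f f y := ContDiff.mul so sa
  have m2 : Smooth fun y => o y * ip g φ f y := ContDiff.mul so sp
  have m3 : Smooth fun y => -1 * (o y * ip g φ f y) := ContDiff.mul contDiff_const m2
  have g1 := fun i => (hg.sm_gr hφ i).diff x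
  have g2 := fun i => (hg.sm_gr hf i).diff x
  rw [e1, hg.dv_add (fun i => (ss.diff x).fun_mul (((sm_tv hg sS hf i).diff x).fun_sub
      (((sm_tr hg sS).diff x).fun_mul (g2 i))))
      (fun i => ((m1.diff x).fun_mul (g1 i)).fun_add ((m3.diff x).fun_mul (g2 i))),
    hg.dv_add (fun i => (m1.diff x).fun_mul (g1 i)) (fun i => (m3.diff x).fun_mul (g2 i)),
    hg.dv_smul (m1.diff x) g1, hg.dv_smul (m3.diff x) g2, ← ip_eq_gr, ← ip_eq_gr, D2, b0,
    ip_const_left, (hRC n g f hg hf).2 x, ip_mul_left (differentiableAt_const _) (m2.diff x),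
    ip_const_left, ip_mul_left (so.diff x) (sa.diff x), ip_mul_left (so.diff x) (sp.diff x),
    s1, o1, o1, a1, a1, ip_ip hg hφ hf, sy f φ] at D1
  change _ + _ + _ * (normSq g (hess g f) x - _) +
    (_ * lap g φ x + _ + (_ * lap g f x + _)) = _ + _ +
    1 * (bil g x (hh g φ f x) (hess g f x) - _) at D1
  have n0 : bil g x (hess g f x) (hess g f x) = normSq g (hess g f) x := rfl
  have n2 : bil g x (mm φ f x) (hess g f x) = 2 * b2 g (hess g f) φ f x := by
    rw [bil_sy hg, bil_mm, sy f φ, two_mul]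
  have n3 : normSq g (hh g φ f) x = bil g x (hh g φ f x) (hh g φ f x) := rfl
  rw [bil_lin (eh x), bil_sy hg (hess g f x), bil_sy hg (mm φ f x), bil_lin (eh x),
    bil_lin (eh x), n0, n2, bil_sy hg (hess g f x), n2, bil_mm, b2_mm, b2_mm,
    hg.ip_sy f φ] at n3
  have t1 : tr g (hh g φ f) x = _ := tr_lin (eh x)
  rw [tr_mm hg, lt] at t1
  rw [bil_lin (eh x), n0, n2, t1, lt] at D1
  rw [hST n g φ f hg hφ hf h0 x, mu, n3, t1, rb]
  have e2 : (ww g φ f x)⁻¹ = o x := rfl
  simp only [div_eq_mul_inv _ (ww g φ f x), div_eq_mul_inv _ (ww g φ f x ^ _), ← inv_pow,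
    e2] at D1 s2 ⊢
  linear_combination (2 * φ x * o x) * D1 - (φ x * o x) * s2

end Vale.Agent.P366Y.C
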