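import Vale.Agent.P366Y.C.Defs
import Vale.Agent.P366Z.Boch
import Vale.Agent.P366Z.Max

/-!
# P366Y, block C: the divergence of the Hessian, the curvature at a minimum (rows RCI, FLP)
-/

open Filter Topology Set
open scoped ContDiff
open Vale.Agent.P366.Stmt Vale.Agent.P366Z Vale.Agent.P272.K.MP

noncomputable section

namespace Vale.Agent.P366Y.C

namespace RciH

variable {n : ℕ} {g : Field n} {u f : E n → ℝ} {x : E n}

theorem sum_pd (hg : Met g) (i l : Fin n) (x : E n) :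
    ∑ j, pd i (chr g j j l) x = pd i (pd l fun y => Real.log (dens g y)) x := by
  rw [← pd_sum Finset.univ (F := fun j => chr g j j l) fun j _ => (hg.sm_chr j j l).diff x]
  refine congrArg (pd i · x) (funext fun y => ?_)
  rw [pd_log (hg.sm_dens.diff y) (hg.dens_pos y).ne', ← hg.sum_chr]
  exact Finset.sum_congr rfl fun j _ => hg.chr_sy j j l y

theorem sy_rc (hg : Met g) : Sy (rc g) := by
  refine ⟨fun i l => ContDiff.sum fun j _ => ContDiff.add
    (ContDiff.sub ((hg.sm_chr j i l).pd j) ((hg.sm_chr j j l).pd i)) (ContDiff.sum fun k _ =>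
      ContDiff.sub (ContDiff.mul (hg.sm_chr j j k) (hg.sm_chr k i l))
        (ContDiff.mul (hg.sm_chr k j i) (hg.sm_chr j k l))), fun x i l => ?_⟩
  have h1 : Smooth fun y => Real.log (dens g y) :=
    ContDiff.log hg.sm_dens fun y => (hg.dens_pos y).ne'
  have h2 : ∀ k, chr g k i l = chr g k l i := fun k => funext (hg.chr_sy k i l)
  simp only [rc, Finset.sum_add_distrib, Finset.sum_sub_distrib, sum_pd hg, h2]
  rw [pd_comm (h1.c2 x) i l, Finset.sum_comm (f := fun j k => chr g k j i x * chr g j k l x)]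
  simp only [mul_comm]

/-- the second derivative test -/
theorem psd (hu : ContDiffAt ℝ 2 u x) (hx : IsLocalMax u x) {M : Fin n → Fin n → ℝ}
    (hM : ∀ ξ : Fin n → ℝ, 0 ≤ ∑ i, ∑ j, M i j * ξ i * ξ j) :
    ∑ i, ∑ j, M i j * pd i (pd j u) x ≤ 0 := by
  obtain ⟨f, ξ, h⟩ := exists_diagonal _ (fderiv2_symm hu)
  have h2 : ∑ i, ∑ j, M i j * pd i (pd j u) x = ∑ k, fderiv ℝ (fderiv ℝ u) x (f k) (f k) *
      ∑ i, ∑ j, M i j * ξ k (EuclideanSpace.single i 1) * ξ k (EuclideanSpace.single j 1) := by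
    simp only [pd_pd_eq hu, Finset.mul_sum]
    symm
    rw [Finset.sum_comm]
    refine Finset.sum_congr rfl fun i _ => ?_
    rw [Finset.sum_comm]
    refine Finset.sum_congr rfl fun j _ => ?_
    conv_rhs => rw [h]
    simp only [_root_.sum_apply, _root_.smul_apply, ContinuousLinearMap.smulRight_apply,
      smul_eq_mul, Finset.mul_sum]
    exact Finset.sum_congr rfl fun k _ => by ring
  rw [h2]
  exact Finset.sum_nonpos fun k _ =>
    mul_nonpos_of_nonpos_of_nonneg (fderiv2_nonpos_of_max hx hu _) (hM _)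

theorem min_pd (hu : Smooth u) (hx : IsLocalMin u x) (i : Fin n) : pd i u x = 0 := by
  rw [pd_eq (hu.diff x), hx.fderiv_eq_zero]
  rfl

theorem min_hess (hg : Met g) (hu : Smooth u) (hx : IsLocalMin u x) (f : E n → ℝ) :
    b2 g (hess g u) f f x ≤ ip g f f x * lap g u x := by
  have h1 : Smooth fun y => -u y := ContDiff.neg hu
  have h2 := psd (h1.c2 x) hx.neg
    (M := fun i j => ip g f f x * up g i j x - gr g f i x * gr g f j x) fun ξ => by
      have k := hg.up_cs x (fun i => pd i f x) ξ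
      have e : ∑ i, ∑ j, up g i j x * pd i f x * ξ j = ∑ j, gr g f j x * ξ j := by
        rw [Finset.sum_comm]
        simp only [gr, Finset.sum_mul]
        exact Finset.sum_congr rfl fun j _ => Finset.sum_congr rfl fun i _ => by rw [hg.up_sy]
      rw [e, sq, Finset.sum_mul_sum, ← sub_nonneg, Finset.mul_sum, ← Finset.sum_sub_distrib] at k
      refine k.trans_eq (Finset.sum_congr rfl fun i _ => ?_)
      rw [Finset.mul_sum, ← Finset.sum_sub_distrib]
      exact Finset.sum_congr rfl fun j _ => by rw [ip]; ring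
  have h3 : ∀ j, pd j (fun y => -u y) = fun y => -pd j u y := fun j => funext fun y => pd_neg j
  rw [hg.lap_eq_tr (hu.c2 x), ← sub_nonpos]
  refine le_of_eq_of_le ?_ h2
  simp only [h3, pd_neg, b2, tr, hess, min_pd hu hx, mul_zero, Finset.sum_const_zero, sub_zero,
    Finset.mul_sum, ← Finset.sum_sub_distrib]
  exact Finset.sum_congr rfl fun i _ => Finset.sum_congr rfl fun j _ => by ring

theorem alg {p lam a L N A m : ℝ} (hp : 0 ≤ p) (hl : p ≤ lam) (ha : 0 ≤ a) (hN : 0 ≤ N)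
    (h4 : m ≤ N * a) (h5 : A ^ 2 ≤ m * a) (h8 : 2 * m * a - A ^ 2 ≤ N * a ^ 2) :
    (1 + p * a) * (L ^ 2 - N) - 2 * p * (L * A - m) ≤
      (1 + lam * a) * (L - lam * A / (1 + lam * a)) ^ 2 := by
  have hΓ : 0 < 1 + lam * a := by have := mul_nonneg (hp.trans hl) ha; linarith
  rcases ha.eq_or_lt with rfl | h
  · obtain rfl : A = 0 := by simpa using h5
    have := mul_nonneg hp (neg_nonneg.2 (h4.trans_eq (mul_zero _)))
    simp only [mul_zero, add_zero, div_one, sub_zero, one_mul]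
    linarith
  obtain ⟨q, rfl⟩ : ∃ q, A = q * (1 + lam * a) := ⟨_, (div_mul_cancel₀ A hΓ.ne').symm⟩
  rw [mul_div_assoc, mul_div_cancel_right₀ _ hΓ.ne']
  refine le_of_mul_le_mul_left ?_ (pow_pos h 2)
  have h1 := mul_nonneg (mul_nonneg (sub_nonneg.2 hl) ha) (sq_nonneg (a * L - q * (1 + lam * a)))
  have h2 := mul_nonneg (sq_nonneg q) hΓ.le
  have h3 := mul_nonneg (add_nonneg zero_le_one (mul_nonneg hp ha)) (sub_nonneg.2 h8)
  linarith

end RciH

open RciH

/-- row RCI -/
theorem rci_of (hD : DVT) : RCI := by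
  intro n g f hg hf
  refine ⟨sy_rc hg, fun x => ?_⟩
  have h1 := hD n g (hess g f) (fun _ => 1) f hg
    ⟨hg.sm_hess hf, fun y => hg.hess_sy (hf.c2 y)⟩ contDiff_const hf x
  have h2 : (fun i y => 1 * (tv g (hess g f) f i y - tr g (hess g f) y * gr g f i y)) =
      fun i y => 2⁻¹ * gr g (ip g f f) i y + -lap g f y * gr g f i y := by
    funext i y
    rw [hg.lap_eq_tr (hf.c2 y), one_mul, sub_eq_add_neg, neg_mul, gr.eq_1 g (ip g f f), tv,
      Finset.mul_sum]
    congr 1
    refine Finset.sum_congr rfl fun j _ => ?_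
    rw [hg.pd_ip (hf.c2 y) (hf.c2 y), ← two_mul, mul_left_comm, inv_mul_cancel_left₀ two_ne_zero,
      Finset.mul_sum]
    exact Finset.sum_congr rfl fun k _ => mul_assoc _ _ _
  have h3 : Smooth fun y => -lap g f y := ContDiff.neg (hg.sm_lap hf)
  rw [h2, hg.dv_add (fun i => ((hg.sm_gr (hg.sm_ip hf hf) i).diff x).const_mul _)
    fun i => (h3.diff x).fun_mul ((hg.sm_gr hf i).diff x), dv_const_mul,
    hg.dv_smul (h3.diff x) fun i => (hg.sm_gr hf i).diff x, ← hg.lap_eq_tr (hf.c2 x)] at h1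
  have h4 := Boch.formula hg hf x
  rw [hg.ip_sy, ip_eq_gr] at h4
  simp only [pd_neg, neg_mul, Finset.sum_neg_distrib, b2, ip_const_left, gr.eq_1 g fun _ => 1,
    pd_const, mul_zero, zero_mul, Finset.sum_const_zero] at h1
  change _ = ∑ i, ∑ l, Boch.ric g i l x * gr g f i x * gr g f l x
  unfold lap normSq at *
  linarith

/-- row FLP -/
theorem flp_of (hG : GB) (hO : ORTH) : FLP := by
  intro n g φ f x lam C hg hφ hf h0 hx hl hC hR
  obtain ⟨w1, w2, -⟩ := (hG n g φ f hg hφ hf).2.2.2 x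
  obtain ⟨o1, -, -, o4, o5, -, -, o8, -⟩ := hO n g (hess g f) f f x hg (hg.hess_sy (hf.c2 x))
  have a0 := hg.ip_nonneg f x
  have h1 := alg (L := lap g f x) (sq_nonneg _) hl a0 o1 o4 o5 o8
  have h2 := min_hess hg hφ hx f
  have z1 : ∀ v, ip g φ v x = 0 := fun v => by simp [ip, min_pd hφ hx]
  have z2 : b2 g (hess g f) φ f x = 0 := by simp [b2, gr.eq_1 g φ, min_pd hφ hx]
  rw [rb, gt, z1, z1, z2, ← hg.lap_eq_tr (hf.c2 x)]
  rw [← w2] at h1
  generalize lap g f x - _ / (1 + lam * ip g f f x) = B at h1 ⊢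
  generalize ww g φ f x = W at w1 w2 h1 ⊢
  have W0 : 0 < W := zero_lt_one.trans_le w1
  have h3 := mul_le_mul_of_nonneg_left h1 (sq_nonneg (φ x))
  have h4 := mul_nonneg (mul_nonneg h0.le (sub_nonneg.2 h2)) (sq_nonneg W)
  have h5 := mul_nonneg (mul_nonneg (sq_nonneg (φ x)) (sub_nonneg.2 hR)) (sq_nonneg W)
  have h6 := mul_nonneg hC (sq_nonneg W)
  have h7 : C * W ^ 2 * W ^ 2 = C * W ^ 2 * (1 + φ x ^ 2 * ip g f f x) := by rw [← w2]
  refine le_of_mul_le_mul_left ?_ (pow_pos W0 4)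
  field_simp
  linarith

end Vale.Agent.P366Y.C
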