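import Vale.Agent.P366Y.C.Defs
import Vale.Agent.P366Z.Calc3

/-!
# P366Y, block D: row STRZ
-/

open Vale.Agent.P366.Stmt Vale.Agent.P366Z

noncomputable section

namespace Vale.Agent.P366Y.C

namespace Strz

theorem sq3 {a b c m : ℝ} (ha : a ^ 2 ≤ m) (hb : b ^ 2 ≤ m) (hc : c ^ 2 ≤ m) :
    (a + b + c) ^ 2 ≤ 9 * m := by
  nlinarith [sq_nonneg (a - b), sq_nonneg (b - c), sq_nonneg (a - c)]

theorem sq4 (a b c d : ℝ) : (a + b + c + d) ^ 2 ≤ 4 * (a ^ 2 + b ^ 2 + c ^ 2 + d ^ 2) := by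
  nlinarith [sq_nonneg (a - b), sq_nonneg (b - c), sq_nonneg (a - c), sq_nonneg (a - d),
    sq_nonneg (b - d), sq_nonneg (c - d)]

theorem young {Y a b : ℝ} (ha : 0 ≤ a) (hb : 0 ≤ b) (h : Y ^ 2 ≤ a * b) : -(a + b) ≤ 2 * Y :=
  (abs_le_of_sq_le_sq' (by nlinarith [sq_nonneg (a - b)]) (add_nonneg ha hb)).1

/-- the numbers at the point -/
structure Nb (N B ρ γ ph s W U e a q p G T tS tK bS bK nS nK D : ℝ) : Prop where
  N1 : 1 ≤ N
  B1 : 1 ≤ B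
  ρ1 : 1 ≤ ρ
  γ1 : 1 ≤ γ
  γ2 : γ ≤ 2
  ph1 : 1 ≤ B * ph
  ph2 : ph ≤ B
  W1 : 1 ≤ W
  W2 : W ^ 2 = 1 + ph ^ 2 * a
  sW : ph = s * W
  U0 : 0 < U
  e0 : 0 ≤ e
  e1 : e ≤ B
  a0 : 0 ≤ a
  a1 : a ≤ B
  q0 : 0 ≤ q
  cs : p ^ 2 ≤ a * q
  G0 : 0 ≤ G
  G1 : G ≤ B * q
  G2 : q ≤ B * G
  T1 : T ^ 2 ≤ B ^ 2
  tS1 : tS ^ 2 ≤ N * (B * ρ)
  tK1 : tK ^ 2 ≤ N * B
  nS0 : 0 ≤ nS
  nS1 : nS ≤ B * ρ * B
  nK0 : 0 ≤ nK
  nK1 : nK ≤ B * B
  bS1 : bS ^ 2 ≤ nS * q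
  bK1 : bK ^ 2 ≤ nK * q
  D1 : 1 ≤ B * D
  D2 : D ≤ B

variable {N B ρ γ ph s W U e a q p G T tS tK bS bK nS nK D : ℝ}

namespace Nb

variable (h : Nb N B ρ γ ph s W U e a q p G T tS tK bS bK nS nK D)
include h

theorem B0 : 0 < B := one_pos.trans_le h.B1

theorem ph0 : 0 < ph := (mul_pos_iff_of_pos_left h.B0).1 (one_pos.trans_le h.ph1)

theorem D0 : 0 < D := (mul_pos_iff_of_pos_left h.B0).1 (one_pos.trans_le h.D1)

theorem s0 : 0 < s := by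
  have := h.ph0
  rw [h.sW, mul_comm] at this
  exact (mul_pos_iff_of_pos_left (one_pos.trans_le h.W1)).1 this

theorem s1 : s ≤ B := (le_mul_of_one_le_right h.s0.le h.W1).trans (h.sW ▸ h.ph2)

theorem mon {i j : ℕ} (k : i ≤ j) : B ^ i ≤ B ^ j := pow_le_pow_right₀ h.B1 k

theorem W3 : W ≤ 2 * B ^ 3 := by
  have h1 := h.ph0
  have h2 : ph ^ 2 * a ≤ B ^ 2 * B := by
    have := h.a0
    gcongr
    exacts [h.ph2, h.a1]
  nlinarith [h.W1, h.W2, h.mon (show 0 ≤ 3 by norm_num)]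

theorem s2 : 1 ≤ 2 * B ^ 4 * s := by
  have h1 := h.s0
  have h2 := h.B0
  calc 1 ≤ B * (s * W) := h.sW ▸ h.ph1
    _ ≤ B * (s * (2 * B ^ 3)) := by gcongr; exact h.W3
    _ = _ := by ring

theorem key : s * q ≤ ph * W * (q - s ^ 2 * p ^ 2) := by
  have h1 : ph * W * (q - s ^ 2 * p ^ 2) - s * q = s * ph ^ 2 * (a * q - p ^ 2) := by
    have h2 := h.W2
    rw [h.sW] at h2 ⊢
    linear_combination s * q * h2
  have h3 := mul_nonneg (mul_pos h.s0 (pow_pos h.ph0 2)).le (sub_nonneg.2 h.cs)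
  linarith

theorem low : G ≤ B ^ 5 * (2 * (s * q)) := by
  have h1 := h.B0
  have h2 := h.q0
  calc G ≤ B * q * 1 := by rw [mul_one]; exact h.G1
    _ ≤ B * q * (2 * B ^ 4 * s) := by gcongr; exact h.s2
    _ = _ := by ring

theorem low' : (B ^ 6)⁻¹ * G ≤ D * (2 * (s * q)) := by
  have h1 := h.B0
  have h2 := mul_nonneg h.s0.le h.q0
  rw [inv_mul_le_iff₀ (by positivity)]
  calc G ≤ 1 * (B ^ 5 * (2 * (s * q))) := by rw [one_mul]; exact h.low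
    _ ≤ B * D * (B ^ 5 * (2 * (s * q))) := by gcongr; exact h.D1
    _ = _ := by ring

theorem up {x : ℝ} {i j : ℕ} (k : i ≤ j) (hx : x ≤ B ^ i) : x ≤ N * B ^ j * ρ := by
  have h1 := h.B0
  have h2 := h.N1
  calc x ≤ 1 * B ^ j * 1 := by rw [one_mul, mul_one]; exact hx.trans (h.mon k)
    _ ≤ _ := by gcongr; exact h.ρ1

theorem tau : (T - s * tS + tK) ^ 2 ≤ 9 * (N * B ^ 3 * ρ) := by
  have h1 := h.B0
  have h2 := h.N1
  have h3 := h.s0
  have h4 := h.ρ1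
  rw [sub_eq_add_neg]
  refine sq3 (h.up (by norm_num) h.T1) ?_ (h.tK1.trans ?_)
  · calc _ = s ^ 2 * tS ^ 2 := by ring
      _ ≤ B ^ 2 * (N * (B * ρ)) := by gcongr; exacts [h.s1, h.tS1]
      _ = _ := by ring
  · calc N * B = N * B ^ 1 * 1 := by ring
      _ ≤ _ := by gcongr; exacts [h.B1, by norm_num]

theorem p1 : p ^ 2 ≤ B * q := h.cs.trans (mul_le_mul_of_nonneg_right h.a1 h.q0)

theorem xx : ((T - s * tS + tK) * p + s * bS - bK) ^ 2 ≤ 9 * (9 * (N * B ^ 4 * ρ) * q) := by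
  have h1 := h.B0
  have h2 := h.N1
  have h3 := h.s0
  have h4 := h.ρ1
  have h5 := h.q0
  rw [sub_eq_add_neg]
  refine sq3 ?_ ?_ ?_
  · calc _ = (T - s * tS + tK) ^ 2 * p ^ 2 := by ring
      _ ≤ 9 * (N * B ^ 3 * ρ) * (B * q) := by gcongr; exacts [h.tau, h.p1]
      _ = _ := by ring
  · calc _ = s ^ 2 * bS ^ 2 := by ring
      _ ≤ B ^ 2 * (B * ρ * B * q) := by
        gcongr
        exacts [h.s1, h.bS1.trans (mul_le_mul_of_nonneg_right h.nS1 h5)]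
      _ = 1 * (1 * B ^ 4 * ρ) * q := by ring
      _ ≤ _ := by gcongr; norm_num
  · calc _ = bK ^ 2 := by ring
      _ ≤ 1 * nK * q := by rw [one_mul]; exact h.bK1
      _ ≤ _ := by
        have := h.nK0
        gcongr
        exacts [by norm_num, h.up (i := 2) (by norm_num) (h.nK1.trans_eq (sq B).symm)]

theorem fst : (B ^ 6)⁻¹ * U * G - 2100 * N * B ^ 13 * U ^ 3 * ρ ≤
    D * (U * (4 * γ * ph * W + 2 * ph ^ 2 * e * a) * q +
      (-(U * p * (4 * γ * ph ^ 2 * s + 2 * ph ^ 2 * e)) + 2 * U ^ 2 * ph ^ 2 * (T - s * tS + tK)) * p +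
      2 * U ^ 2 * ph ^ 2 * s * bS + -(2 * U ^ 2 * ph ^ 2) * bK) := by
  have h1 := h.B0
  have h2 := h.N1
  have h3 := h.s0
  have h4 := h.ρ1
  have h5 := h.q0
  have h6 := h.U0
  have h7 := h.ph0
  have h8 := h.D0
  set X := (T - s * tS + tK) * p + s * bS - bK with hX
  have k1 : -(2 * (s * q) + 81 * N * B ^ 12 * U ^ 2 * ρ) ≤ 2 * (U * ph ^ 2 * X) := by
    refine young (by positivity) (by positivity) ?_
    calc _ = U ^ 2 * ph ^ 4 * X ^ 2 * 1 := by ring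
      _ ≤ U ^ 2 * B ^ 4 * (9 * (9 * (N * B ^ 4 * ρ) * q)) * (2 * B ^ 4 * s) := by
        gcongr
        exacts [h.ph2, h.xx, h.s2]
      _ = _ := by ring
  have k2 : 4 * (s * q) ≤ 4 * γ * (ph * W * (q - s ^ 2 * p ^ 2)) := by
    have := h.key
    have := h.γ1
    have := mul_nonneg h3.le h5
    nlinarith
  have k3 : 0 ≤ 2 * ph ^ 2 * e * (a * q - p ^ 2) :=
    mul_nonneg (mul_nonneg (by positivity) h.e0) (sub_nonneg.2 h.cs)
  have k4 : D * (81 * N * B ^ 12 * U ^ 2 * ρ) ≤ 2100 * N * B ^ 13 * U ^ 2 * ρ :=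
    calc _ ≤ B * (2100 * N * B ^ 12 * U ^ 2 * ρ) := by gcongr; exacts [h.D2, by norm_num]
      _ = _ := by ring
  calc _ = U * ((B ^ 6)⁻¹ * G - 2100 * N * B ^ 13 * U ^ 2 * ρ) := by ring
    _ ≤ U * (D * (2 * (s * q)) - D * (81 * N * B ^ 12 * U ^ 2 * ρ)) :=
        mul_le_mul_of_nonneg_left (sub_le_sub h.low' k4) h6.le
    _ = D * (U * (2 * (s * q) - 81 * N * B ^ 12 * U ^ 2 * ρ)) := by ring
    _ ≤ D * (U * (4 * γ * (ph * W * (q - s ^ 2 * p ^ 2)) + 2 * ph ^ 2 * e * (a * q - p ^ 2) +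
        2 * (U * ph ^ 2 * X))) := by gcongr; linarith
    _ = _ := by rw [hX, h.sW]; ring

theorem snd : D ^ 2 * (4 * ((U * (4 * γ * ph * W + 2 * ph ^ 2 * e * a)) ^ 2 * (B * q) +
      (-(U * p * (4 * γ * ph ^ 2 * s + 2 * ph ^ 2 * e)) +
        2 * U ^ 2 * ph ^ 2 * (T - s * tS + tK)) ^ 2 * (B * a) +
      (2 * U ^ 2 * ph ^ 2 * s) ^ 2 * (B * nS) + (-(2 * U ^ 2 * ph ^ 2)) ^ 2 * (B * nK))) ≤
    2100 * N * B ^ 13 * U ^ 2 * (G + U ^ 2 * ρ) := by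
  have h1 := h.B0
  have h2 := h.N1
  have h3 := h.s0
  have h4 := h.ρ1
  have h5 := h.q0
  have h6 := h.U0
  have h7 := h.ph0
  have h8 := h.D0
  have h9 := h.γ1
  have h10 := h.W1
  have h11 := h.e0
  have h12 := h.a0
  have h13 := h.G0
  have k1 : (U * (4 * γ * ph * W + 2 * ph ^ 2 * e * a)) ^ 2 * (B * q) ≤
      (U * (4 * 2 * B * (2 * B ^ 3) + 2 * B ^ 2 * B * B)) ^ 2 * (B * (B * G)) := by
    gcongr
    exacts [h.γ2, h.ph2, h.W3, h.ph2, h.e1, h.a1, h.G2]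
  have k2 : (U * p * (4 * γ * ph ^ 2 * s + 2 * ph ^ 2 * e)) ^ 2 ≤
      U ^ 2 * (B * (B * G)) * (4 * 2 * B ^ 2 * B + 2 * B ^ 2 * B) ^ 2 := by
    rw [mul_pow, mul_pow]
    gcongr
    exacts [h.p1.trans (mul_le_mul_of_nonneg_left h.G2 h1.le), h.γ2, h.ph2, h.s1, h.ph2, h.e1]
  have k3 : (2 * U ^ 2 * ph ^ 2 * (T - s * tS + tK)) ^ 2 ≤
      (2 * U ^ 2 * B ^ 2) ^ 2 * (9 * (N * B ^ 3 * ρ)) := by
    rw [mul_pow]
    gcongr
    exacts [h.ph2, h.tau]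
  have k4 : (-(U * p * (4 * γ * ph ^ 2 * s + 2 * ph ^ 2 * e)) +
      2 * U ^ 2 * ph ^ 2 * (T - s * tS + tK)) ^ 2 * (B * a) ≤
      2 * (U ^ 2 * (B * (B * G)) * (4 * 2 * B ^ 2 * B + 2 * B ^ 2 * B) ^ 2 +
        (2 * U ^ 2 * B ^ 2) ^ 2 * (9 * (N * B ^ 3 * ρ))) * (B * B) := by
    gcongr
    · nlinarith [sq_nonneg (U * p * (4 * γ * ph ^ 2 * s + 2 * ph ^ 2 * e) +
        2 * U ^ 2 * ph ^ 2 * (T - s * tS + tK))]
    · exact h.a1
  have k5 : (2 * U ^ 2 * ph ^ 2 * s) ^ 2 * (B * nS) ≤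
      (2 * U ^ 2 * B ^ 2 * B) ^ 2 * (B * (B * ρ * B)) := by
    have := h.nS0
    gcongr
    exacts [h.ph2, h.s1, h.nS1]
  have k6 : (-(2 * U ^ 2 * ph ^ 2)) ^ 2 * (B * nK) ≤
      (2 * U ^ 2 * B ^ 2) ^ 2 * (B * (N * B ^ 4 * ρ)) := by
    have := h.nK0
    rw [neg_sq]
    gcongr
    exacts [h.ph2, h.up (i := 2) (by norm_num) (h.nK1.trans_eq (sq B).symm)]
  calc _ ≤ B ^ 2 * (4 * (_ + _ + _ + _)) := by
        have := h.nS0
        have := h.nK0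
        exact mul_le_mul (pow_le_pow_left₀ h8.le h.D2 2) (mul_le_mul_of_nonneg_left
          (add_le_add (add_le_add (add_le_add k1 k4) k5) k6) (by norm_num)) (by positivity)
          (by positivity)
    _ = 2096 * 1 * B ^ 12 * U ^ 2 * G + (304 * N + 16 * 1) * B ^ 11 * U ^ 4 * ρ := by ring
    _ ≤ 2100 * N * B ^ 13 * U ^ 2 * G + (304 * N + 1796 * N) * B ^ 13 * U ^ 4 * ρ := by
        gcongr
        all_goals first | exact h.B1 | norm_num
    _ = _ := by ring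

theorem thd : (B ^ 6)⁻¹ * G - 2100 * N * B ^ 13 * U ^ 2 * ρ ≤
    D * (2 * ph * W * (q - s ^ 2 * p ^ 2) - B * U ^ 2 * ρ) := by
  have h1 := h.B0
  have h2 := h.N1
  have h4 := h.ρ1
  have h8 := h.D0
  have k1 : D * (B * U ^ 2 * ρ) ≤ 2100 * N * B ^ 13 * U ^ 2 * ρ :=
    calc _ ≤ B * (B * U ^ 2 * ρ) := by gcongr; exact h.D2
      _ = 1 * 1 * B ^ 2 * U ^ 2 * ρ := by ring
      _ ≤ _ := by gcongr; exacts [by norm_num, h.B1, by norm_num]
  have k2 := mul_le_mul_of_nonneg_left h.key h8.le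
  have k3 := h.low'
  linarith

end Nb

variable {n : ℕ} {g K : Field n} {φ f u : E n → ℝ} {y : E n} {d : ℝ}

theorem low_gr (hg : Met g) (u : E n → ℝ) (i : Fin n) (y : E n) :
    ∑ j, g y i j * gr g u j y = pd i u y := by
  unfold gr
  simp only [Finset.mul_sum, ← mul_assoc]
  rw [Finset.sum_comm]
  simp only [← Finset.sum_mul, hg.mul_up, ite_mul, one_mul, zero_mul, Finset.sum_ite_eq,
    Finset.mem_univ, if_true]

theorem gg (hg : Met g) (u : E n → ℝ) (y : E n) :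
    ∑ i, ∑ j, g y i j * gr g u i y * gr g u j y = ip g u u y := by
  rw [ip_eq_gr]
  refine Finset.sum_congr rfl fun i _ => ?_
  rw [← low_gr hg u i y, Finset.sum_mul]
  exact Finset.sum_congr rfl fun j _ => by ring

theorem tv_pk (hd : ∀ i, pd i φ y = d * pd i u y) (i : Fin n) :
    tv g (pk g K φ f) f i y = φ y / ww g φ f y * tv g (hess g f) f i y - tv g K f i y +
      d / ww g φ f y * (ip g f f y * gr g u i y + ip g u f y * gr g f i y) := by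
  rw [ip_eq_gr, ip_eq_gr, show gr g u i y = _ from rfl, show gr g f i y = _ from rfl]
  unfold tv pk hh
  conv_rhs => rw [gr, gr, mul_comm (∑ i, _), mul_comm (∑ i, pd i u y * _), Finset.sum_mul_sum,
    Finset.sum_mul_sum]
  simp only [Finset.mul_sum, ← Finset.sum_add_distrib, ← Finset.sum_sub_distrib, hd]
  exact Finset.sum_congr rfl fun j _ => Finset.sum_congr rfl fun k _ => by ring

theorem tr_pk (hg : Met g) (hd : ∀ i, pd i φ y = d * pd i u y) :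
    tr g (pk g K φ f) y = φ y / ww g φ f y * tr g (hess g f) y - tr g K y +
      d / ww g φ f y * (2 * ip g u f y) := by
  rw [two_mul]
  nth_rw 2 [hg.ip_sy u f]
  unfold tr pk hh ip
  simp only [Finset.mul_sum, ← Finset.sum_add_distrib, ← Finset.sum_sub_distrib, hd]
  exact Finset.sum_congr rfl fun j _ => Finset.sum_congr rfl fun k _ => by ring

theorem gam_mem (hn : 3 ≤ n) : 1 ≤ gam n ∧ gam n ≤ 2 := by
  have h1 : (3 : ℝ) ≤ n := by exact_mod_cast hn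
  unfold gam
  rw [le_div_iff₀ (by linarith), div_le_iff₀ (by linarith)]
  exact ⟨by linarith, by linarith⟩

end Strz

open Strz in
/-- **row STRZ** -/
theorem strz_of (hG : GB) (hO : ORTH) : STRZ := by
  intro n B hn hB
  refine ⟨(B ^ 6)⁻¹, by positivity, 2100 * n * B ^ 13,
    fun g K φ f T u y r d hg hK hφ hf hE r0 r1 u0 p1 p2 d0 d1 hd a1 S1 K1 T1 hz => ?_⟩
  obtain ⟨W1, W2, -, -, W3, W4, -⟩ := (hG n g φ f hg hφ hf).2.2.2 y
  obtain ⟨S2, -, S3, S4, S5, S6, S7, -⟩ := hO n g (hess g f) f u y hg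
    fun i j => hg.hess_sy (hf.c2 y) i j
  obtain ⟨K2, cs, K3, K4, K5, K6, K7, -⟩ := hO n g K f u y hg (hK.sy y)
  have W0 : 0 < ww g φ f y := one_pos.trans_le W1
  have a0 := hg.ip_nonneg f y
  have B0 : 0 ≤ B := zero_le_one.trans hB
  have q0 : ∀ ξ : Fin n → ℝ, 0 ≤ ∑ i, ∑ j, g y i j * ξ i * ξ j := fun ξ =>
    nonneg_of_mul_nonneg_right ((Finset.sum_nonneg fun _ _ => sq_nonneg _).trans (hE.g_lo ξ))
      (one_pos.trans_le hB)
  rw [div_eq_mul_inv] at S1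
  have h : Nb n B (r ^ 2)⁻¹ (gam n) (φ y) (φ y / ww g φ f y) (ww g φ f y) (u y)
      (u y * d / ww g φ f y) (ip g f f y) (ip g u u y) (ip g f u y) (g2 u y) (T y)
      (tr g (hess g f) y) (tr g K y) (b2 g (hess g f) u f y) (b2 g K u f y) (n1 g (hess g f) f y)
      (n1 g K f y) (dens g y) :=
    { N1 := by exact_mod_cast le_trans (by norm_num) hn
      B1 := hB
      ρ1 := (one_le_inv₀ (by positivity)).2 (pow_le_one₀ r0.le r1)
      γ1 := (gam_mem hn).1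
      γ2 := (gam_mem hn).2
      ph1 := p1
      ph2 := p2
      W1 := W1
      W2 := W2
      sW := (div_mul_cancel₀ _ W0.ne').symm
      U0 := u0
      e0 := by positivity
      e1 := (div_le_self (by positivity) W1).trans d1
      a0 := a0
      a1 := a1
      q0 := hg.ip_nonneg u y
      cs := cs
      G0 := Finset.sum_nonneg fun _ _ => sq_nonneg _
      G1 := hE.up_lo _
      G2 := hE.up_hi _
      T1 := sq_le_sq' (abs_le.1 T1).1 (abs_le.1 T1).2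
      tS1 := S3.trans (by gcongr)
      tK1 := K3.trans (by gcongr)
      nS0 := S7 ▸ q0 _
      nS1 := S4.trans (mul_le_mul S1 a1 a0 (S2.trans S1))
      nK0 := K7 ▸ q0 _
      nK1 := K4.trans (mul_le_mul K1 a1 a0 B0)
      bS1 := S5
      bK1 := K5
      D1 := hE.dens_lo
      D2 := hE.dens_hi }
  have e : ∀ i, zz g K φ f T u i y =
      u y * (4 * gam n * φ y * ww g φ f y + 2 * φ y ^ 2 * (u y * d / ww g φ f y) * ip g f f y) *
        gr g u i y + (-(u y * ip g f u y * (4 * gam n * φ y ^ 2 * (φ y / ww g φ f y) +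
          2 * φ y ^ 2 * (u y * d / ww g φ f y))) + 2 * u y ^ 2 * φ y ^ 2 *
            (T y - φ y / ww g φ f y * tr g (hess g f) y + tr g K y)) * gr g f i y +
      2 * u y ^ 2 * φ y ^ 2 * (φ y / ww g φ f y) * tv g (hess g f) f i y +
      -(2 * u y ^ 2 * φ y ^ 2) * tv g K f i y := fun i => by
    rw [zz, yy, W3, tv_pk hd, tr_pk hg hd, hg.ip_sy u f]
    field_simp
    ring
  refine ⟨u0, ?_, ?_, ?_⟩
  · refine (le_of_eq (by ring)).trans (h.fst.trans_eq ?_)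
    simp only [e]
    generalize u y * (_ + _) = α
    generalize -(u y * _ * _) + _ = β
    rw [S6, K6, hg.ip_sy f u, ip_eq_gr g u u, ip_eq_gr g u f]
    simp only [Finset.mul_sum, ← Finset.sum_add_distrib]
    exact Finset.sum_congr rfl fun i _ => by ring
  · refine le_trans ?_ (h.snd.trans_eq (by ring))
    simp only [e]
    generalize u y * (_ + _) = α
    generalize -(u y * _ * _) + _ = β
    generalize 2 * u y ^ 2 * φ y ^ 2 * (φ y / _) = σ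
    generalize -(2 * u y ^ 2 * φ y ^ 2) = κ
    calc _ ≤ ∑ i, dens g y ^ 2 * (4 * (α ^ 2 * gr g u i y ^ 2 + β ^ 2 * gr g f i y ^ 2 +
          σ ^ 2 * tv g (hess g f) f i y ^ 2 + κ ^ 2 * tv g K f i y ^ 2)) :=
          Finset.sum_le_sum fun i _ => by
            rw [mul_pow]
            exact mul_le_mul_of_nonneg_left ((sq4 _ _ _ _).trans_eq (by ring)) (sq_nonneg _)
      _ = dens g y ^ 2 * (4 * (α ^ 2 * ∑ i, gr g u i y ^ 2 + β ^ 2 * ∑ i, gr g f i y ^ 2 +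
          σ ^ 2 * ∑ i, tv g (hess g f) f i y ^ 2 + κ ^ 2 * ∑ i, tv g K f i y ^ 2)) := by
          simp only [Finset.mul_sum, ← Finset.sum_add_distrib]
      _ ≤ _ := by
          gcongr
          exacts [gg hg u y ▸ hE.g_lo _, gg hg f y ▸ hE.g_lo _, S7 ▸ hE.g_lo _, K7 ▸ hE.g_lo _]
  · have k := mul_le_mul_of_nonneg_left hz (hg.dens_pos y).le
    rw [dv, mul_div_cancel₀ _ (hg.dens_pos y).ne', W4] at k
    refine (le_of_eq (by ring)).trans (h.thd.trans (le_trans (le_of_eq ?_) k))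
    ring

end Vale.Agent.P366Y.C
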