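import Vale.Agent.P366Y.C.Defs
import Vale.Agent.P366Z.Calc

/-!
# P366Y, block D: few points are far from the values in their neighbourhood
-/

open MeasureTheory Metric Filter Topology Set
open scoped ContDiff ENNReal
open Vale.Agent.P366.Stmt Vale.Agent.P366Z

noncomputable section

namespace Vale.Agent.P366Y.C

namespace TransX

variable {n : ℕ}

theorem sq_int {φ : ℝ → ℝ} (h : Continuous φ) :
    (∫ t in (0 : ℝ)..1, φ t) ^ 2 ≤ ∫ t in (0 : ℝ)..1, φ t ^ 2 := by
  generalize hm : ∫ t in (0 : ℝ)..1, φ t = m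
  have h1 : 0 ≤ ∫ t in (0 : ℝ)..1, (φ t ^ 2 - 2 * m * φ t + m ^ 2) :=
    intervalIntegral.integral_nonneg zero_le_one fun t _ => by nlinarith [sq_nonneg (φ t - m)]
  rw [intervalIntegral.integral_add (Continuous.intervalIntegrable (by fun_prop) _ _)
    (continuous_const.intervalIntegrable _ _), intervalIntegral.integral_sub
    (Continuous.intervalIntegrable (by fun_prop) _ _)
    (Continuous.intervalIntegrable (by fun_prop) _ _), intervalIntegral.integral_const_mul, hm, intervalIntegral.integral_const, sub_zero,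
    one_smul] at h1
  nlinarith

theorem seg {u : E n → ℝ} (hu : ContDiff ℝ 1 u) (x z : E n) {r : ℝ} (hz : ‖z‖ ≤ r) :
    ENNReal.ofReal ((u (x + z) - u x) ^ 2) ≤ ENNReal.ofReal (r ^ 2) *
      ∫⁻ t in Ioc (0 : ℝ) 1, ENNReal.ofReal (‖fderiv ℝ u (x + t • z)‖ ^ 2) := by
  have hc : Continuous fun t : ℝ => fderiv ℝ u (x + t • z) :=
    (hu.continuous_fderiv one_ne_zero).comp (by fun_prop)
  have h1 : Continuous fun t : ℝ => fderiv ℝ u (x + t • z) z := hc.clm_apply continuous_const
  have h2 : ∫ t in (0 : ℝ)..1, fderiv ℝ u (x + t • z) z = u (x + z) - u x := by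
    have := intervalIntegral.integral_eq_sub_of_hasDerivAt (f := fun t : ℝ => u (x + t • z))
      (f' := fun t => fderiv ℝ u (x + t • z) z) (a := 0) (b := 1) (fun t _ => by
        have k := (hu.differentiable one_ne_zero (x + t • z)).hasFDerivAt.comp_hasDerivAt t
          (((hasDerivAt_id t).smul_const z).const_add x)
        rwa [one_smul] at k) (h1.intervalIntegrable _ _)
    simpa using this
  have h3 : Continuous fun t : ℝ => ‖fderiv ℝ u (x + t • z)‖ ^ 2 := hc.norm.pow 2
  rw [← ofReal_integral_eq_lintegral_ofReal (h3.integrableOn_Ioc)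
    (.of_forall fun t => by positivity), ← ENNReal.ofReal_mul (by positivity),
    ← intervalIntegral.integral_of_le zero_le_one, ← intervalIntegral.integral_const_mul, ← h2]
  refine ENNReal.ofReal_le_ofReal ((sq_int h1).trans (intervalIntegral.integral_mono_on
    zero_le_one ((h1.pow 2).intervalIntegrable _ _) ((h3.const_mul _).intervalIntegrable _ _)
    fun t _ => ?_))
  rw [← sq_abs, ← mul_pow, ← Real.norm_eq_abs, mul_comm]
  exact pow_le_pow_left₀ (norm_nonneg _) (((fderiv ℝ u (x + t • z)).le_opNorm z).trans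
    (mul_le_mul_of_nonneg_left hz (norm_nonneg _))) 2

end TransX

open TransX

theorem trans : TRANS := by
  intro n
  have hV : volume (ball (0 : E n) 1) ≠ ⊤ := measure_ball_lt_top.ne
  refine ⟨(volume (ball (0 : E n) 1)).toReal + 1, by positivity, fun u r ε hu hr hε => ?_⟩
  have h1 : ContDiff ℝ 1 u := hu.of_le (by simp)
  have hg : ∀ x, g2 u x = ‖fderiv ℝ u x‖ ^ 2 := fun x =>
    (norm_fderiv_sq (h1.differentiable one_ne_zero x)).symm
  simp only [hg]
  have mH : Measurable fun x => ENNReal.ofReal (‖fderiv ℝ u x‖ ^ 2) :=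
    ((h1.continuous_fderiv one_ne_zero).norm.pow 2).measurable.ennreal_ofReal
  generalize hH : (fun x => ENNReal.ofReal (‖fderiv ℝ u x‖ ^ 2)) = H at mH
  have mK : Measurable fun p : E n × E n => ∫⁻ t in Ioc (0 : ℝ) 1, H (p.1 + t • p.2) :=
    Measurable.lintegral_prod_right' (f := fun q : (E n × E n) × ℝ => H (q.1.1 + q.2 • q.1.2))
      (mH.comp (by fun_prop))
  have eK : ∀ z : E n, ∫⁻ x, ∫⁻ t in Ioc (0 : ℝ) 1, H (x + t • z) = ∫⁻ x, H x := fun z => by
    have k : Measurable fun q : E n × ℝ => H (q.1 + q.2 • z) := mH.comp (by fun_prop)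
    rw [lintegral_lintegral_swap k.aemeasurable]
    simp only [lintegral_add_right_eq_self H, setLIntegral_const, Real.volume_Ioc, sub_zero,
      ENNReal.ofReal_one, mul_one]
  have mD : Measurable fun x : E n => ∫⁻ z in ball (0 : E n) r,
      ∫⁻ t in Ioc (0 : ℝ) 1, H (x + t • z) := mK.lintegral_prod_right'
  refine (measure_mono (t := {x | ENNReal.ofReal (ε * r ^ n) ≤ ENNReal.ofReal (r ^ 2) *
    ∫⁻ z in ball (0 : E n) r, ∫⁻ t in Ioc (0 : ℝ) 1, H (x + t • z)}) fun x hx => ?_).trans
    ((meas_ge_le_lintegral_div (mD.const_mul _).aemeasurable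
      (ENNReal.ofReal_pos.2 (by positivity)).ne' ENNReal.ofReal_ne_top).trans
        (ENNReal.div_le_of_le_mul ?_))
  · refine (ENNReal.ofReal_le_ofReal (le_of_lt hx)).trans ?_
    have k : Continuous fun y => (u y - u x) ^ 2 := (h1.continuous.sub continuous_const).pow 2
    rw [integral_eq_lintegral_of_nonneg_ae (.of_forall fun y => sq_nonneg _)
      k.aestronglyMeasurable]
    refine ENNReal.ofReal_toReal_le.trans ?_
    have e : (fun z => x + z) ⁻¹' ball x r = ball (0 : E n) r := by
      ext z
      simp [dist_eq_norm]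
    rw [← (measurePreserving_add_left volume x).setLIntegral_comp_preimage_emb
      (measurableEmbedding_addLeft x), e, ← lintegral_const_mul' _ _ ENNReal.ofReal_ne_top]
    refine setLIntegral_mono' measurableSet_ball fun z hz => ?_
    rw [← hH]
    exact seg h1 x z (mem_ball_zero_iff.1 hz).le
  · rw [lintegral_const_mul' _ _ ENNReal.ofReal_ne_top,
      lintegral_lintegral_swap mK.aemeasurable]
    simp only [eK, setLIntegral_const]
    rw [Measure.addHaar_ball_of_pos _ _ hr, finrank_euclideanSpace_fin, mul_right_comm,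
      ← ENNReal.ofReal_mul (by positivity), mul_comm (∫⁻ x, H x), ← mul_assoc, ← mul_assoc,
      ← ENNReal.ofReal_mul (by positivity), ← ENNReal.ofReal_toReal hV,
      ← ENNReal.ofReal_mul (by positivity), ENNReal.toReal_ofReal ENNReal.toReal_nonneg]
    refine mul_le_mul_left (ENNReal.ofReal_le_ofReal ?_) _
    have e : ((volume (ball (0 : E n) 1)).toReal + 1) * r ^ 2 / ε * (ε * r ^ n) =
        r ^ 2 * r ^ n * ((volume (ball (0 : E n) 1)).toReal + 1) := by field_simp
    rw [e]
    exact mul_le_mul_of_nonneg_left (by linarith) (by positivity)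

end Vale.Agent.P366Y.C
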