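import Vale.Agent.P366Y.C.Stat
import Vale.Agent.P366Y.C.Floor
import Vale.Agent.P366Y.C.Asyz
import Vale.Agent.P366Y.C.Fin
import Vale.Agent.P366Y.C.Pw
import Vale.Agent.P366Y.C.Rb
import Vale.Agent.P366Y.C.Rci
import Vale.Agent.P366Y.C.Kid
import Vale.Agent.P366Y.C.Cone
import Vale.Agent.P366Y.C.Strz
import Vale.Agent.P366Y.C.Orth
import Vale.Agent.P366Y.C.Dvt
import Vale.Agent.P366Y.C.Gb
import Vale.Agent.P366Y.C.Mass
import Vale.Agent.P366Y.C.Bad
import Vale.Agent.P366Y.C.Cac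
import Vale.Agent.P366Y.C.Trans
import Vale.Agent.P366Y.C.Dg1
import Vale.Agent.P366Y.C.Hi
import Vale.Agent.P366Z.Asy

/-!
# P366Y, blocks C and D: the closed statements
-/

open MeasureTheory Metric Filter Topology Set
open scoped ContDiff ENNReal
open Vale.Agent.P366.Stmt Vale.Agent.P366Z

noncomputable section

namespace Vale.Agent.P366Y.C

theorem pw2_of (hG : GB) (hK : KID) (hC : CONE) : PW2 := by
  intro n g K φ f T u hn hg hk hφ hf hT hu h0
  obtain ⟨mb, sW, -, hb⟩ := hG n g φ f hg hφ hf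
  obtain ⟨sY, hid⟩ := hK n g K φ f T hg hk hφ hf hT h0
  have s1 : Smooth fun y => φ y * u y := ContDiff.mul hφ hu
  have s2 : Smooth fun y => 2 * u y ^ 2 := ContDiff.mul contDiff_const (ContDiff.pow hu 2)
  have s3 : ∀ i, Smooth fun y => ww g φ f y * gr (gb g φ f) u i y :=
    fun i => ContDiff.mul sW (mb.sm_gr hu i)
  have s4 : ∀ i, Smooth fun y => 4 * gam n * (φ y * u y * (ww g φ f y * gr (gb g φ f) u i y)) :=
    fun i => ContDiff.mul contDiff_const (ContDiff.mul s1 (s3 i))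
  have s5 : ∀ i, Smooth fun y => 2 * u y ^ 2 * yy g K φ f T i y := fun i => ContDiff.mul s2 (sY i)
  have e : zz g K φ f T u = fun i y => 4 * gam n * (φ y * u y *
      (ww g φ f y * gr (gb g φ f) u i y)) + 2 * u y ^ 2 * yy g K φ f T i y := by
    funext i y
    rw [zz]
    ring
  rw [e]
  refine ⟨fun i => ContDiff.add (s4 i) (s5 i), fun x lam d Λ hx hd hp hl hq => ?_⟩
  obtain ⟨w1, w2, -, -, -, -, w3⟩ := hb x
  have w0 : 0 < ww g φ f x := one_pos.trans_le w1
  have e1 : dv g (fun i y => ww g φ f y * gr (gb g φ f) u i y) x =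
      ww g φ f x * lap (gb g φ f) u x := by
    rw [lap, w3, mul_div_cancel₀ _ w0.ne']
  have e2 : ∑ i, pd i (fun y => φ y * u y) x * (ww g φ f x * gr (gb g φ f) u i x) =
      (φ x + u x * d) * ww g φ f x * ip (gb g φ f) u u x := by
    rw [ip_eq_gr, Finset.mul_sum]
    exact Finset.sum_congr rfl fun i _ => by
      rw [pd_mul (hφ.diff x) (hu.diff x), hp i]
      ring
  have e3 : ∑ i, pd i (fun y => 2 * u y ^ 2) x * yy g K φ f T i x =
      4 * u x * ∑ i, pd i u x * yy g K φ f T i x := by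
    rw [Finset.mul_sum]
    exact Finset.sum_congr rfl fun i _ => by
      rw [pd_const_mul, pd_pow (hu.diff x)]
      push_cast
      ring
  have h1 := hC n g K φ f T u lam d (4 * gam n) x hg hk hφ hf (h0 x) hx hd
    (by linarith [one_lt_gam hn]) hp hl
  rw [cl] at hq
  rw [hg.dv_add (fun i => (s4 i).diff x) fun i => (s5 i).diff x, dv_const_mul,
    hg.dv_smul (s1.diff x) fun i => (s3 i).diff x, hg.dv_smul (s2.diff x) fun i => (sY i).diff x,
    e1, e2, e3, ex]
  linear_combination h1 - u x ^ 2 * hid x + φ x * ww g φ f x * u x * hq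

theorem stat : STAT := stat_of gb_
theorem kid : KID := kid_of gb_ stat dvt
theorem cone : CONE := cone_of gb_ orth
theorem pw2 : PW2 := pw2_of gb_ kid cone
theorem rci : RCI := rci_of dvt
theorem rb_ : RB := rb_of gb_ stat dvt rci
theorem flp : FLP := flp_of gb_ orth
theorem floor : FLOOR := floor_of gb_ rb_ flp
theorem strz : STRZ := strz_of gb_ orth
theorem bad : BAD := bad_of trans dg1 cac
theorem mass : MASS := mass_of gb_ pw2 strz bad (fin_of flux) asyz g2f

theorem fin2 {n : ℕ} {X : Fin n → E n → ℝ} {w θ : E n → ℝ} {A : Set (E n)} {κ c C e : ℝ}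
    (hn : 3 ≤ n) (hX : ∀ i, Smooth (X i)) (ha : ∃ C R : ℝ, ∀ x : E n, R ≤ ‖x‖ → ∀ i,
      |X i x - κ * x i * ‖x‖ ^ (-n : ℝ)| ≤ C * ‖x‖ ^ (-n : ℝ)) (iw : Integrable w)
    (w0 : ∀ x, 0 ≤ w x) (iθ : Integrable θ) (θ0 : ∀ x, 0 ≤ θ x) (hC : 0 ≤ C) (he : 0 ≤ e)
    (hc : C * e ≤ c / 2) (hA : volume A ≤ ENNReal.ofReal e * ∫⁻ x, ENNReal.ofReal (w x))
    (h1 : ∀ x, x ∉ A → c * w x - θ x ≤ ∑ i, pd i (X i) x)
    (h2 : ∀ x ∈ A, c * w x - C ≤ ∑ i, pd i (X i) x) :
    c / 2 * (∫ x, w x) - ∫ x, θ x ≤ κ * omega n := by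
  have I0 : 0 ≤ ∫ x, w x := integral_nonneg w0
  have mA := measurableSet_toMeasurable volume A
  rw [← ofReal_integral_eq_lintegral_ofReal iw (ae_of_all _ w0), ← ENNReal.ofReal_mul he,
    ← measure_toMeasurable] at hA
  have v1 : volume.real (toMeasurable volume A) ≤ e * ∫ x, w x :=
    ENNReal.toReal_le_of_le_ofReal (mul_nonneg he I0) hA
  have iA : Integrable ((toMeasurable volume A).indicator fun _ : E n => C) :=
    (integrable_indicator_iff mA).2
      (integrableOn_const (ne_top_of_le_ne_top ENNReal.ofReal_ne_top hA))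
  have m1 : ∀ r, AEStronglyMeasurable fun x => cut r x * w x :=
    fun r => (sm_cut r).cont.aestronglyMeasurable.mul iw.1
  have b1 : ∀ r x, ‖cut r x * w x‖ ≤ w x := fun r x => by
    rw [Real.norm_of_nonneg (mul_nonneg (cut_nonneg r x) (w0 x))]
    exact mul_le_of_le_one_left (w0 x) (cut_le_one r x)
  have t1 : Tendsto (fun r => ∫ x, cut r x * w x) atTop (𝓝 (∫ x, w x)) :=
    tendsto_integral_filter_of_dominated_convergence w (.of_forall m1)
      (.of_forall fun r => ae_of_all _ (b1 r)) iw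
      (ae_of_all _ fun x => by simpa using (cut_tendsto x).mul_const (w x))
  have key := le_of_tendsto_of_tendsto (((t1.const_mul c).sub_const (∫ x, θ x)).sub_const
    (volume.real (toMeasurable volume A) * C)) (flux n X κ hn hX ha) (by
      filter_upwards [eventually_gt_atTop 0] with r hr
      have i1 := (iw.mono' (m1 r) (ae_of_all _ (b1 r))).const_mul c
      have i2 : Integrable fun x => c * (cut r x * w x) - θ x := i1.sub iθ
      rw [← smul_eq_mul (volume.real _), ← integral_indicator_const C mA, ← integral_const_mul,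
        ← integral_sub i1 iθ, ← integral_sub i2 iA]
      refine integral_mono (i2.sub iA) (((sm_cut r).cont.mul (continuous_finsetSum _
        fun i _ => ((hX i).pd i).cont)).integrable_of_hasCompactSupport
          (supp_cut hr).mul_right) fun x => ?_
      have k0 : 0 ≤ (toMeasurable volume A).indicator (fun _ : E n => C) x :=
        indicator_nonneg (fun _ _ => hC) x
      have k1 : c * w x - θ x - (toMeasurable volume A).indicator (fun _ : E n => C) x ≤
          ∑ i, pd i (X i) x := by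
        by_cases k : x ∈ A
        · rw [indicator_of_mem (subset_toMeasurable volume A k)]
          linarith [h2 x k, θ0 x]
        · linarith [h1 x k]
      have k2 := mul_le_mul_of_nonneg_left k1 (cut_nonneg r x)
      have k3 := mul_le_of_le_one_left (add_nonneg (θ0 x) k0) (cut_le_one r x)
      beta_reduce
      linarith)
  nlinarith [mul_le_mul_of_nonneg_left v1 hC, mul_le_mul_of_nonneg_right hc I0]

/-- **MASS2**: the mass and the energy -/
def MASS2 : Prop := ∀ (n : ℕ) (B k₀ h : ℝ), 3 ≤ n → 1 ≤ B → 0 < h → ∃ r₀ > (0 : ℝ),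
  ∀ (g K : Field n) (f T u U lam Λ θ : E n → ℝ) (F : ℝ → ℝ) (r R β β' : ℝ), 0 < r → r ≤ r₀ →
    Tst g K f T u U lam Λ θ F B k₀ h r R β β' → Integrable (g2 u) ∧
    1 / B ^ 5 / 2 * (∫ x, g2 u x) + 4 * gam n * F 1 * (n - 2) * omega n * β ≤ ∫ x, θ x

theorem mass2 : MASS2 := by
  intro n B k₀ h hn B1 h0
  have hG := gb_
  have hP := pw2
  have hS := strz_of gb_ orth
  have hB := bad
  have hA := asyz
  have hE := g2f
  obtain ⟨c, c0, B', hS⟩ := hS n B hn B1
  obtain ⟨C, C0, hB⟩ := hB n c B' k₀ h hn c0 h0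
  have B0 : 0 < B := by linarith
  have q0 : 0 < B * B * k₀ ^ 2 * C + 1 := by positivity
  refine ⟨min 1 (1 / B ^ 5 / 2 / (B * B * k₀ ^ 2 * C + 1)), lt_min one_pos (by positivity), ?_⟩
  intro g K f T u U lam Λ θ F r R β β' r0 hr H
  have r1 : r ≤ 1 := hr.trans (min_le_left _ _)
  have r2 := (le_div_iff₀ q0).1 (hr.trans (min_le_right _ _))
  set φ : E n → ℝ := fun y => F (u y) with hφ
  have sφ : Smooth φ := H.smF.comp H.smu
  have φ0 : ∀ x, 0 < φ x := fun x => by
    have := (H.Fb _ (H.u0 x)).1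
    by_contra k
    nlinarith [mul_nonneg B0.le (neg_nonneg.2 (not_lt.1 k))]
  have dφ : ∀ x i, pd i φ x = deriv F (u x) * pd i u x := fun x i =>
    pd_comp ((H.smF.differentiable (by simp)) (u x)).hasDerivAt (H.smu.diff x) i
  obtain ⟨mb, -, -, gb'⟩ := hG n g φ f H.met sφ H.smf
  obtain ⟨sz, pw⟩ := hP n g K φ f T u hn H.met H.sy sφ H.smf H.smT H.smu φ0
  have pw' : ∀ x, ex g K φ f T u (lam x) (Λ x) x + 2 * φ x * ww g φ f x * ip (gb g φ f) u u x ≤
      dv g (zz g K φ f T u) x := fun x => by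
    have k1 := pw x (lam x) _ (Λ x) (H.u0 x) (H.Fb _ (H.u0 x)).2.2.1 (dφ x) (H.lam0 x) (H.eqn x)
    have k2 := mul_nonneg (mul_nonneg (mul_nonneg (H.u0 x).le (H.Fb _ (H.u0 x)).2.2.1)
      (zero_le_one.trans (gb' x).1)) (mb.ip_nonneg u x)
    nlinarith
  have sX : ∀ i, Smooth fun y => dens g y * zz g K φ f T u i y := fun i =>
    ContDiff.mul H.met.sm_dens (sz i)
  have dX : ∀ x, ∑ i, pd i (fun y => dens g y * zz g K φ f T u i y) x =
      dens g x * dv g (zz g K φ f T u) x := fun x => by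
    rw [dv, mul_div_cancel₀ _ (H.met.dens_pos x).ne']
  have st : ∀ y, Str u (fun i y => dens g y * zz g K φ f T u i y) c B' r y := fun y => by
    have k := H.Fb _ (H.u0 y)
    refine hS g K φ f T u y r _ H.met H.sy sφ H.smf (H.el y) r0 r1 (H.u0 y) k.1 k.2.1 k.2.2.1
      k.2.2.2 (dφ y) (H.df y) (H.d2f y) (H.Kb y) (H.Tb y) ?_
    have k1 : B * u y ^ 2 ≤ B * u y ^ 2 / r ^ 2 :=
      le_div_self (by positivity) (by positivity) (pow_le_one₀ r0.le r1)
    linarith [pw' y, H.all y]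
  have lo : ∀ x, 1 / B ^ 5 * g2 u x + dens g x * ex g K φ f T u (lam x) (Λ x) x ≤
      ∑ i, pd i (fun y => dens g y * zz g K φ f T u i y) x := fun x => by
    have k := H.Fb _ (H.u0 x)
    have k1 := MassH.low B1 (H.el x).dens_lo k.1 k.2.1 (gb' x).1 (gb' x).2.1 (H.df x)
      (H.met.ip_nonneg f x) (H.met.ip_nonneg u x) (H.met.ip_cs f u x)
      ((H.el x).up_lo fun i => pd i u x) ((gb' x).2.2.2.2.2.1 u u)
    rw [dX]
    have k2 := mul_le_mul_of_nonneg_left (pw' x) (dens_nonneg g x)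
    change 1 / B ^ 5 * g2 u x ≤ _ at k1
    nlinarith
  have key := fin2 (θ := θ) (c := 1 / B ^ 5) (C := B * B * k₀ ^ 2) (e := C * r ^ 2) hn sX
    (hA n g K f T u U F R β β' hn H.met H.smu H.smU H.smF H.U0 H.far H.asyU H.asy)
    (hE n u 1 β hn H.smu H.asy) (fun x => Finset.sum_nonneg fun i _ => sq_nonneg _) H.int H.θ0
    (by positivity) (by positivity) ?_ (hB u _ univ r H.smu sX r0 fun x _ y _ => st y) ?_ ?_
  · exact ⟨hE n u 1 β hn H.smu H.asy, by linarith⟩
  · have k1 : r ^ 2 ≤ r := by nlinarith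
    have k2 : B * B * k₀ ^ 2 * C * r ^ 2 ≤ B * B * k₀ ^ 2 * C * r :=
      mul_le_mul_of_nonneg_left k1 (by positivity)
    nlinarith
  · intro x hx
    have k1 := H.good x (by
      by_contra k
      rw [not_or, not_lt, not_forall₂] at k
      obtain ⟨k1, y, hy, k2⟩ := k
      exact hx ⟨trivial, k1, y, hy, not_le.1 k2⟩)
    linarith [lo x]
  · intro x hx
    have k1 := mul_le_mul_of_nonneg_left (H.all x) (dens_nonneg g x)
    have k2 : u x ^ 2 ≤ k₀ ^ 2 := pow_le_pow_left₀ (H.u0 x).le hx.2.1 2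
    have k3 : dens g x * (B * u x ^ 2) ≤ B * (B * k₀ ^ 2) :=
      mul_le_mul (H.el x).dens_hi (mul_le_mul_of_nonneg_left k2 B0.le) (by positivity) B0.le
    linarith [lo x]

end Vale.Agent.P366Y.C
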