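import Vale.Agent.P366Y.C.Defs
import Vale.Agent.P366Z.Int

/-!
# P366Y, block D: the inequality of Caccioppoli
-/

open MeasureTheory Metric Filter Topology Set
open scoped ContDiff ENNReal
open Vale.Agent.P366.Stmt Vale.Agent.P366Z

noncomputable section

namespace Vale.Agent.P366Y.C

namespace CacH

variable {n : ℕ}

theorem yng {X Y δ M : ℝ} (hδ : 0 < δ) (h : Y ^ 2 ≤ M) : -(δ * X ^ 2 + M / δ) ≤ 2 * X * Y := by
  have h1 : 0 ≤ (δ * X + Y) ^ 2 / δ := by positivity
  have h2 : (δ * X + Y) ^ 2 / δ = δ * X ^ 2 + 2 * X * Y + Y ^ 2 / δ := by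
    field_simp
    ring
  have := div_le_div_of_nonneg_right h hδ.le
  linarith

/-- the pointwise inequality -/
theorem alg (Z p q : Fin n → ℝ) {c B u k ζ d ρ θ K δ : ℝ} (hc : 0 < c) (hB : 0 ≤ B) (hk : 0 < k)
    (hu : k < u) (kK : k ≤ K) (z0 : 0 ≤ ζ) (z1 : ζ ≤ 1) (r0 : 0 ≤ ρ) (r1 : ρ ≤ θ) (hδ : 0 < δ)
    (hδ' : δ * B ≤ c / 2) (hq : ∀ i, q i ^ 2 ≤ θ)
    (h1 : c * u * ∑ i, p i ^ 2 - B * u ^ 3 * ρ ≤ ∑ i, Z i * p i)
    (h2 : ∑ i, Z i ^ 2 ≤ B * u ^ 2 * (∑ i, p i ^ 2 + u ^ 2 * ρ))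
    (h3 : c * ∑ i, p i ^ 2 - B * u ^ 2 * ρ ≤ d) :
    c / 2 * (ζ ^ 2 * ∑ i, p i ^ 2) ≤ ζ ^ 2 * (1 - k / u) * d +
      ∑ i, (2 * ζ * q i * (1 - k / u) + ζ ^ 2 * (k / u ^ 2 * p i)) * Z i +
      ((B + c / 2) * (2 * K ^ 2 + 2) + n / δ) * θ * ((u - k) ^ 2 + 1) := by
  have u0 : 0 < u := hk.trans hu
  have a0 : 0 ≤ 1 - k / u := sub_nonneg.2 ((div_le_one u0).2 hu.le)
  have g0 : 0 ≤ ∑ i, p i ^ 2 := by positivity
  have e1 : ∑ i, (2 * ζ * q i * (1 - k / u) + ζ ^ 2 * (k / u ^ 2 * p i)) * Z i =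
      ∑ i, 2 * (ζ * Z i / u) * ((u - k) * q i) + ζ ^ 2 * (k / u ^ 2) * ∑ i, Z i * p i := by
    rw [Finset.mul_sum, ← Finset.sum_add_distrib]
    refine Finset.sum_congr rfl fun i _ => ?_
    field_simp
  have e2 : -(δ * (ζ ^ 2 / u ^ 2) * ∑ i, Z i ^ 2 + n / δ * θ * (u - k) ^ 2) ≤
      ∑ i, 2 * (ζ * Z i / u) * ((u - k) * q i) := by
    refine le_trans (le_of_eq ?_) (Finset.sum_le_sum fun i _ => yng (M := (u - k) ^ 2 * θ) hδ
      (by rw [mul_pow]; exact mul_le_mul_of_nonneg_left (hq i) (sq_nonneg _)))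
    simp only [Finset.sum_neg_distrib, Finset.sum_add_distrib, Finset.sum_const, Finset.card_fin,
      nsmul_eq_mul, Finset.mul_sum, div_pow, mul_pow]
    congr 2
    · exact Finset.sum_congr rfl fun i _ => by ring
    · ring
  generalize ∑ i, p i ^ 2 = G at *
  have e3 : δ * (ζ ^ 2 / u ^ 2) * ∑ i, Z i ^ 2 ≤ ζ ^ 2 * (c / 2 * (G + u ^ 2 * ρ)) := by
    refine (mul_le_mul_of_nonneg_left h2 (by positivity)).trans ?_
    have : δ * (ζ ^ 2 / u ^ 2) * (B * u ^ 2 * (G + u ^ 2 * ρ)) =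
        ζ ^ 2 * (δ * B * (G + u ^ 2 * ρ)) := by field_simp
    rw [this]
    gcongr
  have e4 := mul_le_mul_of_nonneg_left h1 (show 0 ≤ ζ ^ 2 * (k / u ^ 2) by positivity)
  have e5 := mul_le_mul_of_nonneg_left h3 (mul_nonneg (sq_nonneg ζ) a0)
  have e6 : ζ ^ 2 * (k / u ^ 2) * (c * u * G - B * u ^ 3 * ρ) +
      ζ ^ 2 * (1 - k / u) * (c * G - B * u ^ 2 * ρ) = ζ ^ 2 * (c * G - B * u ^ 2 * ρ) := by
    field_simp
    ring
  have e7 : u ^ 2 ≤ (2 * K ^ 2 + 2) * ((u - k) ^ 2 + 1) := by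
    nlinarith [sq_nonneg (u - 2 * k), mul_nonneg (sq_nonneg K) (sq_nonneg (u - k)),
      pow_le_pow_left₀ hk.le kK 2]
  have e8 : (B + c / 2) * (ζ ^ 2 * (u ^ 2 * ρ)) ≤
      (B + c / 2) * (1 * ((2 * K ^ 2 + 2) * ((u - k) ^ 2 + 1) * θ)) := by
    gcongr
    exact pow_le_one₀ z0 z1
  have e9 : 0 ≤ n / δ * θ := mul_nonneg (by positivity) (r0.trans r1)
  rw [e1]
  nlinarith

/-- the cut off function -/
def ze (x : E n) (s t : ℝ) (y : E n) : ℝ := max 0 (min 1 ((t - dist y x) / (t - s)))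

theorem ze_lip (x : E n) {s t : ℝ} (h : s < t) :
    LipschitzWith ⟨(t - s)⁻¹, (inv_pos.2 (sub_pos.2 h)).le⟩ (ze x s t) := by
  refine (LipschitzWith.const_min (LipschitzWith.of_dist_le_mul fun y z => ?_) 1).const_max 0
  rw [Real.dist_eq, ← sub_div, abs_div, abs_of_pos (sub_pos.2 h), div_eq_inv_mul,
    sub_sub_sub_cancel_left, dist_comm y z]
  exact mul_le_mul_of_nonneg_left (abs_dist_sub_le _ _ _) (inv_pos.2 (sub_pos.2 h)).le

theorem lip_inv {k : ℝ} (hk : 0 < k) {w : E n → ℝ} (hw : Lip w) :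
    Lip fun y => 1 - k / max (w y) k := by
  obtain ⟨L, -, hL⟩ := (hw.max (lip_const k)).le
  refine lip_of_le (K := k⁻¹ * L) fun y z => ?_
  have h1 := le_max_right (w y) k
  have h2 := le_max_right (w z) k
  rw [mul_assoc]
  refine le_trans ?_ (mul_le_mul_of_nonneg_left (hL y z) (inv_pos.2 hk).le)
  generalize max (w y) k = a at *
  generalize max (w z) k = b at *
  have a0 := hk.trans_le h1
  have b0 := hk.trans_le h2
  have e : 1 - k / a - (1 - k / b) = k / (a * b) * (a - b) := by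
    field_simp
    ring
  rw [e, abs_mul, abs_of_pos (by positivity)]
  refine mul_le_mul_of_nonneg_right ?_ (abs_nonneg _)
  rw [div_le_iff₀ (by positivity), inv_mul_eq_div, le_div_iff₀ hk]
  exact mul_le_mul h1 h2 hk.le a0.le

theorem int_ind {f : E n → ℝ} (hf : Continuous f) {x : E n} {t : ℝ} {A : Set (E n)}
    (hA : IsOpen A) : Integrable ((ball x t ∩ A).indicator f) :=
  ((hf.continuousOn.integrableOn_compact (isCompact_closedBall x t)).mono_set
    (inter_subset_left.trans ball_subset_closedBall)).integrable_indicator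
    (isOpen_ball.inter hA).measurableSet

end CacH

open CacH in
theorem cac : CAC := by
  intro n c B k₀ hc
  have hB := abs_nonneg B
  have hδ : 0 < c / 2 / (|B| + 1) := by positivity
  have hδ' : c / 2 / (|B| + 1) * |B| ≤ c / 2 := by
    rw [div_mul_eq_mul_div, div_le_iff₀ (by positivity)]
    nlinarith
  generalize c / 2 / (|B| + 1) = δ at hδ hδ'
  refine ⟨2 / c * ((|B| + c / 2) * (2 * (k₀ + 1) ^ 2 + 2) + n / δ), ?_⟩
  intro u Z x r k hu hZ hr hk hk₀ hS k' hk' s t hs hst htr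
  have k0 : 0 < k' := hk.trans_le hk'.1
  have hw := sub_pos.2 hst
  have R0 : 0 < ‖x‖ + r := by positivity
  have hA : IsOpen {y | k' < u y} := isOpen_lt continuous_const hu.cont
  have zl : Lip (ze x s t) := ⟨_, ze_lip x hst⟩
  have z0 : ∀ y, 0 ≤ ze x s t y := fun y => le_max_left _ _
  have z1 : ∀ y, ze x s t y ≤ 1 := fun y => max_le zero_le_one (min_le_left _ _)
  have z2 : ∀ y ∉ ball x t, ze x s t y = 0 := fun y hy => max_eq_left ((min_le_right _ _).trans
    (div_nonpos_of_nonpos_of_nonneg (sub_nonpos.2 (not_lt.1 hy)) hw.le))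
  have z3 : ∀ y ∈ ball x s, ze x s t y = 1 := fun y hy => by
    rw [ze, min_eq_left ((one_le_div hw).2 (by linarith [mem_ball.1 hy])), max_eq_right zero_le_one]
  have z4 : ∀ y, |ze x s t y| ≤ 1 := fun y => by rw [abs_of_nonneg (z0 y)]; exact z1 y
  have z5 : ∀ y i, pd i (ze x s t) y ^ 2 ≤ ((t - s) ^ 2)⁻¹ := fun y i => by
    have := norm_lineDeriv_le_of_lipschitz ℝ (x₀ := y) (v := EuclideanSpace.single i (1 : ℝ))
      (ze_lip x hst)
    simp only [PiLp.norm_single, norm_one, mul_one, Real.norm_eq_abs] at this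
    rw [← inv_pow, ← sq_abs]
    exact pow_le_pow_left₀ (abs_nonneg _) this 2
  have c1 : ∀ y ∈ ball x t, cut (‖x‖ + r) y * u y = u y := fun y hy => by
    rw [cut_one (by linarith [mem_ball_iff_norm.1 hy, norm_le_norm_add_norm_sub' y x]), one_mul]
  set η := fun y => ze x s t y * ze x s t y * (1 - k' / max (cut (‖x‖ + r) y * u y) k') with hη
  have ηl : Lip η := (zl.mul zl z4 z4).mul (lip_inv k0 (lip_of_supp
    (ContDiff.of_le (ContDiff.mul (sm_cut _) hu) (by norm_cast)) (supp_cut R0).mul_right))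
    (A := 1) (B := 1) (fun y => by rw [abs_mul]; exact mul_le_one₀ (z4 y) (abs_nonneg _) (z4 y))
    fun y => by
      have h1 := le_max_right (cut (‖x‖ + r) y * u y) k'
      have h2 := (div_le_one (k0.trans_le h1)).2 h1
      have h3 := div_pos k0 (k0.trans_le h1)
      exact abs_le.2 ⟨by linarith, by linarith⟩
  have η0 : ∀ y ∉ ball x t ∩ {y | k' < u y}, η y = 0 := fun y hy => by
    by_cases h : y ∈ ball x t
    · have : u y ≤ k' := not_lt.1 fun k => hy ⟨h, k⟩
      simp only [hη, c1 y h, max_eq_right this, div_self k0.ne', sub_self, mul_zero]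
    · simp only [hη, z2 y h, zero_mul]
  have η1 : ∀ y ∈ ball x t ∩ {y | k' < u y}, η y = ze x s t y ^ 2 * (1 - k' / u y) := fun y hy => by
    have : k' ≤ u y := le_of_lt hy.2
    simp only [hη, c1 y hy.1, max_eq_left this, sq]
  have η2 : ∀ y, ‖x‖ + r ≤ ‖y‖ → η y = 0 := fun y hy => η0 y fun k => by
    linarith [mem_ball_iff_norm.1 k.1, norm_le_norm_add_norm_sub' y x]
  have i1 : ∀ i, Integrable fun y => η y * pd i (Z i) y := fun i => integrable_of_out
    (ηl.cont.mul (contDiff_pd (k := 0) (hZ i) (by norm_cast) i).continuous) (R := ‖x‖ + r)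
      fun y hy => by rw [η2 y hy, zero_mul]
  have i2 : ∀ i, Integrable fun y => pd i η y * Z i y := fun i => by
    simpa only [mul_comm] using ηl.integrable_pd η2 (hZ i).cont i
  have i0 : ∀ i ∈ Finset.univ, Integrable fun y => η y * pd i (Z i) y + pd i η y * Z i y :=
    fun i _ => (i1 i).add (i2 i)
  have i3 := integrable_finsetSum _ i0
  have i4 : ∫ y, ∑ i, (η y * pd i (Z i) y + pd i η y * Z i y) = 0 := by
    rw [integral_finsetSum _ i0]
    refine Finset.sum_eq_zero fun i _ => ?_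
    rw [integral_add (i1 i) (i2 i), ibp ηl (supp_of_out η2) (ContDiff.of_le (hZ i) (by norm_cast)),
      neg_add_cancel]
  have g1 : Continuous (g2 u) := continuous_finsetSum _ fun i _ =>
    (contDiff_pd (k := 0) hu (by norm_cast) i).continuous.pow 2
  have i5 := int_ind (f := fun y => (u y - k') ^ 2 + 1) (by have := hu.cont; fun_prop)
    (x := x) (t := t) hA
  rw [← integral_indicator (isOpen_ball.inter hA).measurableSet,
    ← integral_indicator (isOpen_ball.inter hA).measurableSet, ← integral_const_mul,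
    ← zero_add (∫ y, _ * _), ← mul_zero (2 / c), ← i4, ← integral_const_mul,
    ← integral_add (i3.const_mul _) (i5.const_mul _)]
  refine integral_mono_ae (int_ind g1 hA) ((i3.const_mul _).add (i5.const_mul _)) ?_
  filter_upwards [zl.ae_diff, ηl.ae_pd_zero 0] with y h1 h2
  by_cases hy : y ∈ ball x t ∩ {y | k' < u y}
  · obtain ⟨u0, s1, s2, s3⟩ := hS y (ball_subset_ball htr hy.1)
    have g0 : 0 ≤ g2 u y := Finset.sum_nonneg fun i _ => sq_nonneg _
    have hb := le_abs_self B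
    have h3 := alg (fun i => Z i y) (fun i => pd i u y) (fun i => pd i (ze x s t) y)
      (d := ∑ i, pd i (Z i) y) (ρ := (r ^ 2)⁻¹) (K := k₀ + 1) hc hB k0 hy.2 (by linarith [hk'.2])
      (z0 y) (z1 y) (by positivity) (by gcongr; linarith) hδ hδ' (z5 y)
      (le_trans (by rw [div_eq_mul_inv, g2]; gcongr) s1)
      (s2.trans (by rw [div_eq_mul_inv, g2]; gcongr))
      (le_trans (by rw [div_eq_mul_inv, g2]; gcongr) s3)
    have h4 : ∀ i, pd i η y = 2 * ze x s t y * pd i (ze x s t) y * (1 - k' / u y) +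
        ze x s t y ^ 2 * (k' / u y ^ 2 * pd i u y) := fun i => by
      have d1 : DifferentiableAt ℝ (fun z => k' / u z) y := by
        simpa only [div_eq_mul_inv] using ((hu.diff y).fun_inv u0.ne').const_mul k'
      rw [pd_congr (eventually_of_mem ((isOpen_ball.inter hA).mem_nhds hy) η1),
        pd_mul (h1.fun_pow 2) (d1.const_sub 1), pd_pow h1, pd_const_sub,
        pd_div (differentiableAt_const k') (hu.diff y) u0.ne', pd_const]
      simp only [Nat.cast_ofNat, Nat.add_one_sub_one, pow_one]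
      ring
    have h5 : (ball x s ∩ {y | k' < u y}).indicator (g2 u) y ≤ ze x s t y ^ 2 * g2 u y := by
      by_cases k : y ∈ ball x s ∩ {y | k' < u y}
      · rw [indicator_of_mem k, z3 y k.1, one_pow, one_mul]
      · rw [indicator_of_notMem k]
        positivity
    refine h5.trans ?_
    simp only [indicator_of_mem hy, Finset.sum_add_distrib, ← Finset.mul_sum, h4, η1 y hy]
    have h6 := mul_le_mul_of_nonneg_left h3 (show 0 ≤ 2 / c by positivity)
    rw [← mul_assoc, div_mul_div_cancel₀ hc.ne', div_self two_ne_zero, one_mul] at h6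
    exact h6.trans_eq (by ring)
  · have h3 : y ∉ ball x s ∩ {y | k' < u y} := fun k => hy ⟨ball_subset_ball hst.le k.1, k.2⟩
    simp only [indicator_of_notMem hy, indicator_of_notMem h3, h2 (η0 y hy), η0 y hy, zero_mul,
      add_zero, Finset.sum_const_zero, mul_zero, le_refl]

end Vale.Agent.P366Y.C
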