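import Vale.Agent.P366Y.C.All
import Vale.Agent.P366Y.T.Loc

/-!
# P366Y, block D: the energy and the upper bound of `u`
-/

open MeasureTheory Metric Filter Topology Set
open scoped ContDiff ENNReal
open Vale.Agent.P366.Stmt Vale.Agent.P366Z

noncomputable section

namespace Vale.Agent.P366Y.C

/-- **ENE**: the output of the test, with the energy and the structure -/
def ENE : Prop := ∀ (n : ℕ) (B k₀ h : ℝ), 3 ≤ n → 1 ≤ B → 0 < h → ∃ r₀ > (0 : ℝ), r₀ ≤ 1 ∧
  ∃ c > (0 : ℝ), ∃ B' : ℝ, ∀ (g K : Field n) (f T u U lam Λ θ : E n → ℝ) (F : ℝ → ℝ)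
    (r R β β' : ℝ), 0 < r → r ≤ r₀ → Tst g K f T u U lam Λ θ F B k₀ h r R β β' →
    4 * gam n * F 1 * (n - 2) * omega n * β + 1 / B ^ 5 / 2 * ∫ x, g2 u x ≤ ∫ x, θ x ∧
      ∃ Z : Fin n → E n → ℝ, (∀ i, Smooth (Z i)) ∧ ∀ y, Str u Z c B' r y

/-- **CAPB**: the upper bound of `u` -/
def CAPB : Prop := ∀ (n : ℕ) (B k₀ h : ℝ), 3 ≤ n → 1 ≤ B → 0 < h → ∃ r₀ > (0 : ℝ), ∀ r : ℝ, 0 < r →
  r ≤ r₀ → ∀ ρ Θ b : ℝ, ∃ um : ℝ, ∀ (g K : Field n) (f T u U lam Λ θ : E n → ℝ) (F : ℝ → ℝ)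
    (R β β' : ℝ), Tst g K f T u U lam Λ θ F B k₀ h r R β β' → ∫ x, θ x ≤ Θ → -b ≤ β →
    ∀ x, ‖x‖ ≤ ρ → u x ≤ um

namespace CapH

variable {n : ℕ}

/-- the structure is homogeneous -/
theorem scale {u : E n → ℝ} {Z : Fin n → E n → ℝ} {c B r t : ℝ} {y : E n} (ht : 0 < t)
    (h : Str u Z c B r y) : Str (fun z => t * u z) (fun i z => t ^ 2 * Z i z) c B r y := by
  obtain ⟨h0, h1, h2, h3⟩ := h
  have e : g2 (fun z => t * u z) y = t ^ 2 * g2 u y := by
    simp only [g2, pd_const_mul, mul_pow, Finset.mul_sum]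
  refine ⟨mul_pos ht h0, ?_, ?_, ?_⟩
  · have e1 : ∑ i, t ^ 2 * Z i y * pd i (fun z => t * u z) y = t ^ 3 * ∑ i, Z i y * pd i u y := by
      rw [Finset.mul_sum]
      exact Finset.sum_congr rfl fun i _ => by rw [pd_const_mul]; ring
    rw [e, e1]
    refine le_of_eq_of_le ?_ (mul_le_mul_of_nonneg_left h1 (pow_pos ht 3).le)
    ring
  · have e1 : ∑ i, (t ^ 2 * Z i y) ^ 2 = t ^ 4 * ∑ i, Z i y ^ 2 := by
      rw [Finset.mul_sum]
      exact Finset.sum_congr rfl fun i _ => by ring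
    rw [e, e1]
    refine (mul_le_mul_of_nonneg_left h2 (pow_pos ht 4).le).trans_eq ?_
    ring
  · have e1 : ∑ i, pd i (fun z => t ^ 2 * Z i z) y = t ^ 2 * ∑ i, pd i (Z i) y := by
      rw [Finset.mul_sum]
      exact Finset.sum_congr rfl fun i _ => pd_const_mul _ i
    rw [e, e1]
    refine le_of_eq_of_le ?_ (mul_le_mul_of_nonneg_left h3 (pow_pos ht 2).le)
    ring

end CapH

theorem ene_of (hG : GB) (hP : PW2) (hS : STRZ) (hB : BAD) (hA : ASYZ) : ENE := by
  intro n B k₀ h hn B1 h0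
  obtain ⟨c, c0, B', hS⟩ := hS n B hn B1
  obtain ⟨C, C0, hB⟩ := hB n c B' k₀ h hn c0 h0
  have B0 : 0 < B := by linarith
  have q0 : 0 < B * B * k₀ ^ 2 * C + 1 := by positivity
  refine ⟨min 1 (1 / B ^ 5 / 2 / (B * B * k₀ ^ 2 * C + 1)), lt_min one_pos (by positivity),
    min_le_left _ _, c, c0, B', ?_⟩
  intro g K f T u U lam Λ θ F r R β β' r0 hr H
  have r1 : r ≤ 1 := hr.trans (min_le_left _ _)
  have r2 := (le_div_iff₀ q0).1 (hr.trans (min_le_right _ _))
  set φ : E n → ℝ := fun y => F (u y) with hφ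
  have sφ : Smooth φ := H.smF.comp H.smu
  have φ0 : ∀ x, 0 < φ x := fun x => by
    have := (H.Fb _ (H.u0 x)).1
    by_contra k
    nlinarith [mul_nonneg B0.le (neg_nonneg.2 (not_lt.1 k))]
  have dφ : ∀ x i, pd i φ x = deriv F (u x) * pd i u x := fun x i =>
    pd_comp ((H.smF.differentiable (by simp)) (u x)).hasDerivAt (H.smu.diff x) i
  obtain ⟨mb, -, -, gb'⟩ := hG n g φ f H.met sφ H.smf
  obtain ⟨sz, pw⟩ := hP n g K φ f T u hn H.met H.sy sφ H.smf H.smT H.smu φ0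
  have pw' : ∀ x, ex g K φ f T u (lam x) (Λ x) x + 2 * φ x * ww g φ f x * ip (gb g φ f) u u x ≤
      dv g (zz g K φ f T u) x := fun x => by
    have k1 := pw x (lam x) _ (Λ x) (H.u0 x) (H.Fb _ (H.u0 x)).2.2.1 (dφ x) (H.lam0 x) (H.eqn x)
    have k2 := mul_nonneg (mul_nonneg (mul_nonneg (H.u0 x).le (H.Fb _ (H.u0 x)).2.2.1)
      (zero_le_one.trans (gb' x).1)) (mb.ip_nonneg u x)
    nlinarith
  have sX : ∀ i, Smooth fun y => dens g y * zz g K φ f T u i y := fun i =>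
    ContDiff.mul H.met.sm_dens (sz i)
  have dX : ∀ x, ∑ i, pd i (fun y => dens g y * zz g K φ f T u i y) x =
      dens g x * dv g (zz g K φ f T u) x := fun x => by
    rw [dv, mul_div_cancel₀ _ (H.met.dens_pos x).ne']
  have st : ∀ y, Str u (fun i y => dens g y * zz g K φ f T u i y) c B' r y := fun y => by
    have k := H.Fb _ (H.u0 y)
    refine hS g K φ f T u y r _ H.met H.sy sφ H.smf (H.el y) r0 r1 (H.u0 y) k.1 k.2.1 k.2.2.1
      k.2.2.2 (dφ y) (H.df y) (H.d2f y) (H.Kb y) (H.Tb y) ?_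
    have k1 : B * u y ^ 2 ≤ B * u y ^ 2 / r ^ 2 :=
      le_div_self (by positivity) (by positivity) (pow_le_one₀ r0.le r1)
    linarith [pw' y, H.all y]
  have lo : ∀ x, 1 / B ^ 5 * g2 u x + dens g x * ex g K φ f T u (lam x) (Λ x) x ≤
      ∑ i, pd i (fun y => dens g y * zz g K φ f T u i y) x := fun x => by
    have k := H.Fb _ (H.u0 x)
    have k1 := MassH.low B1 (H.el x).dens_lo k.1 k.2.1 (gb' x).1 (gb' x).2.1 (H.df x)
      (H.met.ip_nonneg f x) (H.met.ip_nonneg u x) (H.met.ip_cs f u x)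
      ((H.el x).up_lo fun i => pd i u x) ((gb' x).2.2.2.2.2.1 u u)
    rw [dX]
    have k2 := mul_le_mul_of_nonneg_left (pw' x) (dens_nonneg g x)
    change 1 / B ^ 5 * g2 u x ≤ _ at k1
    nlinarith
  refine ⟨?_, _, sX, st⟩
  have key := fin2 (w := g2 u) (θ := θ) (c := 1 / B ^ 5) (C := B * B * k₀ ^ 2)
    (e := C * r ^ 2) hn sX
    (hA n g K f T u U F R β β' hn H.met H.smu H.smU H.smF H.U0 H.far H.asyU H.asy)
    (g2f n u 1 β hn H.smu H.asy) (fun x => Finset.sum_nonneg fun i _ => sq_nonneg _) H.int H.θ0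
    (by positivity) (by positivity) ?_ (hB u _ univ r H.smu sX r0 fun x _ y _ => st y) ?_ ?_
  · linarith
  · have k1 : r ^ 2 ≤ r := by nlinarith
    have k2 : B * B * k₀ ^ 2 * C * r ^ 2 ≤ B * B * k₀ ^ 2 * C * r :=
      mul_le_mul_of_nonneg_left k1 (by positivity)
    nlinarith
  · intro x hx
    have k1 := H.good x (by
      by_contra k
      rw [not_or, not_lt, not_forall₂] at k
      obtain ⟨k1, y, hy, k2⟩ := k
      exact hx ⟨trivial, k1, y, hy, not_le.1 k2⟩)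
    linarith [lo x]
  · intro x hx
    have k1 := mul_le_mul_of_nonneg_left (H.all x) (dens_nonneg g x)
    have k2 : u x ^ 2 ≤ k₀ ^ 2 := pow_le_pow_left₀ (H.u0 x).le hx.2.1 2
    have k3 : dens g x * (B * u x ^ 2) ≤ B * (B * k₀ ^ 2) :=
      mul_le_mul (H.el x).dens_hi (mul_le_mul_of_nonneg_left k2 B0.le) (by positivity) B0.le
    linarith [lo x]

theorem capb_of (hE : ENE) : CAPB := by
  intro n B k₀ h hn B1 h0
  obtain ⟨r₀, r0, r1, c, c0, B', hE⟩ := hE n B k₀ h hn B1 h0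
  obtain ⟨C₁, hC⟩ := cac n c B' 1 c0
  obtain ⟨ε, ε0, hD⟩ := dg1 n C₁ 1 hn one_pos
  refine ⟨r₀, r0, fun r hr hr' ρ Θ b => ?_⟩
  obtain ⟨C₂, C0, hL⟩ := l2b n (ρ + 1) hn
  set e : ℝ := 2 * B ^ 5 * (|Θ| + 4 * gam n * B * (n - 2) * omega n * |b|) with he
  set k : ℝ := 2 + |C₂ * e| / (ε * r ^ n) with hk
  have q0 : 0 < ε * r ^ n := by positivity
  have k2 : 2 ≤ k := le_add_of_nonneg_right (by positivity)
  have k0 : 0 < k := by linarith
  refine ⟨2 * k, fun g K f T u U lam Λ θ F R β β' H hθ hβ x hx => ?_⟩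
  obtain ⟨k1, Z, sZ, st⟩ := hE g K f T u U lam Λ θ F r R β β' hr hr' H
  have B0 : 0 < B := by linarith
  have n3 : (3 : ℝ) ≤ n := by exact_mod_cast hn
  have g0 : 0 < gam n := div_pos (by linarith) (by linarith)
  have ω0 := omega_pos (n := n) (by omega)
  have F1 := H.Fb 1 one_pos
  have F0 : 0 < F 1 := by
    by_contra k
    nlinarith [mul_nonneg B0.le (neg_nonneg.2 (not_lt.1 k)), F1.1]
  have en : ∫ x, g2 u x ≤ e := by
    have a0 : 0 ≤ 4 * gam n * (n - 2) * omega n :=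
      mul_nonneg (mul_nonneg (by positivity) (by linarith)) ω0.le
    have a1 : -(B * |b|) ≤ F 1 * β := by
      nlinarith [mul_le_mul_of_nonneg_right F1.2.1 (abs_nonneg b), le_abs_self b,
        mul_le_mul_of_nonneg_left hβ F0.le]
    have a2 := mul_le_mul_of_nonneg_left a1 a0
    have a3 : 1 / B ^ 5 / 2 * ∫ x, g2 u x ≤ |Θ| + 4 * gam n * B * (n - 2) * omega n * |b| := by
      nlinarith [le_abs_self Θ]
    have a4 := mul_le_mul_of_nonneg_left a3 (by positivity : 0 ≤ 2 * B ^ 5)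
    refine le_of_eq_of_le ?_ a4
    field_simp
  have l2 := hL u e H.smu (AsyF.lim1 hn H.asy) fun r' =>
    (setIntegral_le_integral (g2f n u 1 β hn H.smu H.asy)
      (ae_of_all _ fun x => Finset.sum_nonneg fun i _ => sq_nonneg _)).trans en
  have sv : Smooth fun z => k⁻¹ * u z := contDiff_const.mul H.smu
  have key := hD (fun z => k⁻¹ * u z) x r 1 sv hr (hC _ (fun i z => k⁻¹ ^ 2 * Z i z) x r 1 sv
    (fun i => contDiff_const.mul (sZ i)) hr one_pos le_rfl
    fun y _ => CapH.scale (inv_pos.2 k0) (st y)) ?_ x (mem_ball_self (by linarith))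
  · have := mul_le_mul_of_nonneg_left key k0.le
    rw [← mul_assoc, mul_inv_cancel₀ k0.ne'] at this
    linarith
  · have cu : Continuous fun y => max (u y - 2) 0 ^ 2 :=
      ((H.smu.cont.sub continuous_const).max continuous_const).pow 2
    have i1 : IntegrableOn (fun y => max (u y - 2) 0 ^ 2) (ball (0 : E n) (ρ + 1)) :=
      (cu.continuousOn.integrableOn_compact (isCompact_closedBall 0 _)).mono_set
        ball_subset_closedBall
    have sub : ball x r ⊆ ball (0 : E n) (ρ + 1) := fun y hy => by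
      rw [mem_ball_zero_iff]
      have := norm_sub_norm_le y x
      rw [mem_ball, dist_eq_norm] at hy
      linarith
    have s1 : ∫ y in ball x r, max (k⁻¹ * u y - 1) 0 ^ 2 ≤
        ∫ y in ball x r, k⁻¹ * max (u y - 2) 0 ^ 2 := by
      refine setIntegral_mono_on ((((sv.cont.sub continuous_const).max continuous_const).pow
        2).continuousOn.integrableOn_compact (isCompact_closedBall x r) |>.mono_set
        ball_subset_closedBall) ((i1.mono_set sub).const_mul _) measurableSet_ball fun y _ => ?_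
      have j1 : max (k⁻¹ * u y - 1) 0 ≤ k⁻¹ * max (u y - 2) 0 := by
        refine max_le ?_ (by positivity)
        have : k⁻¹ * u y - 1 = k⁻¹ * (u y - k) := by field_simp
        rw [this]
        exact mul_le_mul_of_nonneg_left (le_max_of_le_left (by linarith)) (by positivity)
      have j2 : k⁻¹ ≤ 1 := inv_le_one_of_one_le₀ (by linarith)
      refine (pow_le_pow_left₀ (le_max_right _ _) j1 2).trans ?_
      rw [mul_pow]
      exact mul_le_mul_of_nonneg_right (by nlinarith [inv_pos.2 k0]) (sq_nonneg _)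
    refine s1.trans ?_
    rw [integral_const_mul, inv_mul_le_iff₀ k0]
    have s2 := (setIntegral_mono_set i1 (ae_of_all _ fun y => sq_nonneg _)
      sub.eventuallyLE).trans l2
    have s3 : k * (ε * r ^ n) = 2 * (ε * r ^ n) + |C₂ * e| := by
      rw [hk]
      field_simp
    rw [s3]
    linarith [le_abs_self (C₂ * e)]

theorem ene : ENE := ene_of gb_ pw2 strz bad asyz

theorem capb : CAPB := capb_of ene

end Vale.Agent.P366Y.C
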