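import Vale.Agent.P366Z.Sk

/-!
# P366Y, blocks C and D: the metric of a graph in a warped product (definitions, statements)
-/

open MeasureTheory Metric Filter Topology Set
open scoped ContDiff ENNReal
open Vale.Agent.P366.Stmt Vale.Agent.P366Z

noncomputable section

namespace Vale.Agent.P366Y.C

variable {n : ℕ}

/-- the metric `g + φ² df²` -/
def gb (g : Field n) (φ f : E n → ℝ) : Field n :=
  fun x i j => g x i j + φ x ^ 2 * pd i f x * pd j f x

/-- `W = √(1 + φ² |df|²)` -/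
def ww (g : Field n) (φ f : E n → ℝ) (x : E n) : ℝ := √(1 + φ x ^ 2 * ip g f f x)

/-- the second fundamental form of the graph of `f` in the static spacetime -/
def hh (g : Field n) (φ f : E n → ℝ) : Field n := fun x i j =>
  (φ x * hess g f x i j + pd i φ x * pd j f x + pd j φ x * pd i f x) / ww g φ f x

/-- `T (∇ u, ∇ v)` -/
def b2 (g T : Field n) (u v : E n → ℝ) (x : E n) : ℝ :=
  ∑ i, ∑ j, T x i j * gr g u i x * gr g v j x

/-- the vector `T ∇ u` -/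
def tv (g T : Field n) (u : E n → ℝ) (i : Fin n) (x : E n) : ℝ :=
  ∑ j, ∑ k, up g i j x * T x j k * gr g u k x

/-- `|T ∇ u|²` -/
def n1 (g T : Field n) (u : E n → ℝ) (x : E n) : ℝ :=
  ∑ i, ∑ j, T x i j * tv g T u i x * gr g u j x

/-- the trace of the gauge: `tr T - lam T (∇ f, ∇ f) / (1 + lam |df|²)` -/
def gt (g T : Field n) (f : E n → ℝ) (lam : ℝ) (x : E n) : ℝ :=
  tr g T x - lam * b2 g T f f x / (1 + lam * ip g f f x)

/-- `P = h - K` -/
def pk (g K : Field n) (φ f : E n → ℝ) : Field n := fun x i j => hh g φ f x i j - K x i j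

/-- the vector field `φ² (P ∇ f - (tr P) ∇ f + T ∇ f)` -/
def yy (g K : Field n) (φ f T : E n → ℝ) (i : Fin n) (x : E n) : ℝ :=
  φ x ^ 2 * (tv g (pk g K φ f) f i x + (T x - tr g (pk g K φ f) x) * gr g f i x)

/-- the defect of the gauge -/
def er (g K : Field n) (φ f T : E n → ℝ) (lam : ℝ) (x : E n) : ℝ :=
  φ x / ww g φ f x * gt g (hess g f) f lam x - gt g K f lam x - T x

/-- the vector field of the test -/
def zz (g K : Field n) (φ f T u : E n → ℝ) (i : Fin n) (x : E n) : ℝ :=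
  4 * gam n * φ x * u x * ww g φ f x * gr (gb g φ f) u i x + 2 * u x ^ 2 * yy g K φ f T i x

/-- a smooth symmetric tensor -/
structure Sy (K : Field n) : Prop where
  sm : ∀ i j, Smooth fun x => K x i j
  sy : ∀ x i j, K x i j = K x j i

/-- the Ricci tensor -/
def rc (g : Field n) : Field n := fun x i l =>
  ∑ j, (pd j (chr g j i l) x - pd i (chr g j j l) x +
    ∑ k, (chr g j j k x * chr g k i l x - chr g k j i x * chr g j k l x))

/-! ### block C -/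

/-- **SCF**: the scalar curvature of a conformal metric -/
def SCF : Prop := ∀ (n : ℕ) (g : Field n) (U : E n → ℝ), 3 ≤ n → Met g → Smooth U →
  (∀ x, 0 < U x) → ∀ x, scal (cf U g) x = U x ^ (-(2 * bb n) - 1) * cl g U x

/-- **GB**: the metric `gb` -/
def GB : Prop := ∀ (n : ℕ) (g : Field n) (φ f : E n → ℝ), Met g → Smooth φ → Smooth f →
  Met (gb g φ f) ∧ Smooth (ww g φ f) ∧ Sy (hh g φ f) ∧ ∀ x, 1 ≤ ww g φ f x ∧
    ww g φ f x ^ 2 = 1 + φ x ^ 2 * ip g f f x ∧ dens (gb g φ f) x = ww g φ f x * dens g x ∧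
    (∀ i j, up (gb g φ f) i j x =
      up g i j x - φ x ^ 2 * gr g f i x * gr g f j x / ww g φ f x ^ 2) ∧
    (∀ u i, gr (gb g φ f) u i x =
      gr g u i x - φ x ^ 2 * ip g f u x * gr g f i x / ww g φ f x ^ 2) ∧
    (∀ u v, ip (gb g φ f) u v x =
      ip g u v x - φ x ^ 2 * ip g f u x * ip g f v x / ww g φ f x ^ 2) ∧
    ∀ X, dv (gb g φ f) X x = dv g (fun i y => ww g φ f y * X i y) x / ww g φ f x

/-- **STAT**: the constraint equations of the graph in the static spacetime -/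
def STAT : Prop := ∀ (n : ℕ) (g : Field n) (φ f : E n → ℝ), Met g → Smooth φ → Smooth f →
  (∀ x, 0 < φ x) → ∀ x, scal (gb g φ f) x = 2 * mu g (hh g φ f) x -
    2 * (φ x / ww g φ f x) * ∑ j, mom g (hh g φ f) j x * gr g f j x

/-- **DVT**: the divergence of `(P - (tr P) g) X` for `X = w ∇ f` -/
def DVT : Prop := ∀ (n : ℕ) (g P : Field n) (w f : E n → ℝ), Met g → Sy P → Smooth w → Smooth f →
  ∀ x, dv g (fun i y => w y * (tv g P f i y - tr g P y * gr g f i y)) x =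
    w x * ∑ j, mom g P j x * gr g f j x + (b2 g P w f x - tr g P x * ip g w f x) +
      w x * (∑ i, ∑ j, ∑ k, ∑ l, up g i k x * up g j l x * P x i j * hess g f x k l -
        tr g P x * lap g f x)

/-- **KID**: the identity in divergence form -/
def KID : Prop := ∀ (n : ℕ) (g K : Field n) (φ f T : E n → ℝ), Met g → Sy K → Smooth φ →
  Smooth f → Smooth T → (∀ x, 0 < φ x) → (∀ i, Smooth (yy g K φ f T i)) ∧ ∀ x,
    φ x * ww g φ f x * scal (gb g φ f) x + 2 * dv g (yy g K φ f T) x =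
      2 * (φ x * ww g φ f x * mu g K x - φ x ^ 2 * ∑ j, mom g K j x * gr g f j x) +
        φ x * ww g φ f x * (normSq g (pk g K φ f) x - tr g (pk g K φ f) x ^ 2 +
          2 * T x * (tr g (pk g K φ f) x + tr g K x)) + 2 * φ x ^ 2 * ip g T f x

/-- **ORTH**: the splitting of a symmetric tensor along `∇ f` -/
def ORTH : Prop := ∀ (n : ℕ) (g T : Field n) (f u : E n → ℝ) (x : E n), Met g →
  (∀ i j, T x i j = T x j i) → 0 ≤ normSq g T x ∧ ip g f u x ^ 2 ≤ ip g f f x * ip g u u x ∧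
    tr g T x ^ 2 ≤ n * normSq g T x ∧ n1 g T f x ≤ normSq g T x * ip g f f x ∧
    b2 g T u f x ^ 2 ≤ n1 g T f x * ip g u u x ∧ b2 g T u f x = ∑ i, pd i u x * tv g T f i x ∧
    n1 g T f x = ∑ i, ∑ j, g x i j * tv g T f i x * tv g T f j x ∧
    2 * n1 g T f x * ip g f f x - b2 g T f f x ^ 2 ≤ normSq g T x * ip g f f x ^ 2 ∧
    (ip g f f x * b2 g T u f x - b2 g T f f x * ip g f u x) ^ 2 ≤
      (ip g f f x * n1 g T f x - b2 g T f f x ^ 2) * (ip g f f x * ip g u u x - ip g f u x ^ 2)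

/-- **CONE**: the algebraic inequality; `dφ = d • du` at the point -/
def CONE : Prop := ∀ (n : ℕ) (g K : Field n) (φ f T u : E n → ℝ) (lam d c : ℝ) (x : E n), Met g →
  Sy K → Smooth φ → Smooth f → 0 < φ x → 0 < u x → 0 ≤ d → 4 ≤ c →
  (∀ i, pd i φ x = d * pd i u x) → 4 * φ x * (φ x + u x * d) ≤ lam →
  φ x * ww g φ f x * u x ^ 2 * (T x ^ 2 - 2 * (1 + lam * ip g f f x) * er g K φ f T lam x ^ 2) +
      2 * (φ x + u x * d) * ww g φ f x * ip (gb g φ f) u u x ≤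
    u x ^ 2 * (φ x * ww g φ f x * (normSq g (pk g K φ f) x - tr g (pk g K φ f) x ^ 2 +
        2 * T x * tr g (pk g K φ f) x)) + 4 * u x * ∑ i, pd i u x * yy g K φ f T i x +
      c * (φ x + u x * d) * ww g φ f x * ip (gb g φ f) u u x

/-- **PW**: the pointwise inequality for the vector field of the test -/
def PW : Prop := ∀ (n : ℕ) (g K : Field n) (φ f T u : E n → ℝ), 3 ≤ n → Met g → Sy K → Smooth φ →
  Smooth f → Smooth T → Smooth u → (∀ x, 0 < φ x) → (∀ i, Smooth (zz g K φ f T u i)) ∧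
  ∀ (x : E n) (lam d : ℝ), 0 < u x → 0 ≤ d → (∀ i, pd i φ x = d * pd i u x) →
    4 * φ x * (φ x + u x * d) ≤ lam →
    φ x * ww g φ f x * u x ^ 2 * (2 * (mu g K x - covNorm g (mom g K) x) + T x ^ 2 +
        2 * T x * tr g K x - 2 * (1 + lam * ip g f f x) * er g K φ f T lam x ^ 2) +
      2 * u x ^ 2 * φ x ^ 2 * ip g T f x +
      2 * (φ x + u x * d) * ww g φ f x * ip (gb g φ f) u u x -
      φ x * ww g φ f x * u x * cl (gb g φ f) u x ≤ dv g (zz g K φ f T u) x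

/-- **RCI**: the divergence of the Hessian -/
def RCI : Prop := ∀ (n : ℕ) (g : Field n) (f : E n → ℝ), Met g → Smooth f → Sy (rc g) ∧
  ∀ x, ∑ j, mom g (hess g f) j x * gr g f j x = b2 g (rc g) f f x

/-- the scalar curvature of `gb` without third derivatives -/
def rb (g : Field n) (φ f : E n → ℝ) (x : E n) : ℝ :=
  scal g x + ((φ x * lap g f x + 2 * ip g φ f x) ^ 2 - φ x ^ 2 * normSq g (hess g f) x -
      4 * φ x * b2 g (hess g f) φ f x - 2 * ip g φ φ x * ip g f f x - 2 * ip g φ f x ^ 2) /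
        ww g φ f x ^ 2 -
    2 * φ x * (φ x * b2 g (rc g) f f x + ip g f f x * lap g φ x - b2 g (hess g φ) f f x) /
      ww g φ f x ^ 2 -
    2 * φ x ^ 2 * (φ x * ip g f f x * (lap g f x * ip g φ f x - 2 * b2 g (hess g f) φ f x) +
      φ x ^ 2 * (lap g f x * b2 g (hess g f) f f x - n1 g (hess g f) f x) +
      ip g f f x * (ip g φ f x ^ 2 - ip g f f x * ip g φ φ x) +
      φ x * ip g φ f x * b2 g (hess g f) f f x) / ww g φ f x ^ 4

/-- **RB**: the formula for the scalar curvature of `gb` -/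
def RB : Prop := ∀ (n : ℕ) (g : Field n) (φ f : E n → ℝ), Met g → Smooth φ → Smooth f →
  (∀ x, 0 < φ x) → ∀ x, scal (gb g φ f) x = rb g φ f x

/-- **FLP**: the scalar curvature at a minimum of `φ` -/
def FLP : Prop := ∀ (n : ℕ) (g : Field n) (φ f : E n → ℝ) (x : E n) (lam C : ℝ), Met g →
  Smooth φ → Smooth f → 0 < φ x → IsLocalMin φ x → φ x ^ 2 ≤ lam → 0 ≤ C →
  -(C * ip g f f x) ≤ b2 g (rc g) f f x →
  rb g φ f x ≤ scal g x + 2 * C + (1 + lam * ip g f f x) / ww g φ f x ^ 2 *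
    (φ x / ww g φ f x * gt g (hess g f) f lam x) ^ 2

/-! ### block D: tools -/

/-- the squared length of the Euclidean gradient -/
def g2 (u : E n → ℝ) (x : E n) : ℝ := ∑ i, pd i u x ^ 2

/-- **TRANS**: few points are far from the values in their neighbourhood -/
def TRANS : Prop := ∀ n : ℕ, ∃ C > (0 : ℝ), ∀ (u : E n → ℝ) (r ε : ℝ), Smooth u → 0 < r → 0 < ε →
  volume {x | ε * r ^ n < ∫ y in ball x r, (u y - u x) ^ 2} ≤
    ENNReal.ofReal (C * r ^ 2 / ε) * ∫⁻ x, ENNReal.ofReal (g2 u x)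

/-- the class of De Giorgi on the ball `ball x r` for the levels in `[k, k + 1]` -/
def DGc (u : E n → ℝ) (x : E n) (r k C : ℝ) : Prop :=
  ∀ k' ∈ Icc k (k + 1), ∀ s t : ℝ, 0 < s → s < t → t ≤ r →
    ∫ y in ball x s ∩ {y | k' < u y}, g2 u y ≤
      C / (t - s) ^ 2 * ∫ y in ball x t ∩ {y | k' < u y}, ((u y - k') ^ 2 + 1)

/-- **DG1**: the first lemma of De Giorgi -/
def DG1 : Prop := ∀ (n : ℕ) (C h : ℝ), 3 ≤ n → 0 < h → ∃ ε > (0 : ℝ),
  ∀ (u : E n → ℝ) (x : E n) (r k : ℝ), Smooth u → 0 < r → DGc u x r k C →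
    ∫ y in ball x r, max (u y - k) 0 ^ 2 ≤ ε * r ^ n → ∀ y ∈ ball x (r / 2), u y ≤ k + h

/-- the structure of the differential inequality at the scale `r` -/
def Str (u : E n → ℝ) (Z : Fin n → E n → ℝ) (c B r : ℝ) (y : E n) : Prop :=
  0 < u y ∧ c * u y * g2 u y - B * u y ^ 3 / r ^ 2 ≤ ∑ i, Z i y * pd i u y ∧
    ∑ i, Z i y ^ 2 ≤ B * u y ^ 2 * (g2 u y + u y ^ 2 / r ^ 2) ∧
    c * g2 u y - B * u y ^ 2 / r ^ 2 ≤ ∑ i, pd i (Z i) y

/-- the bounds of the metric at a point -/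
structure El (g : Field n) (Λ : ℝ) (x : E n) : Prop where
  g_hi : ∀ ξ : Fin n → ℝ, ∑ i, ∑ j, g x i j * ξ i * ξ j ≤ Λ * ∑ i, ξ i ^ 2
  g_lo : ∀ ξ : Fin n → ℝ, ∑ i, ξ i ^ 2 ≤ Λ * ∑ i, ∑ j, g x i j * ξ i * ξ j
  up_hi : ∀ ξ : Fin n → ℝ, ∑ i, ∑ j, up g i j x * ξ i * ξ j ≤ Λ * ∑ i, ξ i ^ 2
  up_lo : ∀ ξ : Fin n → ℝ, ∑ i, ξ i ^ 2 ≤ Λ * ∑ i, ∑ j, up g i j x * ξ i * ξ j
  dens_hi : dens g x ≤ Λ
  dens_lo : 1 ≤ Λ * dens g x

/-- **STRZ**: the vector field of the test has the structure `Str` -/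
def STRZ : Prop := ∀ (n : ℕ) (B : ℝ), 3 ≤ n → 1 ≤ B → ∃ c > (0 : ℝ), ∃ B' : ℝ,
  ∀ (g K : Field n) (φ f T u : E n → ℝ) (y : E n) (r d : ℝ), Met g → Sy K → Smooth φ → Smooth f →
    El g B y → 0 < r → r ≤ 1 → 0 < u y → 1 ≤ B * φ y → φ y ≤ B → 0 ≤ d → u y * d ≤ B →
    (∀ i, pd i φ y = d * pd i u y) → ip g f f y ≤ B → normSq g (hess g f) y ≤ B / r ^ 2 →
    normSq g K y ≤ B → |T y| ≤ B →
    2 * φ y * ww g φ f y * ip (gb g φ f) u u y - B * u y ^ 2 / r ^ 2 ≤ dv g (zz g K φ f T u) y →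
    Str u (fun i y => dens g y * zz g K φ f T u i y) c B' r y

/-- **CAC**: the inequality of Caccioppoli -/
def CAC : Prop := ∀ (n : ℕ) (c B k₀ : ℝ), 0 < c → ∃ C : ℝ, ∀ (u : E n → ℝ)
  (Z : Fin n → E n → ℝ) (x : E n) (r k : ℝ), Smooth u → (∀ i, Smooth (Z i)) → 0 < r → 0 < k →
  k ≤ k₀ → (∀ y ∈ ball x r, Str u Z c B r y) → DGc u x r k C

/-- **BAD**: the set of the points with a larger value nearby is small -/
def BAD : Prop := ∀ (n : ℕ) (c B k₀ h : ℝ), 3 ≤ n → 0 < c → 0 < h → ∃ C > (0 : ℝ),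
  ∀ (u : E n → ℝ) (Z : Fin n → E n → ℝ) (S : Set (E n)) (r : ℝ), Smooth u → (∀ i, Smooth (Z i)) →
    0 < r → (∀ x ∈ S, ∀ y ∈ ball x r, Str u Z c B r y) →
    volume {x | x ∈ S ∧ u x ≤ k₀ ∧ ∃ y ∈ ball x (r / 2), u x + h < u y} ≤
      ENNReal.ofReal (C * r ^ 2) * ∫⁻ x, ENNReal.ofReal (g2 u x)

end Vale.Agent.P366Y.C
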